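import Vale.Agent.P153.GFF.Scale
import Vale.Agent.P153.GFF.G3
import Vale.Agent.P153.CLT.PlaneVar
import Vale.Agent.P153.Asm.Limit
import Vale.Agent.P153.TwoPt.All

/-!
# P153, block F-B: the second moment of the smeared field is bounded
-/

namespace Vale.Agent.P153.F.RSW.AC

open MeasureTheory Filter Topology ProbabilityTheory
open Vale.Agent.P153.GFF
open Vale.Agent.P153.CLT (hev measurable_coord plane_bilin integrable_mul_coord)
open Vale.Agent.P153.TwoPt (varX Disc)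
open Vale.Agent.P153.Asm (sbx disc_zero varX_eq)

variable {P : Measure (ℤ × ℤ → ℤ)} {κ : ℝ}

/-- A function of the mesh converges if it does along all sequences of meshes. -/
lemma seq_lim {G : ℝ → ℝ} {l : ℝ} (h : ∀ δ : ℕ → ℝ, (∀ n, 0 < δ n) → (∀ n, δ n ≤ 1) →
    Tendsto δ atTop (𝓝 0) → Tendsto (fun n => G (δ n)) atTop (𝓝 l)) :
    Tendsto G (𝓝[>] 0) (𝓝 l) := by
  rw [tendsto_iff_seq_tendsto]
  intro u hu
  have h1 : ∀ᶠ n in atTop, 0 < u n ∧ u n ≤ 1 := by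
    have a1 : ∀ᶠ x : ℝ in 𝓝[>] 0, 0 < x ∧ x ≤ 1 := by
      have := Ioc_mem_nhdsGT (zero_lt_one' ℝ)
      filter_upwards [this] with x hx
      exact hx
    exact hu.eventually a1
  classical
  set δ : ℕ → ℝ := fun n => if 0 < u n ∧ u n ≤ 1 then u n else 1 with hd
  have h2 : ∀ᶠ n in atTop, δ n = u n := by
    filter_upwards [h1] with n hn
    rw [hd]
    simp only
    rw [if_pos hn]
  have h3 : ∀ n, 0 < δ n := by
    intro n
    rw [hd]
    simp only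
    split_ifs with h
    · exact h.1
    · exact one_pos
  have h4 : ∀ n, δ n ≤ 1 := by
    intro n
    rw [hd]
    simp only
    split_ifs with h
    · exact h.2
    · exact le_rfl
  have h5 : Tendsto δ atTop (𝓝 0) :=
    (tendsto_nhds_of_tendsto_nhdsWithin hu).congr' (h2.mono fun n hn => hn.symm)
  refine (h δ h3 h4 h5).congr' ?_
  filter_upwards [h2] with n hn
  rw [Function.comp_apply, hn]

/-- The variance of the statistic of the even rows. -/
lemma row_var (hP : Plane P) {f : ℝ × ℝ → ℝ} {L : ℕ → ℝ} {a : ℕ → ℤ → ℤ → ℝ} {M : ℝ}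
    (hD : Disc f L a M) (n : ℕ) :
    ∫ φ : ℤ × ℤ → ℤ, (∑ᶠ p : ℤ × ℤ, a n p.1 p.2 * (φ (GFF.ev p.1 p.2) : ℝ)) ^ 2 ∂P =
      varX (Vrow P) (a n) ∧
    Integrable (fun φ : ℤ × ℤ → ℤ =>
      (∑ᶠ p : ℤ × ℤ, a n p.1 p.2 * (φ (GFF.ev p.1 p.2) : ℝ)) ^ 2) P := by
  set A := sbx M (L n) with hA
  have hz : ∀ j y, j ∉ A ∨ y ∉ A → a n j y = 0 := disc_zero hD n
  have h1 : ∀ φ : ℤ × ℤ → ℤ, ∑ᶠ p : ℤ × ℤ, a n p.1 p.2 * (φ (GFF.ev p.1 p.2) : ℝ) =
      ∑ p ∈ A ×ˢ A, a n p.1 p.2 * hev p φ := by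
    intro φ
    refine finsum_eq_sum_of_support_subset _ fun p hp => ?_
    by_contra h
    refine hp ?_
    rw [Finset.mem_coe, Finset.mem_product, not_and_or] at h
    simp only
    rw [hz _ _ h, zero_mul]
  have h0 : ∑ p ∈ A ×ˢ A, a n p.1 p.2 = 0 := by
    rw [← hD.sum_zero n]
    symm
    refine finsum_eq_sum_of_support_subset _ fun p hp => ?_
    by_contra h
    refine hp ?_
    rw [Finset.mem_coe, Finset.mem_product, not_and_or] at h
    exact hz _ _ h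
  constructor
  · rw [varX_eq hz]
    have h2 := plane_bilin hP (A ×ˢ A) (A ×ˢ A) (fun p => a n p.1 p.2) (fun p => a n p.1 p.2) h0 h0
    simp_rw [h1, sq]
    rw [h2]
    rfl
  · have e : (fun φ : ℤ × ℤ → ℤ =>
        (∑ᶠ p : ℤ × ℤ, a n p.1 p.2 * (φ (GFF.ev p.1 p.2) : ℝ)) ^ 2) =
        fun φ => ∑ p ∈ A ×ˢ A, ∑ q ∈ A ×ˢ A,
          (a n p.1 p.2 * a n q.1 q.2) * (((φ (GFF.ev p.1 p.2) : ℤ) : ℝ) * ((φ (GFF.ev q.1 q.2) : ℤ) : ℝ)) := by
      funext φ
      rw [h1, sq, Finset.sum_mul_sum]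
      refine Finset.sum_congr rfl fun p _ => Finset.sum_congr rfl fun q _ => ?_
      unfold hev
      ring
    rw [e]
    exact integrable_finsetSum _ fun p _ => integrable_finsetSum _ fun q _ =>
      (integrable_mul_coord hP _ _).const_mul _

/-- **Bounded second moments.** -/
theorem second (hP : Plane P) (hS : SpecOut P κ) {f : ℝ × ℝ → ℝ} (hf : Test f) :
    ∃ D : ℝ, ∀ᶠ δ : ℝ in 𝓝[>] 0, ∫ φ, (smear φ δ f) ^ 2 ∂P ≤ D := by
  obtain ⟨K, hK⟩ := hf.csts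
  obtain ⟨A, hA0, hA⟩ := growth (grow_row hS)
  obtain ⟨m, C, k0, hspec⟩ := hS
  set E1 : ℝ → ℝ := fun δ => ∫ φ, (smear φ δ f - rowS δ f φ) ^ 2 ∂P with hE1
  set E2 : ℝ → ℝ := fun δ => ∫ φ, (rowS δ f φ) ^ 2 ∂P with hE2
  have l1 : Tendsto E1 (𝓝[>] 0) (𝓝 0) := seq_lim fun δ h1 h2 h3 =>
    (close hP (dec hspec) hA0 hA hK δ h1 h2 h3).1
  have l2 : Tendsto E2 (𝓝[>] 0) (𝓝 (TwoPt.sig (√3) κ (ft f))) := seq_lim fun δ h1 h2 h3 => by
    have hD := disc hK hf.2.2 δ h1 h2 h3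
    have h4 := TwoPt.p1 _ _ _ _ _ _ hspec _ _ _ _ hD
    refine h4.congr fun n => ?_
    exact (row_var hP hD n).1.symm
  have l3 : Tendsto (fun δ => 2 * E1 δ + 2 * E2 δ) (𝓝[>] 0)
      (𝓝 (2 * 0 + 2 * TwoPt.sig (√3) κ (ft f))) := (l1.const_mul 2).add (l2.const_mul 2)
  refine ⟨2 * TwoPt.sig (√3) κ (ft f) + 1, ?_⟩
  have h5 := l3.eventually_le_const (u := 2 * TwoPt.sig (√3) κ (ft f) + 1) (by linarith)
  have h6 : ∀ᶠ δ : ℝ in 𝓝[>] 0, 0 < δ ∧ δ ≤ 1 := by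
    filter_upwards [Ioc_mem_nhdsGT (zero_lt_one' ℝ)] with x hx
    exact hx
  filter_upwards [h5, h6] with δ hδ hδ'
  refine le_trans ?_ hδ
  have i1 : Integrable (fun φ => (smear φ δ f - rowS δ f φ) ^ 2) P := by
    -- along the sequence `δ / (n + 1)`
    have h1 : ∀ n : ℕ, 0 < δ / ((n : ℝ) + 1) := fun n => div_pos hδ'.1 (by positivity)
    have h2 : ∀ n : ℕ, δ / ((n : ℝ) + 1) ≤ 1 := fun n => by
      rw [div_le_one (by positivity)]
      have : (0 : ℝ) ≤ n := by positivity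
      linarith [hδ'.2]
    have h3 : Tendsto (fun n : ℕ => δ / ((n : ℝ) + 1)) atTop (𝓝 0) := by
      have := (tendsto_one_div_add_atTop_nhds_zero_nat (𝕜 := ℝ)).const_mul δ
      rw [mul_zero] at this
      refine this.congr fun n => ?_
      ring
    have h4 := (close hP (dec hspec) hA0 hA hK _ h1 h2 h3).2 0
    simpa using h4
  have i2 : Integrable (fun φ => (rowS δ f φ) ^ 2) P := by
    have h1 : ∀ n : ℕ, 0 < δ / ((n : ℝ) + 1) := fun n => div_pos hδ'.1 (by positivity)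
    have h2 : ∀ n : ℕ, δ / ((n : ℝ) + 1) ≤ 1 := fun n => by
      rw [div_le_one (by positivity)]
      have : (0 : ℝ) ≤ n := by positivity
      linarith [hδ'.2]
    have h3 : Tendsto (fun n : ℕ => δ / ((n : ℝ) + 1)) atTop (𝓝 0) := by
      have := (tendsto_one_div_add_atTop_nhds_zero_nat (𝕜 := ℝ)).const_mul δ
      rw [mul_zero] at this
      refine this.congr fun n => ?_
      ring
    have h4 := (row_var hP (disc hK hf.2.2 _ h1 h2 h3) 0).2
    simpa [rowS] using h4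
  calc ∫ φ, (smear φ δ f) ^ 2 ∂P
      ≤ ∫ φ, (2 * (smear φ δ f - rowS δ f φ) ^ 2 + 2 * (rowS δ f φ) ^ 2) ∂P := by
        refine integral_mono_of_nonneg (Eventually.of_forall fun φ => sq_nonneg _)
          ((i1.const_mul 2).add (i2.const_mul 2)) (Eventually.of_forall fun φ => ?_)
        simp only
        nlinarith [sq_nonneg (smear φ δ f - 2 * rowS δ f φ)]
    _ = 2 * E1 δ + 2 * E2 δ := by
        rw [integral_add (i1.const_mul 2) (i2.const_mul 2), integral_const_mul, integral_const_mul]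

end Vale.Agent.P153.F.RSW.AC
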