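import Vale.Agent.P153.F.RSW.AcDef
import Vale.Agent.P153.F.RSW.AcMom
import Vale.Agent.P153.F.RSW.Bump
import Vale.Agent.P145.FB.ACa

/-!
# P153, block F-B: anti-concentration of the smeared height differences in the plane
-/

namespace Vale.Agent.P153.F.RSW.AC

open MeasureTheory Filter Topology ProbabilityTheory
open Vale.Agent.P153.GFF

variable {P : Measure (ℤ × ℤ → ℤ)} {κ : ℝ}

/-! ### Weights of the bumps -/

lemma phi_bd (c z : ℝ × ℝ) (h : |c.1| + |c.2| + 1 < |z.1| ∨ |c.1| + |c.2| + 1 < |z.2|) :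
    phi c z = 0 := by
  by_contra hne
  have h1 := phi_supp hne
  have h2 := abs_sub_abs_le_abs_sub z.1 c.1
  have h3 := abs_sub_abs_le_abs_sub z.2 c.2
  have h4 := abs_nonneg c.1
  have h5 := abs_nonneg c.2
  rcases h with h | h
  · linarith [h1.1]
  · linarith [h1.2]

/-- The weights of the bump at `c` at scale `s`. -/
noncomputable def bw (c : ℝ × ℝ) (s : ℕ) : (ℤ × ℤ) →₀ ℝ :=
  Finsupp.onFinset (box (1 / s) (|c.1| + |c.2| + 1))
    (fun v => if v ∈ box (1 / s) (|c.1| + |c.2| + 1) then wt (1 / s) (phi c) v else 0) (by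
      intro v hv
      by_contra h
      rw [if_neg h] at hv
      exact hv rfl)

lemma bw_sum (c : ℝ × ℝ) (s : ℕ) (g : ℤ × ℤ → ℝ → ℝ) (hg : ∀ v, g v 0 = 0) :
    (bw c s).sum g = ∑ v ∈ box (1 / s) (|c.1| + |c.2| + 1), g v (wt (1 / s) (phi c) v) := by
  unfold bw
  rw [Finsupp.onFinset_sum _ hg]
  refine Finset.sum_congr rfl fun v hv => ?_
  rw [if_pos hv]

lemma ev_bw (c : ℝ × ℝ) {s : ℕ} (hs : 0 < s) (φ : ℤ × ℤ → ℤ) :
    evT (bw c s) φ = smear φ (1 / s) (phi c) := by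
  have h0 : (0 : ℝ) < 1 / s := by positivity
  unfold evT
  rw [bw_sum c s _ (fun v => by simp), smear_eq_sum h0 (by positivity) (phi_cont c) (phi_compact c)
    (phi_bd c)]
  exact Finset.sum_congr rfl fun v _ => mul_comm _ _

lemma mass_bw (c : ℝ × ℝ) {s : ℕ} (hs : 0 < s) : ((bw c s).sum fun _ a => a) = 1 := by
  have h0 : (0 : ℝ) < 1 / s := by positivity
  rw [bw_sum c s _ (fun v => rfl), sum_wt h0 (by positivity) (phi_cont c) (phi_compact c)
    (phi_bd c), phi_int]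

lemma supp_bw (c : ℝ × ℝ) {s : ℕ} (hs : 0 < s) {v : ℤ × ℤ} (hv : v ∈ (bw c s).support) :
    |(v.1 : ℝ) + v.2 / 2 - s * c.1| ≤ s / 2 + 2 ∧ |(v.2 : ℝ) * (√3 / 2) - s * c.2| ≤ s / 2 + 1 := by
  have hs' : (0 : ℝ) < s := by exact_mod_cast hs
  rw [Finsupp.mem_support_iff] at hv
  have hw : wt (1 / s) (phi c) v ≠ 0 := by
    intro h
    apply hv
    show (if v ∈ box (1 / s) (|c.1| + |c.2| + 1) then wt (1 / s) (phi c) v else 0) = 0
    rw [h, ite_self]
  by_contra hno
  apply hw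
  unfold wt
  have h0 : ∀ u : ℝ × ℝ, ker u * phi c ((1 / (s : ℝ)) • (u + pos v)) = 0 := by
    intro u
    by_contra hne
    have hk : ker u ≠ 0 := left_ne_zero_of_mul hne
    have hf : phi c ((1 / (s : ℝ)) • (u + pos v)) ≠ 0 := right_ne_zero_of_mul hne
    have h1 : ¬(2 < |u.1| ∨ 1 < |u.2|) := fun h => hk (ker_eq_zero h)
    rw [not_or, not_lt, not_lt] at h1
    obtain ⟨h2, h3⟩ := phi_supp hf
    simp only [Prod.smul_fst, Prod.smul_snd, Prod.fst_add, Prod.snd_add, pos, smul_eq_mul] at h2 h3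
    have key : ∀ x y p d : ℝ, |1 / (s : ℝ) * (x + p) - y| < 1 / 2 → |x| ≤ d →
        |p - s * y| ≤ s / 2 + d := by
      intro x y p d a1 a2
      have e : p - s * y = s * (1 / (s : ℝ) * (x + p) - y) - x := by
        field_simp
        ring
      rw [e]
      refine (abs_sub _ _).trans ?_
      rw [abs_mul, abs_of_pos hs']
      have := mul_le_mul_of_nonneg_left a1.le hs'.le
      linarith
    exact hno ⟨key _ _ _ _ h2 h1.1, key _ _ _ _ h3 h1.2⟩
  simp_rw [h0]
  simp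

lemma s3 : (17 : ℝ) / 10 < √3 ∧ √3 < 18 / 10 := by
  constructor
  · rw [Real.lt_sqrt (by norm_num)]
    norm_num
  · rw [Real.sqrt_lt' (by norm_num)]
    norm_num

/-- The support of the weights of a bump centred on the horizontal axis. -/
lemma supp_ax (a : ℝ) {s : ℕ} (hs : 20 ≤ s) {v : ℤ × ℤ} (hv : v ∈ (bw (a, 0) s).support) :
    |(v.2 : ℝ)| < s ∧ |(v.1 : ℝ) - s * a| < s := by
  have hs' : (20 : ℝ) ≤ s := by exact_mod_cast hs
  obtain ⟨h1, h2⟩ := supp_bw (a, 0) (by omega) hv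
  simp only [mul_zero, sub_zero] at h1 h2
  rw [abs_mul, abs_of_pos (by positivity : (0 : ℝ) < √3 / 2)] at h2
  have h3 := s3.1
  have h4 : |(v.2 : ℝ)| ≤ (s / 2 + 1) * (10 / 8) := by
    have h5 : |(v.2 : ℝ)| * (17 / 20) ≤ s / 2 + 1 := by
      refine le_trans ?_ h2
      exact mul_le_mul_of_nonneg_left (by linarith) (abs_nonneg _)
    nlinarith [abs_nonneg (v.2 : ℝ)]
  constructor
  · linarith
  · have h6 : (v.1 : ℝ) - s * a = ((v.1 : ℝ) + v.2 / 2 - s * a) - v.2 / 2 := by ring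
    rw [h6]
    refine lt_of_le_of_lt (abs_sub _ _) ?_
    rw [abs_div, abs_of_pos (by norm_num : (0 : ℝ) < 2)]
    linarith

/-! ### Linearity -/

lemma smear_sub (h : ℤ × ℤ → ℤ) {δ : ℝ} (hδ : 0 < δ) {F G : ℝ × ℝ → ℝ} (hF : Continuous F)
    (cF : HasCompactSupport F) (hG : Continuous G) (cG : HasCompactSupport G) :
    smear h δ (fun x => F x - G x) = smear h δ F - smear h δ G := by
  obtain ⟨R, hR0, hR⟩ := g3radius cF
  obtain ⟨S, hS0, hS⟩ := g3radius cG
  have hM0 : 0 ≤ max R S := le_max_of_le_left hR0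
  have hFM : ∀ z : ℝ × ℝ, (max R S < |z.1| ∨ max R S < |z.2|) → F z = 0 := fun z hz =>
    hR z (hz.imp (fun h => (le_max_left _ _).trans_lt h) (fun h => (le_max_left _ _).trans_lt h))
  have hGM : ∀ z : ℝ × ℝ, (max R S < |z.1| ∨ max R S < |z.2|) → G z = 0 := fun z hz =>
    hS z (hz.imp (fun h => (le_max_right _ _).trans_lt h) (fun h => (le_max_right _ _).trans_lt h))
  have e0 : smear h δ (fun x => F x - G x) =
      ∑ v ∈ box δ (max R S), (h v : ℝ) * wt δ (fun x => F x - G x) v :=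
    smear_eq_sum hδ hM0 (hF.sub hG) (cF.sub cG) (fun z hz => by
      show F z - G z = 0
      rw [hFM z hz, hGM z hz, sub_zero]) h
  rw [e0, smear_eq_sum hδ hM0 hF cF hFM h, smear_eq_sum hδ hM0 hG cG hGM h, ← Finset.sum_sub_distrib]
  refine Finset.sum_congr rfl fun v _ => ?_
  have h2 : wt δ (fun x => F x - G x) v = wt δ F v - wt δ G v := by
    unfold wt
    rw [← mul_sub, ← integral_sub (g3wt_int hδ hF cF v) (g3wt_int hδ hG cG v)]
    congr 1
    refine integral_congr_ae (Eventually.of_forall fun u => ?_)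
    simp only
    ring
  rw [h2, mul_sub]

lemma gffCov_smul (t : ℝ) (f : ℝ × ℝ → ℝ) :
    gffCov (fun x => t * f x) (fun x => t * f x) = t ^ 2 * gffCov f f := by
  unfold gffCov
  rw [← integral_const_mul]
  congr 1
  funext x
  rw [← integral_const_mul]
  congr 1
  funext y
  ring

lemma smear_smul (h : ℤ × ℤ → ℤ) (δ t : ℝ) (f : ℝ × ℝ → ℝ) :
    smear h δ (fun x => t * f x) = t * smear h δ f := by
  unfold smear
  rw [← integral_const_mul]
  congr 1
  funext x
  ring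

lemma test_smul {f : ℝ × ℝ → ℝ} (hf : Test f) (t : ℝ) : Test (fun x => t * f x) := by
  refine ⟨contDiff_const.mul hf.1, hf.2.1.mul_left, ?_⟩
  rw [integral_const_mul, hf.2.2, mul_zero]

lemma test_sub (c d : ℝ × ℝ) : Test (fun x => phi c x - phi d x) := by
  refine ⟨(phi_smooth _).sub (phi_smooth _), (phi_compact _).sub (phi_compact _), ?_⟩
  rw [integral_sub (phi_integrable _) (phi_integrable _), phi_int, phi_int, sub_self]

/-! ### Anti-concentration -/

theorem anti_dif (hP : Plane P) (hS : SpecOut P κ) (hC : RowCLT P κ) (hκ : 0 < κ) (K ε : ℝ)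
    (hε : 0 < ε) :
    ∃ M1 : ℕ, 1 ≤ M1 ∧ ∀ M : ℕ, M1 ≤ M → ∀ᶠ δ : ℝ in 𝓝[>] 0,
      P.real {φ | |smear φ δ (dif (2 * M))| ≤ K} ≤ ε := by
  have := hP.prob
  have hs3 : (0 : ℝ) < √3 := by positivity
  set lam : ℝ := κ / √3 with hlam
  have hl : 0 < lam := by positivity
  obtain ⟨a, ha⟩ := cov_dif
  set K' : ℝ := max K 1 with hK'
  have hK1 : 0 < K' := lt_of_lt_of_le one_pos (le_max_right _ _)
  set V : ℝ := (4 * K' / ε) ^ 2 / lam + 1 with hV
  refine ⟨⌈Real.exp (2 * Real.pi * (V - a))⌉₊ + 1, by omega, fun M hM => ?_⟩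
  have hM1 : (1 : ℝ) ≤ M := by
    have : 1 ≤ M := by omega
    exact_mod_cast this
  have hl1 : (1 : ℝ) ≤ 2 * M := by linarith
  have hl0 : (0 : ℝ) < 2 * M := by linarith
  have hMe : Real.exp (2 * Real.pi * (V - a)) ≤ 2 * M := by
    have h1 := Nat.le_ceil (Real.exp (2 * Real.pi * (V - a)))
    have h2 : ((⌈Real.exp (2 * Real.pi * (V - a))⌉₊ : ℕ) : ℝ) ≤ M := by
      have : ⌈Real.exp (2 * Real.pi * (V - a))⌉₊ ≤ M := by omega
      exact_mod_cast this
    linarith
  have hlog : 2 * Real.pi * (V - a) ≤ Real.log (2 * M) := by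
    rw [← Real.log_exp (2 * Real.pi * (V - a))]
    exact Real.log_le_log (Real.exp_pos _) hMe
  have hcov : V ≤ gffCov (dif (2 * M)) (dif (2 * M)) := by
    have h1 := ha (2 * M) hl1
    have h2 : V - a ≤ (2 * Real.pi)⁻¹ * Real.log (2 * M) := by
      have h3 := mul_le_mul_of_nonneg_left hlog pi_pos'.le
      have h4 : (2 * Real.pi)⁻¹ * (2 * Real.pi * (V - a)) = V - a := by
        have : (2 * Real.pi) ≠ 0 := by positivity
        field_simp
      linarith
    linarith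
  have hVpos : 0 < V := by positivity
  have hTest : Test (dif (2 * M)) := dif_test hl0
  set v : ℝ := lam * gffCov (dif (2 * M)) (dif (2 * M)) with hv
  have hv0 : 0 < v := mul_pos hl (lt_of_lt_of_le hVpos hcov)
  have hvV : (4 * K' / ε) ^ 2 ≤ v := by
    have h1 : lam * V ≤ v := mul_le_mul_of_nonneg_left hcov hl.le
    have h2 : lam * V = (4 * K' / ε) ^ 2 + lam := by
      rw [hV]
      field_simp
    linarith
  have hlim : ∀ t : ℝ, Tendsto (fun δ => ∫ φ, Complex.exp (Complex.I *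
      ((t * smear φ δ (dif (2 * M)) : ℝ) : ℂ)) ∂P) (𝓝[>] 0)
      (𝓝 (Complex.exp (-((v / 2 * t ^ 2 : ℝ) : ℂ)))) := by
    intro t
    have h1 := char_fun hP hS hC (test_smul hTest t)
    simp_rw [smear_smul, gffCov_smul] at h1
    have e : κ / √3 * (t ^ 2 * gffCov (dif (2 * M)) (dif (2 * M))) / 2 = v / 2 * t ^ 2 := by
      rw [hv, hlam]
      ring
    rw [e] at h1
    exact h1
  have hmain := Vale.Agent.P145.FB.AC.anti (P := P) (X := fun δ φ => smear φ δ (dif (2 * M)))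
    (fun δ => (g3meas δ hTest).aemeasurable) hv0 hlim hK1 (η := ε / 2) (by positivity)
  filter_upwards [hmain] with δ hδ
  have h1 : 4 * K' / ε ≤ Real.sqrt v := by
    refine Real.le_sqrt_of_sq_le hvV
  have h2 : 0 < 4 * K' / ε := by positivity
  have h3 : 2 * K' / Real.sqrt v ≤ ε / 2 := by
    rw [div_le_div_iff₀ (lt_of_lt_of_le h2 h1) (by norm_num)]
    have h4 := mul_le_mul_of_nonneg_left h1 hε.le
    have h5 : ε * (4 * K' / ε) = 4 * K' := by field_simp
    linarith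
  have h4 : P.real {φ | |smear φ δ (dif (2 * M))| ≤ K} ≤
      P.real {φ | |smear φ δ (dif (2 * M))| ≤ K'} := by
    refine measureReal_mono fun φ hφ => ?_
    have hω' : |smear φ δ (dif (2 * M))| ≤ K := hφ
    exact hω'.trans (le_max_left _ _)
  linarith

/-- **Anti-concentration.** -/
theorem acT (hP : Plane P) (hS : SpecOut P κ) (hC : RowCLT P κ) (hκ : 0 < κ) : AcT P := by
  obtain ⟨D1, hD1⟩ := second hP hS (test_sub (0, 0) (6, 0))
  obtain ⟨D2, hD2⟩ := second hP hS (test_sub (3, 0) (9, 0))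
  refine ⟨max D1 D2, fun K ε hε => ?_⟩
  obtain ⟨M1, hM1, hM⟩ := anti_dif hP hS hC hκ K ε hε
  refine ⟨M1, hM1, fun M hMM => ?_⟩
  have hMpos : 1 ≤ M := le_trans hM1 hMM
  have hMr : (1 : ℝ) ≤ M := by exact_mod_cast hMpos
  have t1 : Tendsto (fun s : ℕ => 1 / (s : ℝ)) atTop (𝓝[>] 0) := by
    rw [tendsto_nhdsWithin_iff]
    refine ⟨tendsto_one_div_atTop_nhds_zero_nat, ?_⟩
    filter_upwards [eventually_gt_atTop 0] with s hs
    have : (0 : ℝ) < s := by exact_mod_cast hs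
    exact one_div_pos.2 this
  have t2 : Tendsto (fun s : ℕ => 1 / ((2 * M * s : ℕ) : ℝ)) atTop (𝓝[>] 0) := by
    refine t1.comp ?_
    refine tendsto_atTop_mono (fun s => ?_) tendsto_id
    show s ≤ 2 * M * s
    nlinarith
  have ev1 := t1.eventually hD1
  have ev2 := t2.eventually hD2
  have ev3 := t1.eventually (hM M hMM)
  obtain ⟨s0, hs0⟩ := Filter.eventually_atTop.1 (ev1.and (ev2.and ev3))
  refine ⟨max s0 20, by omega, fun s hs => ?_⟩
  have hs4 : 20 ≤ s := le_trans (le_max_right _ _) hs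
  obtain ⟨h1, h2, h3⟩ := hs0 s (le_trans (le_max_left _ _) hs)
  have hspos : 0 < s := by omega
  have hRpos : 0 < 2 * M * s := by positivity
  have hs4' : 20 ≤ 2 * M * s := by nlinarith
  have hsr : (20 : ℝ) ≤ s := by exact_mod_cast hs4
  have hRr : (20 : ℝ) ≤ ((2 * M * s : ℕ) : ℝ) := by exact_mod_cast hs4'
  refine ⟨bw (0, 0) s, bw (6, 0) s, bw (3, 0) (2 * M * s), bw (9, 0) (2 * M * s),
    ⟨mass_bw _ hspos, mass_bw _ hspos, mass_bw _ hRpos, mass_bw _ hRpos⟩, ?_, ?_, ?_, ?_, ?_, ?_, ?_⟩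
  · intro q hq
    obtain ⟨a2, a1⟩ := supp_ax 0 hs4 hq
    rw [mul_zero, sub_zero] at a1
    constructor
    · exact_mod_cast a1
    · exact_mod_cast a2
  · intro q hq
    obtain ⟨-, a1⟩ := supp_ax 6 hs4 hq
    rw [abs_lt] at a1
    rify
    linarith [a1.1]
  · intro q hq
    obtain ⟨a2, a1⟩ := supp_ax 3 hs4' hq
    push_cast at a1 a2
    constructor
    · rify
      have e : (q.1 : ℝ) - 3 * (2 * M * s) = (q.1 : ℝ) - 2 * M * s * 3 := by ring
      rw [e]
      exact a1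
    · rify
      exact a2
  · intro q hq
    obtain ⟨-, a1⟩ := supp_ax 9 hs4' hq
    push_cast at a1
    rw [abs_lt] at a1
    push_cast at hRr
    rify
    linarith [a1.1]
  · refine le_trans ?_ (le_max_left _ _)
    have h0 : (0 : ℝ) < 1 / s := by positivity
    refine le_trans (le_of_eq ?_) h1
    refine integral_congr_ae (Eventually.of_forall fun φ => ?_)
    simp only
    rw [ev_bw _ hspos, ev_bw _ hspos,
      smear_sub φ h0 (phi_cont _) (phi_compact _) (phi_cont _) (phi_compact _)]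
  · refine le_trans ?_ (le_max_right _ _)
    have h0 : (0 : ℝ) < 1 / ((2 * M * s : ℕ) : ℝ) := by positivity
    refine le_trans (le_of_eq ?_) h2
    refine integral_congr_ae (Eventually.of_forall fun φ => ?_)
    simp only
    rw [ev_bw _ hRpos, ev_bw _ hRpos,
      smear_sub φ h0 (phi_cont _) (phi_compact _) (phi_cont _) (phi_compact _)]
  · have hl0 : (0 : ℝ) < 2 * M := by linarith
    have e : ∀ φ : ℤ × ℤ → ℤ, evT (bw (0, 0) s) φ - evT (bw (3, 0) (2 * M * s)) φ =
        smear φ (1 / s) (dif (2 * M)) := by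
      intro φ
      have hs1 : (0 : ℝ) < 1 / s := by positivity
      have e1 : (1 : ℝ) / ((2 * M * s : ℕ) : ℝ) = 1 / s / (2 * M) := by
        push_cast
        field_simp
      have e2 := smear_sub φ hs1 (phi_cont (0, 0)) (phi_compact _)
        (psi_smooth (2 * M) (3, 0)).continuous (psi_compact hl0 _)
      rw [ev_bw _ hspos, ev_bw _ hRpos, e1, ← smear_scale φ hl0, ← e2]
      rfl
    simp_rw [e]
    exact h3

end Vale.Agent.P153.F.RSW.AC
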