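import Vale.Agent.P153.A.Dom
import Vale.Agent.P153.A.Super
import Vale.Agent.P153.A.E1

/-!
# P153, block F-B: under the plane measure the law of `σ` is dominated by the law of `τ`

`dom_sigma`: `E f(σ) ≤ E f(τ)` for increasing local `f`. Proof: exchange the roles of the two spins
in a box; the law of a free spin (the other one is fixed on the boundary) is positively associated,
and its law conditioned to be `+` off a smaller region is the law of `τ` in that region.
-/

namespace Vale.Agent.P153.F.RSW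

open MeasureTheory Filter Topology Finset Vale.Agent.P153.A
open Vale.Agent.P153.GFF (Adj)

/-- Association for a supermodular weight on a finite sublattice. -/
theorem fkg_gen (A : Finset Sp) (W : Sp → ℝ) (hW0 : ∀ a, 0 ≤ W a)
    (hs : ∀ a ∈ A, ∀ b ∈ A, a ⊔ b ∈ A) (hi : ∀ a ∈ A, ∀ b ∈ A, a ⊓ b ∈ A)
    (hW : ∀ a ∈ A, ∀ b ∈ A, W a * W b ≤ W (a ⊔ b) * W (a ⊓ b)) (f g : Sp → ℝ)
    (hf : Monotone f) (hg : Monotone g) (hf0 : ∀ a, 0 ≤ f a) (hg0 : ∀ a, 0 ≤ g a) :
    (∑ a ∈ A, W a * f a) * (∑ a ∈ A, W a * g a) ≤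
      (∑ a ∈ A, W a) * ∑ a ∈ A, W a * (f a * g a) := by
  classical
  open scoped FinsetFamily in
  have hinf : A ⊼ A = A := by
    apply Finset.Subset.antisymm
    · intro x hx
      obtain ⟨a, ha, b, hb, rfl⟩ := Finset.mem_infs.1 hx
      exact hi a ha b hb
    · exact Finset.subset_infs_self
  open scoped FinsetFamily in
  have hsup : A ⊻ A = A := by
    apply Finset.Subset.antisymm
    · intro x hx
      obtain ⟨a, ha, b, hb, rfl⟩ := Finset.mem_sups.1 hx
      exact hs a ha b hb
    · exact Finset.subset_sups_self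
  have key := four_functions_theorem (α := Sp) (β := ℝ)
    (f₁ := fun τ => if τ ∈ A then W τ * f τ else 0)
    (f₂ := fun τ => if τ ∈ A then W τ * g τ else 0)
    (f₃ := fun τ => if τ ∈ A then W τ else 0)
    (f₄ := fun τ => if τ ∈ A then W τ * (f τ * g τ) else 0)
    (fun τ => by
      simp only [Pi.zero_apply]
      split_ifs
      · exact mul_nonneg (hW0 _) (hf0 _)
      · exact le_rfl)
    (fun τ => by
      simp only [Pi.zero_apply]
      split_ifs
      · exact mul_nonneg (hW0 _) (hg0 _)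
      · exact le_rfl)
    (fun τ => by
      simp only [Pi.zero_apply]
      split_ifs
      · exact hW0 _
      · exact le_rfl)
    (fun τ => by
      simp only [Pi.zero_apply]
      split_ifs
      · exact mul_nonneg (hW0 _) (mul_nonneg (hf0 _) (hg0 _))
      · exact le_rfl)
    (fun a b => by
      by_cases ha : a ∈ A
      · by_cases hb : b ∈ A
        · simp only [if_pos ha, if_pos hb, if_pos (hs a ha b hb), if_pos (hi a ha b hb)]
          have h4 : f a * g b ≤ f (a ⊔ b) * g (a ⊔ b) :=
            mul_le_mul (hf le_sup_left) (hg le_sup_right) (hg0 _) (hf0 _)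
          calc W a * f a * (W b * g b) = (W a * W b) * (f a * g b) := by ring
            _ ≤ (W (a ⊔ b) * W (a ⊓ b)) * (f (a ⊔ b) * g (a ⊔ b)) :=
              mul_le_mul (hW a ha b hb) h4 (mul_nonneg (hf0 _) (hg0 _))
                (mul_nonneg (hW0 _) (hW0 _))
            _ = W (a ⊓ b) * (W (a ⊔ b) * (f (a ⊔ b) * g (a ⊔ b))) := by ring
        · simp only [if_neg hb, mul_zero]
          apply mul_nonneg
          · split_ifs
            · exact hW0 _
            · exact le_rfl
          · split_ifs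
            · exact mul_nonneg (hW0 _) (mul_nonneg (hf0 _) (hg0 _))
            · exact le_rfl
      · simp only [if_neg ha, zero_mul]
        apply mul_nonneg
        · split_ifs
          · exact hW0 _
          · exact le_rfl
        · split_ifs
          · exact mul_nonneg (hW0 _) (mul_nonneg (hf0 _) (hg0 _))
          · exact le_rfl)
    A A
  rw [hinf, hsup] at key
  simpa only [Finset.sum_ite_mem, Finset.inter_self] using key

/-- Association without sign conditions. -/
theorem fkg_gen' (A : Finset Sp) (W : Sp → ℝ) (hW0 : ∀ a, 0 ≤ W a)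
    (hs : ∀ a ∈ A, ∀ b ∈ A, a ⊔ b ∈ A) (hi : ∀ a ∈ A, ∀ b ∈ A, a ⊓ b ∈ A)
    (hW : ∀ a ∈ A, ∀ b ∈ A, W a * W b ≤ W (a ⊔ b) * W (a ⊓ b)) (f g : Sp → ℝ)
    (hf : Monotone f) (hg : Monotone g) :
    (∑ a ∈ A, W a * f a) * (∑ a ∈ A, W a * g a) ≤
      (∑ a ∈ A, W a) * ∑ a ∈ A, W a * (f a * g a) := by
  have key := fkg_gen A W hW0 hs hi hW (fun τ => f τ - f ⊥) (fun τ => g τ - g ⊥)
    (fun a b h => sub_le_sub_right (hf h) _) (fun a b h => sub_le_sub_right (hg h) _)
    (fun x => sub_nonneg.2 (hf bot_le)) (fun x => sub_nonneg.2 (hg bot_le))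
  set Z := ∑ τ ∈ A, W τ with hZdef
  have e1 : ∀ (u : Sp → ℝ) (c : ℝ), (∑ τ ∈ A, W τ * (u τ - c)) =
      (∑ τ ∈ A, W τ * u τ) - c * Z := by
    intro u c
    rw [hZdef, Finset.mul_sum, ← Finset.sum_sub_distrib]
    exact Finset.sum_congr rfl fun _ _ => by ring
  have e2 : (∑ τ ∈ A, W τ * ((f τ - f ⊥) * (g τ - g ⊥))) =
      (∑ τ ∈ A, W τ * (f τ * g τ)) - g ⊥ * (∑ τ ∈ A, W τ * f τ) -
        f ⊥ * (∑ τ ∈ A, W τ * g τ) + f ⊥ * g ⊥ * Z := by
    rw [hZdef, Finset.mul_sum, Finset.mul_sum, Finset.mul_sum, ← Finset.sum_sub_distrib,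
      ← Finset.sum_sub_distrib, ← Finset.sum_add_distrib]
    exact Finset.sum_congr rfl fun _ _ => by ring
  rw [e1, e1, e2] at key
  nlinarith [key]

/-! ### The free spin in a box -/

theorem mem_bx {R : ℕ} {x : Pt} : x ∈ bx R ↔ |x.1| ≤ R ∧ |x.2| ≤ R := by
  rw [bx, Finset.mem_product, Finset.mem_Icc, Finset.mem_Icc, abs_le, abs_le]

theorem ray_bx (R : ℕ) : Tau.Ray (bx R) := by
  intro x hx
  rw [mem_bx, abs_le, abs_le] at hx
  have h4 : x.1 < -(R : ℤ) ∨ (R : ℤ) < x.1 ∨ x.2 < -(R : ℤ) ∨ (R : ℤ) < x.2 := by omega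
  rcases h4 with h | h | h | h
  · refine ⟨(-1, 0), Tau.adj_zero.2 (by simp), fun k => ?_⟩
    simp only [bx, Finset.mem_product, Finset.mem_Icc]
    omega
  · refine ⟨(1, 0), Tau.adj_zero.2 (by simp), fun k => ?_⟩
    simp only [bx, Finset.mem_product, Finset.mem_Icc]
    omega
  · refine ⟨(0, -1), Tau.adj_zero.2 (by simp), fun k => ?_⟩
    simp only [bx, Finset.mem_product, Finset.mem_Icc]
    omega
  · refine ⟨(0, 1), Tau.adj_zero.2 (by simp), fun k => ?_⟩
    simp only [bx, Finset.mem_product, Finset.mem_Icc]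
    omega

theorem inn_bx (R : ℕ) : inn (bx (R + 1)) = (bx R : Set Pt) := by
  ext x
  rw [Finset.mem_coe, mem_bx]
  simp only [inn, Set.mem_ofPred_eq]
  constructor
  · rintro ⟨-, h⟩
    have a1 := h (x.1 + 1, x.2) (by unfold Adj; simp)
    have a2 := h (x.1 - 1, x.2) (by unfold Adj; simp)
    have a3 := h (x.1, x.2 + 1) (by unfold Adj; simp)
    have a4 := h (x.1, x.2 - 1) (by unfold Adj; simp)
    rw [mem_bx, abs_le, abs_le] at a1 a2 a3 a4
    rw [abs_le, abs_le]
    push_cast at a1 a2 a3 a4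
    omega
  · rintro ⟨h1, h2⟩
    rw [abs_le] at h1 h2
    refine ⟨?_, fun w hw => ?_⟩
    · rw [mem_bx, abs_le, abs_le]
      push_cast
      omega
    · rw [mem_bx, abs_le, abs_le]
      unfold Adj at hw
      simp only [Set.mem_insert_iff, Set.mem_singleton_iff, Prod.mk.injEq] at hw
      push_cast
      omega

/-- The free spins: `true` off the box. -/
def Fr (R : ℕ) : Set Sp := {τ | ∀ x, x ∉ bx (R + 1) → τ x = true}

theorem fr_finite (R : ℕ) : (Fr R).Finite :=
  E1f.finite_const _ (bx (R + 1)).finite_toSet true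

theorem w_super (R : ℕ) (τ τ' : Sp) : w (bx R) τ * w (bx R) τ' ≤
    w (bx R) (τ ⊔ τ') * w (bx R) (τ ⊓ τ') := by
  rw [w_eq_L1, w_eq_L1, w_eq_L1, w_eq_L1]
  have h2 : {x : Pt | (τ ⊔ τ') x = true} = {x | τ x = true} ∪ {x | τ' x = true} := by
    ext x
    simp only [Set.mem_ofPred_eq, Set.mem_union, Pi.sup_apply]
    cases τ x <;> cases τ' x <;> simp
  have h3 : {x : Pt | (τ ⊓ τ') x = true} = {x | τ x = true} ∩ {x | τ' x = true} := by
    ext x
    simp only [Set.mem_ofPred_eq, Set.mem_inter_iff, Pi.inf_apply]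
    cases τ x <;> cases τ' x <;> simp
  rw [h2, h3]
  exact L1.w_mul_le_of_ray (ray_bx R) _ _

/-- Expectation for the free spin. -/
noncomputable def EN (R : ℕ) (f : Sp → ℝ) : ℝ :=
  (∑ τ ∈ (fr_finite R).toFinset, (w (bx R) τ : ℝ) * f τ) /
    ∑ τ ∈ (fr_finite R).toFinset, (w (bx R) τ : ℝ)

theorem w_pos (D : Finset Pt) (τ : Sp) : 0 < w D τ := by
  unfold w
  have : Finite (G D τ) := (E1f.g_finite D τ).to_subtype
  exact Nat.card_pos

theorem adm_sub_fr {R : ℕ} {D : Finset Pt} (h : D ⊆ bx R) : Adm D ⊆ Fr R := by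
  intro τ hτ x hx
  refine hτ x fun h' => hx ?_
  have h1 := h h'.1
  rw [mem_bx] at h1 ⊢
  push_cast
  omega

/-- The free spin is dominated by `τ` in a smaller region. -/
theorem EN_le {R : ℕ} {D : Finset Pt} (h : D ⊆ bx R) {f : Sp → ℝ} (hf : Monotone f) :
    EN R f ≤ E1 D f := by
  classical
  have h2 := s_e1
  set T := (fr_finite R).toFinset with hT
  have hZ : 0 < ∑ τ ∈ T, (w (bx R) τ : ℝ) := by
    refine Finset.sum_pos (fun τ _ => by exact_mod_cast w_pos _ τ) ⟨fun _ => true, ?_⟩
    rw [hT, Set.Finite.mem_toFinset]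
    exact fun _ _ => rfl
  have hmem : ∀ {a}, a ∈ T ↔ a ∈ Fr R := by
    intro a
    rw [hT, Set.Finite.mem_toFinset]
  have key := fkg_gen' T (fun τ => (w (bx R) τ : ℝ)) (fun _ => Nat.cast_nonneg _)
    (fun a ha b hb => hmem.2 fun x hx => by
      rw [Pi.sup_apply, hmem.1 ha x hx]
      rfl)
    (fun a ha b hb => hmem.2 fun x hx => by
      rw [Pi.inf_apply, hmem.1 ha x hx, hmem.1 hb x hx]
      rfl)
    (fun a _ b _ => by exact_mod_cast w_super R a b) f (Dm.ind D) hf (Dm.ind_mono D)
  have hsum : ∀ u : Sp → ℝ, (2 : ℝ) ^ (bx R \ D).card *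
      ∑ τ ∈ (h2 D).1.toFinset, (w D τ : ℝ) * u τ =
      ∑ τ ∈ T, (w (bx R) τ : ℝ) * (u τ * Dm.ind D τ) := by
    intro u
    have hsub : (h2 D).1.toFinset ⊆ T := by
      intro τ hτ
      rw [Set.Finite.mem_toFinset] at hτ
      exact hmem.2 (adm_sub_fr h hτ)
    rw [← Finset.sum_subset hsub, Finset.mul_sum]
    · refine Finset.sum_congr rfl fun τ hτ => ?_
      rw [Set.Finite.mem_toFinset] at hτ
      rw [Dm.w_eq h hτ, Dm.ind, if_pos hτ]
      push_cast
      ring
    · intro τ _ hτ
      rw [Set.Finite.mem_toFinset] at hτ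
      rw [Dm.ind, if_neg hτ, mul_zero, mul_zero]
  have e1 := hsum f
  have e2 := hsum fun _ => 1
  simp only [mul_one, one_mul] at e2
  have hc : (0 : ℝ) < 2 ^ (bx R \ D).card := by positivity
  have hZD := fkg_Z_pos h2 D
  rw [← e1, ← e2] at key
  rw [EN, fkg_E1_eq h2 D f, div_le_div_iff₀ hZ hZD]
  have h5 : (2 : ℝ) ^ (bx R \ D).card * ((∑ τ ∈ T, (w (bx R) τ : ℝ) * f τ) *
      ∑ τ ∈ (h2 D).1.toFinset, (w D τ : ℝ)) ≤ (2 : ℝ) ^ (bx R \ D).card *
      ((∑ τ ∈ (h2 D).1.toFinset, (w D τ : ℝ) * f τ) * ∑ τ ∈ T, (w (bx R) τ : ℝ)) := by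
    linarith
  exact le_of_mul_le_mul_left h5 hc

/-! ### Exchange of the two spins -/

/-- The pair obtained by exchanging the spins. -/
noncomputable def exch (R : ℕ) (t s : Sp) : Om := by
  classical
  exact fun x => (!(s x), if x ∈ bx (R + 1) then t x else false)

theorem exch_mem {R : ℕ} {t s : Sp} (hs : s ∈ G (bx R) t) : exch R t s ∈ Cf (bx (R + 1)) := by
  classical
  have hin : ∀ x, x ∉ bx R → s x = false := hs.1
  refine ⟨fun x y hxy => ?_, fun x hx => ?_, fun x hx => ?_⟩
  · by_cases hst : s x = s y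
    · left
      simp [exch, hst]
    · right
      have ht : t x = t y := by
        by_contra hne
        exact hst (hs.2 x y hxy hne)
      have hor : x ∈ bx R ∨ y ∈ bx R := by
        by_contra hcon
        push Not at hcon
        exact hst ((hin x hcon.1).trans (hin y hcon.2).symm)
      have hxy' := hxy
      unfold Adj at hxy'
      simp only [Set.mem_insert_iff, Set.mem_singleton_iff, Prod.mk.injEq] at hxy'
      have hx : x ∈ bx (R + 1) := by
        rw [mem_bx, abs_le, abs_le] at hor ⊢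
        rw [mem_bx, abs_le, abs_le] at hor
        push_cast
        omega
      have hy : y ∈ bx (R + 1) := by
        rw [mem_bx, abs_le, abs_le] at hor ⊢
        rw [mem_bx, abs_le, abs_le] at hor
        push_cast
        omega
      simp [exch, hx, hy, ht]
  · have h1 : x ∉ bx R := by
      have h2 := inn_bx R
      intro h3
      exact hx (by rw [h2]; exact h3)
    simp [exch, hin x h1]
  · simp [exch, hx]

/-- Exchange of the two spins. -/
theorem E2_eq_EN {R : ℕ} {B : Finset Pt} (hB : B ⊆ bx (R + 1)) {f : Sp → ℝ} (hf : Loc B f) :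
    E2 (bx (R + 1)) (fun ω => f fun x => (ω x).2) = EN R f := by
  classical
  have hsum : ∀ u : Sp → ℝ, Loc B u → ∑ᶠ ω ∈ Cf (bx (R + 1)), u (fun x => (ω x).2) =
      ∑ τ ∈ (fr_finite R).toFinset, (w (bx R) τ : ℝ) * u τ := by
    intro u hu
    have h1 : ∀ τ ∈ (fr_finite R).toFinset, (w (bx R) τ : ℝ) * u τ =
        ∑ s ∈ (E1f.g_finite (bx R) τ).toFinset, u τ := by
      intro τ _
      rw [Finset.sum_const, nsmul_eq_mul,
        ← Set.ncard_eq_toFinset_card _ (E1f.g_finite (bx R) τ), ← Nat.card_coe_set_eq]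
      rfl
    rw [Finset.sum_congr rfl h1, Finset.sum_sigma',
      finsum_mem_eq_finite_toFinset_sum _ (E1f.cf_finite _)]
    symm
    refine Finset.sum_bij (fun p _ => exch R p.1 p.2) ?_ ?_ ?_ ?_
    · rintro ⟨t, s⟩ hp
      rw [Finset.mem_sigma, Set.Finite.mem_toFinset, Set.Finite.mem_toFinset] at hp
      rw [Set.Finite.mem_toFinset]
      exact exch_mem hp.2
    · rintro ⟨t, s⟩ hp ⟨t', s'⟩ hp' he
      rw [Finset.mem_sigma, Set.Finite.mem_toFinset, Set.Finite.mem_toFinset] at hp hp'
      have hs : s = s' := by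
        funext x
        have := congrArg Prod.fst (congrFun he x)
        simp only [exch] at this
        simpa using this
      have ht : t = t' := by
        funext x
        by_cases hx : x ∈ bx (R + 1)
        · have := congrArg Prod.snd (congrFun he x)
          simp only [exch, if_pos hx] at this
          exact this
        · exact (hp.1 x hx).trans (hp'.1 x hx).symm
      rw [hs, ht]
    · intro ω hω
      rw [Set.Finite.mem_toFinset] at hω
      obtain ⟨h2, h3, h4⟩ := hω
      refine ⟨⟨fun x => if x ∈ bx (R + 1) then (ω x).2 else true, fun x => !(ω x).1⟩, ?_, ?_⟩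
      · rw [Finset.mem_sigma, Set.Finite.mem_toFinset, Set.Finite.mem_toFinset]
        refine ⟨fun x hx => by simp [hx], fun x hx => ?_, fun x y hxy hne => ?_⟩
        · have h5 : x ∉ inn (bx (R + 1)) := by
            rw [inn_bx]
            exact hx
          simp [h3 x h5]
        · dsimp only at hne ⊢
          by_contra hcon
          have hcon' : (ω x).1 ≠ (ω y).1 := fun h => hcon (by rw [h])
          have h6 : (ω x).2 = (ω y).2 := by
            rcases h2 x y hxy with h | h
            · exact absurd h hcon'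
            · exact h
          have hor : x ∈ bx R ∨ y ∈ bx R := by
            by_contra hc2
            push Not at hc2
            refine hcon' ((h3 x ?_).trans (h3 y ?_).symm)
            · rw [inn_bx]; exact hc2.1
            · rw [inn_bx]; exact hc2.2
          have hxy' := hxy
          unfold Adj at hxy'
          simp only [Set.mem_insert_iff, Set.mem_singleton_iff, Prod.mk.injEq] at hxy'
          have hx : x ∈ bx (R + 1) := by
            rw [mem_bx, abs_le, abs_le] at hor ⊢
            rw [mem_bx, abs_le, abs_le] at hor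
            push_cast
            omega
          have hy : y ∈ bx (R + 1) := by
            rw [mem_bx, abs_le, abs_le] at hor ⊢
            rw [mem_bx, abs_le, abs_le] at hor
            push_cast
            omega
          rw [if_pos hx, if_pos hy] at hne
          exact hne h6
      · funext x
        by_cases hx : x ∈ bx (R + 1)
        · simp [exch, hx]
        · have := h4 x hx
          simp only [exch, if_neg hx, Bool.not_not]
          rw [← this]
    · rintro ⟨t, s⟩ _
      refine hu _ _ fun x hx => ?_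
      simp [exch, hB hx]
  have hcard : ((Cf (bx (R + 1))).ncard : ℝ) = ∑ τ ∈ (fr_finite R).toFinset, (w (bx R) τ : ℝ) := by
    have h1 := hsum (fun _ => 1) (fun _ _ _ => rfl)
    simp only [mul_one] at h1
    rw [← h1, finsum_mem_eq_finite_toFinset_sum _ (E1f.cf_finite _), Finset.sum_const,
      nsmul_eq_mul, mul_one, ← Set.ncard_eq_toFinset_card _ (E1f.cf_finite _)]
  rw [E2, EN, hsum f hf, hcard]

/-! ### The plane -/

theorem tendsto_bx : Tendsto (fun R : ℕ => bx (R + 1)) atTop (atTop : Filter (Finset Pt)) := by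
  refine tendsto_atTop_atTop.2 fun B => ?_
  obtain ⟨N, hN⟩ := L1.exists_box B
  refine ⟨N.toNat, fun R hR x hx => ?_⟩
  have h1 := hN x hx
  rw [mem_bx]
  push_cast
  omega

/-- **The law of `σ` is dominated by the law of `τ`.** -/
theorem dom_sigma {Q : Measure Om} (hQ : IsQ Q) {B : Finset Pt} {f : Sp → ℝ} (hf : Monotone f)
    (hB : Loc B f) : ∫ ω, f (fun x => (ω x).2) ∂Q ≤ ∫ ω, f (tau ω) ∂Q := by
  have l1 : Loc B (fun ω : Om => f fun x => (ω x).2) := fun ω ω' h =>
    hB _ _ fun x hx => by rw [h x hx]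
  have l2 : Loc B (fun ω : Om => f (tau ω)) := fun ω ω' h =>
    hB _ _ fun x hx => by unfold tau; rw [h x hx]
  have h1 := (hQ.lim _ _ l1).comp tendsto_bx
  have h2 := hQ.lim _ _ l2
  refine ge_of_tendsto h2 (Eventually.of_forall fun D => ?_)
  refine le_of_tendsto h1 ?_
  obtain ⟨N, hN⟩ := L1.exists_box D
  obtain ⟨M, hM⟩ := L1.exists_box B
  filter_upwards [eventually_ge_atTop N.toNat, eventually_ge_atTop M.toNat] with R hR hR'
  have hDR : D ⊆ bx R := fun x hx => by
    have h3 := hN x hx
    rw [mem_bx]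
    omega
  have hBR : B ⊆ bx (R + 1) := fun x hx => by
    have h3 := hM x hx
    rw [mem_bx]
    push_cast
    omega
  rw [Function.comp_apply, E2_eq_EN hBR hB]
  exact EN_le hDR hf

theorem measurable_neg' : Measurable A.neg := by
  refine measurable_pi_lambda _ fun x => ?_
  have : (fun ω : Om => A.neg ω x) = (fun p : Bool × Bool => (p.1, !p.2)) ∘ fun ω : Om => ω x := rfl
  rw [this]
  exact (Measurable.of_discrete).comp (measurable_pi_apply x)

/-- Local functions of the pairs are measurable. -/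
theorem loc_meas' {B : Finset Pt} {F : Om → ℝ} (hF : Loc B F) : Measurable F := by
  classical
  have h1 : F = (fun u : B → Bool × Bool => F fun x => if h : x ∈ B then u ⟨x, h⟩ else (true, true)) ∘
      fun (ω : Om) (x : B) => ω x := by
    funext ω
    refine hF _ _ fun x hx => ?_
    simp [hx]
  rw [h1]
  exact (Measurable.of_discrete).comp (measurable_pi_lambda _ fun x => measurable_pi_apply _)

theorem loc_meas {B : Finset Pt} {f : Sp → ℝ} (hf : Loc B f) :
    Measurable fun ω : Om => f fun x => (ω x).2 :=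
  loc_meas' (B := B) fun ω ω' h => hf _ _ fun x hx => by rw [h x hx]

/-- The law of `-τ` is dominated by the law of `τ`. -/
theorem dom_neg (hsym : S_sym) {Q : Measure Om} (hQ : IsQ Q) {B : Finset Pt} {f : Sp → ℝ}
    (hf : Monotone f) (hB : Loc B f) :
    ∫ ω, f (fun x => !(tau ω x)) ∂Q ≤ ∫ ω, f (tau ω) ∂Q := by
  have hg : Monotone fun t : Sp => -f fun x => !(t x) := by
    intro a b hab
    refine neg_le_neg (hf fun x => ?_)
    have h1 : a x ≤ b x := hab x
    have h3 : ∀ u v : Bool, u ≤ v → (!v) ≤ !u := by decide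
    exact h3 _ _ h1
  have hgB : Loc B fun t : Sp => -f fun x => !(t x) := fun ω ω' h => by
    dsimp only
    rw [hB _ _ fun x hx => by rw [h x hx]]
  have h1 := dom_sigma hQ hg hgB
  rw [integral_neg, integral_neg, neg_le_neg_iff] at h1
  refine h1.trans ?_
  have h2 : ∫ ω, f (fun x => !((fun x => (ω x).2) x)) ∂Q = ∫ ω, f (fun x => (ω x).2) ∂Q := by
    conv_rhs => rw [← (hsym Q hQ).2.1]
    rw [integral_map]
    · rfl
    · exact (measurable_neg').aemeasurable
    · exact (loc_meas hB).aestronglyMeasurable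
  rw [h2]
  exact dom_sigma hQ hf hB

end Vale.Agent.P153.F.RSW
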