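import Vale.Agent.P153.F.RSW.Dual
import Vale.Agent.P153.F.RSW.DomS
import Vale.Agent.P153.A.Sym

/-!
# P153, block F-B: the input of Tassion's argument, rhombi and hexagons

`base`: under the plane measure `Q` all rhombi and all hexagons are crossed by closed edges with
probability at least `c₀ > 0`.
-/

namespace Vale.Agent.P153.F.RSW

open MeasureTheory Filter Topology Vale.Agent.P153.Topo
open Vale.Agent.P153.A hiding Loc

/-! ### Probabilities of increasing local events -/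

open Classical in
/-- The indicator of the event `E` for the closed edges. -/
noncomputable def iw (E : Set (ℤ × ℤ) → Prop) (t : Sp) : ℝ := if E (Wp t) then 1 else 0

theorem iw_mono {E : Set (ℤ × ℤ) → Prop} (hE : Inc E) : Monotone (iw E) := by
  classical
  intro a b hab
  unfold iw
  by_cases h : E (Wp a)
  · rw [if_pos h, if_pos (hE _ _ (Wp_mono hab) h)]
  · rw [if_neg h]
    split_ifs <;> norm_num

theorem iw_loc {E : Set (ℤ × ℤ) → Prop} (hE : RSW.Loc E) : ∃ B : Finset Pt, A.Loc B (iw E) := by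
  classical
  obtain ⟨N, hN⟩ := hE
  refine ⟨bx (N.toNat + 1), fun t t' h => ?_⟩
  have hz : ∀ z : ℤ × ℤ, |z.1| ≤ N → |z.2| ≤ N → (z ∈ Wp t ↔ z ∈ Wp t') := by
    intro z h1 h2
    rw [abs_le] at h1 h2
    have e1 : t (v1 z) = t' (v1 z) := h _ (by
      rw [mem_bx, abs_le, abs_le]
      simp only [v1]
      push_cast
      omega)
    have e2 : t (v2 z) = t' (v2 z) := h _ (by
      rw [mem_bx, abs_le, abs_le]
      simp only [v2]
      push_cast
      omega)
    simp only [Wp, Set.mem_ofPred_eq, e1, e2]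
  unfold iw
  by_cases h1 : E (Wp t)
  · rw [if_pos h1, if_pos (hN _ _ hz h1)]
  · rw [if_neg h1, if_neg fun h2 => h1 (hN _ _ (fun z a b => (hz z a b).symm) h2)]

/-- Probabilities as integrals. -/
theorem real_eq {Q : Measure Om} {E : Set (ℤ × ℤ) → Prop} (hE : RSW.Loc E) (u : Om → Sp)
    (hu : ∀ B : Finset Pt, ∀ ω ω' : Om, (∀ x ∈ B, ω x = ω' x) → ∀ x ∈ B, u ω x = u ω' x) :
    Q.real {ω | E (Wp (u ω))} = ∫ ω, iw E (u ω) ∂Q := by
  classical
  obtain ⟨B, hB⟩ := iw_loc hE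
  have hl : A.Loc B (fun ω => iw E (u ω)) := fun ω ω' h => hB _ _ (hu B ω ω' h)
  have hm := loc_meas' hl
  have hS : MeasurableSet {ω | E (Wp (u ω))} := by
    have : {ω | E (Wp (u ω))} = (fun ω => iw E (u ω)) ⁻¹' {1} := by
      ext ω
      simp only [Set.mem_ofPred_eq, Set.mem_preimage, Set.mem_singleton_iff, iw]
      by_cases h : E (Wp (u ω)) <;> simp [h]
    rw [this]
    exact hm (measurableSet_singleton 1)
  have e : (fun ω => iw E (u ω)) = {ω | E (Wp (u ω))}.indicator (fun _ => (1 : ℝ)) := by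
    funext ω
    by_cases h : E (Wp (u ω))
    · rw [Set.indicator_of_mem (show ω ∈ {ω | E (Wp (u ω))} from h)]
      exact if_pos h
    · rw [Set.indicator_of_notMem (show ω ∉ {ω | E (Wp (u ω))} from h)]
      exact if_neg h
  rw [e, integral_indicator hS, setIntegral_const, smul_eq_mul, mul_one]

variable {Q : Measure Om}

/-- The four laws of the closed edges. -/
theorem dom4 (hsym : S_sym) (hQ : IsQ Q) {E : Set (ℤ × ℤ) → Prop} (hE : IL E) :
    Q.real {ω | E (Wp fun x => !(tau ω x))} ≤ pW Q E ∧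
    Q.real {ω | E (Wp fun x => (ω x).2)} ≤ pW Q E ∧
    Q.real {ω | E (Wp fun x => !(ω x).2)} ≤ pW Q E := by
  obtain ⟨B, hB⟩ := iw_loc hE.2
  have hm := iw_mono hE.1
  have e0 : pW Q E = ∫ ω, iw E (tau ω) ∂Q := real_eq hE.2 tau (fun B ω ω' h x hx => by
    unfold tau; rw [h x hx])
  refine ⟨?_, ?_, ?_⟩
  · rw [e0, real_eq hE.2 (fun ω x => !(tau ω x)) (fun B ω ω' h x hx => by
      unfold tau; rw [h x hx])]
    exact dom_neg hsym hQ hm hB
  · rw [e0, real_eq hE.2 (fun ω x => (ω x).2) (fun B ω ω' h x hx => by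
      rw [h x hx])]
    exact dom_sigma hQ hm hB
  · rw [e0, real_eq hE.2 (fun ω x => !(ω x).2) (fun B ω ω' h x hx => by
      rw [h x hx])]
    refine le_trans (le_of_eq ?_) (dom_sigma hQ hm hB)
    conv_rhs => rw [← (hsym Q hQ).2.1]
    rw [integral_map]
    · rfl
    · exact measurable_neg'.aemeasurable
    · exact (loc_meas hB).aestronglyMeasurable

/-- A dichotomy for compatible spins gives a lower bound. -/
theorem dich_prob (hsym : S_sym) (hQ : IsQ Q) {E F : Set (ℤ × ℤ) → Prop} (hE : IL E) (hF : IL F)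
    (h : ∀ t s : Sp, Cmp t s → E (Wp t) ∨ E (Wp fun x => !t x) ∨ F (Wp s) ∨ F (Wp fun x => !s x)) :
    1 ≤ 2 * pW Q E + 2 * pW Q F := by
  have := hQ.prob
  obtain ⟨a1, -, -⟩ := dom4 hsym hQ hE
  obtain ⟨-, b1, b2⟩ := dom4 hsym hQ hF
  have hae : ∀ᵐ ω ∂Q, ω ∈ (({ω : Om | E (Wp (tau ω))} ∪ {ω | E (Wp fun x => !(tau ω x))}) ∪
      ({ω : Om | F (Wp fun x => (ω x).2)} ∪ {ω | F (Wp fun x => !(ω x).2)})) := by
    filter_upwards [(hsym Q hQ).2.2] with ω hω
    have hc : Cmp (tau ω) (fun x => (ω x).2) := fun x y hxy => hω x y hxy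
    rcases h _ _ hc with h1 | h1 | h1 | h1
    · exact Or.inl (Or.inl h1)
    · exact Or.inl (Or.inr h1)
    · exact Or.inr (Or.inl h1)
    · exact Or.inr (Or.inr h1)
  have h1 : Q.real (({ω : Om | E (Wp (tau ω))} ∪ {ω | E (Wp fun x => !(tau ω x))}) ∪
      ({ω : Om | F (Wp fun x => (ω x).2)} ∪ {ω | F (Wp fun x => !(ω x).2)})) = 1 := by
    refine (measureReal_congr (eventuallyEq_univ.2 hae)).trans ?_
    exact probReal_univ
  have h2 := measureReal_union_le (μ := Q) ({ω : Om | E (Wp (tau ω))} ∪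
    {ω | E (Wp fun x => !(tau ω x))}) ({ω : Om | F (Wp fun x => (ω x).2)} ∪
    {ω | F (Wp fun x => !(ω x).2)})
  have h3 := measureReal_union_le (μ := Q) {ω : Om | E (Wp (tau ω))}
    {ω | E (Wp fun x => !(tau ω x))}
  have h4 := measureReal_union_le (μ := Q) {ω : Om | F (Wp fun x => (ω x).2)}
    {ω | F (Wp fun x => !(ω x).2)}
  unfold pW at *
  linarith

/-- Positive association of `τ` in the plane. -/
theorem assoc_tau (hQ : IsQ Q) {B : Finset Pt} {f g : Sp → ℝ} (hf : Monotone f) (hg : Monotone g)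
    (hfB : A.Loc B f) (hgB : A.Loc B g) :
    (∫ ω, f (tau ω) ∂Q) * ∫ ω, g (tau ω) ∂Q ≤ ∫ ω, f (tau ω) * g (tau ω) ∂Q := by
  have l : ∀ u : Sp → ℝ, A.Loc B u → A.Loc B (fun ω : Om => u (tau ω)) := fun u hu ω ω' h =>
    hu _ _ fun x hx => by unfold tau; rw [h x hx]
  have h1 := hQ.lim _ _ (l f hfB)
  have h2 := hQ.lim _ _ (l g hgB)
  have h3 := hQ.lim B (fun ω : Om => f (tau ω) * g (tau ω))
    (l (fun t => f t * g t) fun t t' h => by
      show f t * g t = f t' * g t'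
      rw [hfB t t' h, hgB t t' h])
  exact le_of_tendsto_of_tendsto (h1.mul h2) h3
    (Eventually.of_forall fun D => s_fkg s_super s_e1 D f g hf hg)

open Classical in
/-- The indicator of `t x = +`. -/
noncomputable def i1 (x : Pt) (t : Sp) : ℝ := if t x = true then 1 else 0

theorem i1_mono (x : Pt) : Monotone (i1 x) := by
  classical
  intro a b hab
  unfold i1
  by_cases h : a x = true
  · have h1 : b x = true := Bool.eq_true_of_true_le (by rw [← h]; exact hab x)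
    rw [if_pos h, if_pos h1]
  · rw [if_neg h]
    split_ifs <;> norm_num

theorem i1_loc (x : Pt) {B : Finset Pt} (hx : x ∈ B) : A.Loc B (i1 x) := fun t t' h => by
  unfold i1; rw [h x hx]

theorem half_prob (hsym : S_sym) (hQ : IsQ Q) (x : Pt) : 1 / 2 ≤ ∫ ω, i1 x (tau ω) ∂Q := by
  classical
  have := hQ.prob
  have hl := i1_loc x (Finset.mem_singleton_self x)
  have h1 := dom_neg hsym hQ (i1_mono x) hl
  have m1 : Measurable fun ω : Om => i1 x (tau ω) :=
    loc_meas' (B := {x}) fun ω ω' h => hl _ _ fun y hy => by unfold tau; rw [h y hy]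
  have b1 : ∀ t : Sp, |i1 x t| ≤ 1 := fun t => by unfold i1; split_ifs <;> norm_num
  have n1 : Integrable (fun ω : Om => i1 x (tau ω)) Q :=
    Integrable.of_bound m1.aestronglyMeasurable 1 (Eventually.of_forall fun ω => by
      rw [Real.norm_eq_abs]; exact b1 _)
  have h2 : ∫ ω, i1 x (fun y => !(tau ω y)) ∂Q = 1 - ∫ ω, i1 x (tau ω) ∂Q := by
    have h3 : (fun ω : Om => i1 x (fun y => !(tau ω y))) = fun ω => 1 - i1 x (tau ω) := by
      funext ω
      unfold i1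
      rcases h : tau ω x with _ | _ <;> simp [h]
    rw [h3, integral_sub (integrable_const _) n1]
    simp
  rw [h2] at h1
  linarith

/-- An edge is closed with probability at least `1 / 4`. -/
theorem edge_prob (hsym : S_sym) (hQ : IsQ Q) (P : PT) (hP : P.p = pW Q) (z : ℤ × ℤ)
    (hz : z ∈ Mid) : 1 / 4 ≤ P.p (fun S => z ∈ S) := by
  classical
  have hE : RSW.Loc (fun S : Set (ℤ × ℤ) => z ∈ S) :=
    ⟨max |z.1| |z.2|, fun _ _ h hS => (h z (le_max_left _ _) (le_max_right _ _)).1 hS⟩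
  have e0 : pW Q (fun S => z ∈ S) = ∫ ω, iw (fun S => z ∈ S) (tau ω) ∂Q :=
    real_eq hE tau (fun B ω ω' h x hx => by unfold tau; rw [h x hx])
  have e1 : ∀ t : Sp, iw (fun S => z ∈ S) t = i1 (v1 z) t * i1 (v2 z) t := by
    intro t
    unfold iw i1
    by_cases h1 : t (v1 z) = true <;> by_cases h2 : t (v2 z) = true <;>
      simp [Wp, h1, h2, hz]
  have h1 := half_prob hsym hQ (v1 z)
  have h2 := half_prob hsym hQ (v2 z)
  have h3 := assoc_tau hQ (B := {v1 z, v2 z}) (i1_mono (v1 z)) (i1_mono (v2 z))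
    (i1_loc _ (by simp)) (i1_loc _ (by simp))
  rw [hP, e0]
  simp only [e1]
  nlinarith

theorem IL_mem (z : ℤ × ℤ) : IL (fun S : Set (ℤ × ℤ) => z ∈ S) :=
  ⟨fun _ _ h hS => h hS,
    ⟨max |z.1| |z.2|, fun S T h hS => (h z (le_max_left _ _) (le_max_right _ _)).1 hS⟩⟩

theorem IL_BX (n : ℤ) : IL (BX n) :=
  IL_ex _ (pr_bdd 0 n 0 n) (fun m m' => (m.2 = 0 ∨ m = (2 * n, 1)) ∧
    (m'.2 = 2 * n ∨ m' = (0, 2 * n - 1)))

theorem IL_HX (n : ℤ) : IL (HX n) :=
  IL_ex _ (hex_bdd 0 0 n) (fun m m' =>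
    (m.2 = -(4 * n) ∨ m = (4 * n, -(4 * n) + 1) ∨ m = (-1, -(4 * n) + 1)) ∧
    (m'.2 = 4 * n ∨ m' = (-(4 * n), 4 * n - 1) ∨ m' = (1, 4 * n - 1)))

theorem IL_LU (n : ℤ) : IL (LU n) :=
  IL_ex _ (hex_bdd 0 0 n) (fun x y => (x.1 = -(4 * n) ∨ x.1 + x.2 = -(4 * n)) ∧
    (y.1 = 4 * n ∨ y.1 + y.2 = 4 * n))

theorem IL_C2 (n : ℤ) : IL (C2 n) :=
  IL_ex _ (hex_bdd 0 0 n) (fun x y => x.1 = -(4 * n) ∧ y.1 + y.2 = 4 * n)

theorem IL_C4 (n : ℤ) : IL (C4 n) :=
  IL_ex _ (hex_bdd 0 0 n) (fun x y => x.1 + x.2 = -(4 * n) ∧ y.1 + y.2 = 4 * n)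

theorem IL_C5 (n : ℤ) : IL (C5 n) :=
  IL_ex _ (hex_bdd 0 0 n) (fun x y => x.2 = 4 * n ∧ y.1 + y.2 = -(4 * n))

/-- FKG for lower bounds. -/
theorem PT.two (P : PT) {E F : Set (ℤ × ℤ) → Prop} (hE : IL E) (hF : IL F) {a b : ℝ} (ha : 0 ≤ a)
    (hb : 0 ≤ b) (h1 : a ≤ P.p E) (h2 : b ≤ P.p F) : a * b ≤ P.p (fun S => E S ∧ F S) :=
  (mul_le_mul h1 h2 hb (ha.trans h1)).trans (P.fkg E F hE hF)

/-- **Rhombi and hexagons.** -/
theorem base (hsym : S_sym) (hQ : IsQ Q) (P : PT) (hP : P.p = pW Q) :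
    ∃ c₀ : ℝ, 0 < c₀ ∧ (∀ n : ℤ, 1 ≤ n → c₀ ≤ P.p (LRp 0 n 0 n)) ∧
      ∀ n : ℤ, 1 ≤ n → c₀ ≤ P.p (HT 0 0 n (-n) n) := by
  have hm : ∀ z : ℤ × ℤ, z ∈ Mid → 1 / 4 ≤ P.p (fun S => z ∈ S) := edge_prob hsym hQ P hP
  have q0 : (0 : ℝ) ≤ 1 / 4 := by norm_num
  refine ⟨(1 / 4) ^ 9, by norm_num, fun n hn => ?_, fun n hn => ?_⟩
  · have h1 := dich_prob hsym hQ (IL_LRp 0 n 0 n) (IL_BX n) fun t s hc => rh_dich hc (by omega)
    rw [← hP] at h1
    by_cases h2 : 1 / 4 ≤ P.p (LRp 0 n 0 n)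
    · refine le_trans (by norm_num) h2
    · have h3 : 1 / 4 ≤ P.p (BX n) := by linarith
      have g1 := P.two (IL_mem (2 * n - 1, 1)) (IL_mem (2 * n - 1, 0)) q0 q0
        (hm _ (by left; dsimp only; rw [Int.odd_iff]; omega))
        (hm _ (by left; dsimp only; rw [Int.odd_iff]; omega))
      have g2 := P.two (IL_mem (1, 2 * n - 1)) (IL_mem (1, 2 * n)) q0 q0
        (hm _ (by left; dsimp only; rw [Int.odd_iff]; omega))
        (hm _ (by left; dsimp only; rw [Int.odd_iff]; omega))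
      have g3 := P.two ((IL_mem (2 * n - 1, 1)).and (IL_mem (2 * n - 1, 0)))
        ((IL_mem (1, 2 * n - 1)).and (IL_mem (1, 2 * n))) (by norm_num) (by norm_num) g1 g2
      have g4 := P.two (IL_BX n) (((IL_mem (2 * n - 1, 1)).and (IL_mem (2 * n - 1, 0))).and
        ((IL_mem (1, 2 * n - 1)).and (IL_mem (1, 2 * n)))) q0 (by norm_num) h3 g3
      have g5 : P.p (BTp 0 n 0 n) = P.p (LRp 0 n 0 n) := P.p_BTp 0 n 0 n
      rw [← g5]
      refine le_trans (by norm_num) (g4.trans (P.mono _ _ fun S _ hS => ?_))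
      exact rh_corner (by omega) hS.1 hS.2
  · have hCT : P.p (HT 0 0 n (-n) n) = P.p (CT 0 0 n) := by
      rw [← P.swap _ (IL_CT 0 0 n)]
      congr 1
      funext S
      exact propext (CT_swap S n).symm
    have hC4 : P.p (C4 n) = P.p (CT 0 0 n) := by
      rw [← P.refly _ (IL_C4 n)]
      congr 1
      funext S
      exact propext C4_refl
    have IL3 : IL (C3 n) := IL_ex _ (hex_bdd 0 0 n) (fun x y => x.1 + x.2 = -(4 * n) ∧ y.1 = 4 * n)
    have hneg : ∀ E : Set (ℤ × ℤ) → Prop, IL E → IL (fun S => E {z | (-z.1 - z.2, z.2) ∈ S}) := by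
      intro E hE
      refine ⟨fun S T h hS => hE.1 _ _ (fun z hz => h hz) hS, ?_⟩
      obtain ⟨N, hN⟩ := hE.2
      refine ⟨2 * |N|, fun S T h hS => hN _ _ (fun z h1 h2 => ?_) hS⟩
      have h3 := le_abs_self N
      rw [abs_le] at h1 h2
      exact h (-z.1 - z.2, z.2) (by rw [abs_le]; dsimp only; omega)
        (by rw [abs_le]; dsimp only; omega)
    have hsw : ∀ E : Set (ℤ × ℤ) → Prop, IL E → IL (fun S => E {z | (z.2, z.1) ∈ S}) := by
      intro E hE
      refine ⟨fun S T h hS => hE.1 _ _ (fun z hz => h hz) hS, ?_⟩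
      obtain ⟨N, hN⟩ := hE.2
      exact ⟨N, fun S T h hS => hN _ _ (fun z h1 h2 => h (z.2, z.1) h2 h1) hS⟩
    have hC3 : P.p (C3 n) = P.p (C2 n) := by
      rw [← P.reflx _ (IL_C2 n), ← P.refly _ (hneg _ (IL_C2 n))]
      congr 1
      funext S
      rw [← C2_refl]
      congr 1
      ext z
      simp only [Set.mem_ofPred_eq]
      rw [show (-z.1 - z.2 + z.2 : ℤ) = -z.1 by ring]
    have hC5 : P.p (C5 n) = P.p (C2 n) := by
      have hIL2 : IL (fun S => (fun S : Set (ℤ × ℤ) => C2 n {z | (-z.1 - z.2, z.2) ∈ S})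
          {z | (z.1 + z.2, -z.2) ∈ S}) := by
        refine ⟨fun S T h hS => (IL_C2 n).1 _ _ (fun z hz => h hz) hS, ?_⟩
        obtain ⟨N, hN⟩ := (hneg _ (IL_C2 n)).2
        refine ⟨2 * |N|, fun S T h hS => hN _ _ (fun z h1 h2 => ?_) hS⟩
        have h3 := le_abs_self N
        rw [abs_le] at h1 h2
        exact h (z.1 + z.2, -z.2) (by rw [abs_le]; dsimp only; omega)
          (by rw [abs_le]; dsimp only; omega)
      have s1 := P.reflx _ (IL_C2 n)
      have s2 := P.refly _ (hneg _ (IL_C2 n))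
      have s3 := P.swap _ hIL2
      rw [← s1, ← s2, ← s3]
      congr 1
      funext S
      rw [← C2_refl']
      congr 1
      ext z
      simp only [Set.mem_ofPred_eq]
      rw [show (-z.1 - z.2 + z.2 : ℤ) = -z.1 by ring]
    have h1 := dich_prob hsym hQ (IL_LU n) (IL_HX n) fun t s hc => hx_dich hc (by omega)
    rw [← hP] at h1
    by_cases h2 : 1 / 4 ≤ P.p (HX n)
    · have g : ∀ z : ℤ × ℤ, ∀ w : ℤ × ℤ, z ∈ Mid → w ∈ Mid →
          1 / 4 * (1 / 4) ≤ P.p (fun S => z ∈ S ∧ w ∈ S) := fun z w hz hw =>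
        P.two (IL_mem z) (IL_mem w) q0 q0 (hm z hz) (hm w hw)
      have k1 := P.two ((IL_mem (4 * n - 1, -(4 * n) + 1)).and (IL_mem (4 * n - 1, -(4 * n))))
        ((IL_mem (0, -(4 * n) + 1)).and (IL_mem (1, -(4 * n)))) (by norm_num) (by norm_num)
        (g _ _ (by left; dsimp only; rw [Int.odd_iff]; omega)
          (by left; dsimp only; rw [Int.odd_iff]; omega))
        (g _ _ (by right; dsimp only; rw [Int.odd_iff]; omega)
          (by left; dsimp only; rw [Int.odd_iff]; omega))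
      have k2 := P.two ((IL_mem (-(4 * n) + 1, 4 * n - 1)).and (IL_mem (-(4 * n) + 1, 4 * n)))
        ((IL_mem (0, 4 * n - 1)).and (IL_mem (-1, 4 * n))) (by norm_num) (by norm_num)
        (g _ _ (by left; dsimp only; rw [Int.odd_iff]; omega)
          (by left; dsimp only; rw [Int.odd_iff]; omega))
        (g _ _ (by right; dsimp only; rw [Int.odd_iff]; omega)
          (by left; dsimp only; rw [Int.odd_iff]; omega))
      have k3 := P.two (((IL_mem (4 * n - 1, -(4 * n) + 1)).and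
        (IL_mem (4 * n - 1, -(4 * n)))).and ((IL_mem (0, -(4 * n) + 1)).and (IL_mem (1, -(4 * n)))))
        (((IL_mem (-(4 * n) + 1, 4 * n - 1)).and (IL_mem (-(4 * n) + 1, 4 * n))).and
        ((IL_mem (0, 4 * n - 1)).and (IL_mem (-1, 4 * n)))) (by norm_num) (by norm_num) k1 k2
      have k4 := P.two (IL_HX n) ((((IL_mem (4 * n - 1, -(4 * n) + 1)).and
        (IL_mem (4 * n - 1, -(4 * n)))).and
        ((IL_mem (0, -(4 * n) + 1)).and (IL_mem (1, -(4 * n))))).and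
        (((IL_mem (-(4 * n) + 1, 4 * n - 1)).and (IL_mem (-(4 * n) + 1, 4 * n))).and
        ((IL_mem (0, 4 * n - 1)).and (IL_mem (-1, 4 * n))))) q0 (by norm_num) h2 k3
      refine le_trans (by norm_num) (k4.trans (P.mono _ _ fun S _ hS => ?_))
      exact hx_corner (by omega) hS.1 hS.2
    · have h3 : 1 / 4 ≤ P.p (LU n) := by linarith
      have h4 : P.p (LU n) ≤ (P.p (CT 0 0 n) + P.p (C2 n)) + (P.p (C3 n) + P.p (C4 n)) := by
        refine le_trans (P.mono _ (fun S => (CT 0 0 n S ∨ C2 n S) ∨ (C3 n S ∨ C4 n S))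
          fun S _ hS => LU_cases hS) ?_
        refine (P.or_le _ _).trans (add_le_add (P.or_le _ _) (P.or_le _ _))
      rw [hC3, hC4] at h4
      rw [hCT]
      by_cases h5 : 1 / 16 ≤ P.p (CT 0 0 n)
      · exact le_trans (by norm_num) h5
      · have h6 : 1 / 16 ≤ P.p (C2 n) := by linarith
        have h7 := P.two (IL_C2 n) (IL_C5 n) (by norm_num) (by norm_num) h6 (hC5 ▸ h6)
        have h8 := P.mono _ (C4 n) fun S _ (hS : C2 n S ∧ C5 n S) => C25 hS.1 hS.2
        rw [hC4] at h8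
        exact le_trans (by norm_num) (h7.trans h8)

end Vale.Agent.P153.F.RSW
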