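import Vale.Agent.P153.F.RSW.ArmT
import Vale.Agent.P153.F.RSW.Base

/-!
# P153, block F-B, (R1): circuits and crossings of closed edges at all scales
-/

namespace Vale.Agent.P153.F.RSW

open MeasureTheory Filter Topology Relation
open Vale.Agent.P153 Vale.Agent.P153.Topo Vale.Agent.P153.A

/-- **(R1)**, circuits of closed edges around every centre, at all large scales. -/
theorem r1_ann {Q : Measure Om} (hQ : IsQ Q) (hac : AcT (Q.map rc)) :
    ∃ c : ℝ, 0 < c ∧ ∃ r0 : ℤ, ∀ r : ℤ, r0 ≤ r → ∀ p q : ℤ, c ≤ pW Q (Ann p q r) := by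
  obtain ⟨c, hc, h1, h2⟩ := base s_sym hQ (ptQ hQ) rfl
  exact PT.rsw_ann (ptQ hQ) geo hc 1 (fun n hn => h1 n (by exact_mod_cast hn))
    (fun n hn => h2 n (by exact_mod_cast hn)) (harm hQ hac)

/-- **(R1)**, crossings of parallelograms, at all large scales. -/
theorem r1_par {Q : Measure Om} (hQ : IsQ Q) (hac : AcT (Q.map rc)) (k : ℕ) :
    ∃ c : ℝ, 0 < c ∧ ∃ r0 : ℤ, ∀ r : ℤ, r0 ≤ r → c ≤ pW Q (LRp 0 (k * r) 0 r) := by
  obtain ⟨c, hc, h1, h2⟩ := base s_sym hQ (ptQ hQ) rfl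
  exact PT.rsw_par (ptQ hQ) geo hc 1 (fun n hn => h1 n (by exact_mod_cast hn))
    (fun n hn => h2 n (by exact_mod_cast hn)) (harm hQ hac) k

end Vale.Agent.P153.F.RSW
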