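import Vale.Agent.P153.F.RSW.Bump

/-!
# P153, block F: upper bound for the covariance of the difference of two bumps of very different
sizes
-/

namespace Vale.Agent.P153.F.RSW.AC

open MeasureTheory Filter Topology
open Vale.Agent.P153.GFF

/-- The covariance of the rescaled bump, upper bound. -/
lemma cov_psi_up {l : ℝ} (hl : 1 ≤ l) (c : ℝ × ℝ) :
    gffCov (psi l c) (psi l c) ≤ gffCov (phi c) (phi c) := by
  have hl0 : 0 < l := by linarith
  have := haar4
  have cc := (psi_smooth l c).continuous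
  rw [g3cov_eq_prod cc cc (psi_compact hl0 c) (psi_compact hl0 c),
    g3cov_eq_prod (phi_cont c) (phi_cont c) (phi_compact c) (phi_compact c)]
  set Fn : (ℝ × ℝ) × (ℝ × ℝ) → ℝ := fun q => (l ^ 4)⁻¹ *
    (green (l * q.1.1, l * q.1.2) (l * q.2.1, l * q.2.2) * phi c q.1 * phi c q.2) with hFn
  have e : (fun p : (ℝ × ℝ) × (ℝ × ℝ) => green p.1 p.2 * psi l c p.1 * psi l c p.2) =
      fun p => Fn (l⁻¹ • p) := by
    funext p
    have e0 : l⁻¹ • p = ((l⁻¹ * p.1.1, l⁻¹ * p.1.2), (l⁻¹ * p.2.1, l⁻¹ * p.2.2)) := rfl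
    simp only [hFn, e0, psi]
    have e1 : ∀ u : ℝ, l * (l⁻¹ * u) = u := by
      intro u
      field_simp
    rw [e1, e1, e1, e1]
    have e2 : (l ^ 4)⁻¹ = (l ^ 2)⁻¹ * (l ^ 2)⁻¹ := by
      rw [← mul_inv]
      ring_nf
    rw [e2]
    ring
  have hf : Module.finrank ℝ ((ℝ × ℝ) × (ℝ × ℝ)) = 4 := by simp
  rw [e, Measure.integral_comp_smul volume Fn, hFn, integral_const_mul, hf, smul_eq_mul, inv_pow,
    inv_inv, abs_of_pos (by positivity), ← mul_assoc, mul_inv_cancel₀ (by positivity), one_mul]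
  -- integrability
  have i1 : Integrable (fun q : (ℝ × ℝ) × (ℝ × ℝ) => green q.1 q.2 * phi c q.1 * phi c q.2) :=
    g3green_integrable (phi_cont c) (phi_cont c) (phi_compact c) (phi_compact c)
  have i3 : Integrable (fun q : (ℝ × ℝ) × (ℝ × ℝ) =>
      green (l * q.1.1, l * q.1.2) (l * q.2.1, l * q.2.2) * phi c q.1 * phi c q.2) := by
    have i4 : Integrable (fun p : (ℝ × ℝ) × (ℝ × ℝ) =>
      green p.1 p.2 * psi l c p.1 * psi l c p.2) :=
      g3green_integrable cc cc (psi_compact hl0 c) (psi_compact hl0 c)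
    have i5 := (integrable_comp_smul_iff volume (fun p : (ℝ × ℝ) × (ℝ × ℝ) =>
      green p.1 p.2 * psi l c p.1 * psi l c p.2) hl0.ne').2 i4
    have i6 := i5.const_mul (l ^ 4)
    refine i6.congr (Eventually.of_forall fun q => ?_)
    have e0 : l • q = ((l * q.1.1, l * q.1.2), (l * q.2.1, l * q.2.2)) := rfl
    simp only [psi, e0]
    have e1 : ∀ u : ℝ, l⁻¹ * (l * u) = u := by
      intro u
      field_simp
    rw [e1, e1, e1, e1]
    have e2 : l ^ 4 = l ^ 2 * l ^ 2 := by ring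
    have e3 : l ^ 2 * (l ^ 2)⁻¹ = 1 := mul_inv_cancel₀ (by positivity)
    rw [e2]
    calc _ = (l ^ 2 * (l ^ 2)⁻¹) * (l ^ 2 * (l ^ 2)⁻¹) *
        (green (l * q.1.1, l * q.1.2) (l * q.2.1, l * q.2.2) * phi c (q.1.1, q.1.2) *
          phi c (q.2.1, q.2.2)) := by ring
      _ = _ := by rw [e3, one_mul, one_mul]
  refine integral_mono i3 i1 fun q => ?_
  simp only
  have hg : green (l * q.1.1, l * q.1.2) (l * q.2.1, l * q.2.2) ≤ green q.1 q.2 := by
    unfold green
    simp only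
    have e4 : (l * q.1.1 - l * q.2.1) ^ 2 + (l * q.1.2 - l * q.2.2) ^ 2 =
        l ^ 2 * ((q.1.1 - q.2.1) ^ 2 + (q.1.2 - q.2.2) ^ 2) := by ring
    rw [e4, Real.sqrt_mul (by positivity), Real.sqrt_sq hl0.le]
    by_cases h0 : Real.sqrt ((q.1.1 - q.2.1) ^ 2 + (q.1.2 - q.2.2) ^ 2) = 0
    · rw [h0, mul_zero]
    · rw [Real.log_mul hl0.ne' h0]
      have := mul_nonneg pi_pos'.le (Real.log_nonneg hl)
      linarith
  have hp : 0 ≤ phi c q.1 * phi c q.2 := mul_nonneg (phi_nonneg _ _) (phi_nonneg _ _)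
  have := mul_le_mul_of_nonneg_right hg hp
  nlinarith [this]

/-- The cross covariance, lower bound. -/
lemma cov_cross_up {l : ℝ} (hl : 1 ≤ l) :
    -((2 * Real.pi)⁻¹ * Real.log (6 * l)) ≤ gffCov (phi (0, 0)) (psi l (3, 0)) := by
  have hl0 : 0 < l := by linarith
  have cc := (psi_smooth l (3, 0)).continuous
  rw [g3cov_eq_prod (phi_cont _) cc (phi_compact _) (psi_compact hl0 _)]
  have i1 : Integrable (fun q : (ℝ × ℝ) × (ℝ × ℝ) =>
      green q.1 q.2 * phi (0, 0) q.1 * psi l (3, 0) q.2) :=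
    g3green_integrable (phi_cont _) cc (phi_compact _) (psi_compact hl0 _)
  have i2 : Integrable (fun q : (ℝ × ℝ) × (ℝ × ℝ) => phi (0, 0) q.1 * psi l (3, 0) q.2) := by
    rw [Measure.volume_eq_prod]
    exact (phi_integrable _).mul_prod (psi_integrable hl0 _)
  have i7 : ∫ q : (ℝ × ℝ) × (ℝ × ℝ), phi (0, 0) q.1 * psi l (3, 0) q.2 = 1 := by
    rw [Measure.volume_eq_prod, integral_prod_mul (phi (0, 0)) (psi l (3, 0)), phi_int,
      psi_int hl0, one_mul]
  have e3 : ∫ q : (ℝ × ℝ) × (ℝ × ℝ), -((2 * Real.pi)⁻¹ * Real.log (6 * l)) *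
      (phi (0, 0) q.1 * psi l (3, 0) q.2) = -((2 * Real.pi)⁻¹ * Real.log (6 * l)) := by
    rw [integral_const_mul, i7, mul_one]
  rw [← e3]
  refine integral_mono (i2.const_mul _) i1 fun q => ?_
  simp only
  by_cases h0 : phi (0, 0) q.1 * psi l (3, 0) q.2 = 0
  · rw [h0, mul_zero, mul_assoc, h0, mul_zero]
  · have h1 := phi_supp (left_ne_zero_of_mul h0)
    have h2 := psi_supp hl0 (right_ne_zero_of_mul h0)
    have hp : 0 ≤ phi (0, 0) q.1 * psi l (3, 0) q.2 :=
      mul_nonneg (phi_nonneg _ _) (psi_nonneg _ _ _)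
    rw [mul_assoc (green _ _)]
    refine mul_le_mul_of_nonneg_right ?_ hp
    unfold green
    obtain ⟨a1, a2⟩ := h1
    obtain ⟨b1, b2⟩ := h2
    simp only [sub_zero, mul_zero] at a1 a2 b1 b2
    rw [abs_lt] at a1 a2 b1 b2
    have hlow : l ≤ Real.sqrt ((q.1.1 - q.2.1) ^ 2 + (q.1.2 - q.2.2) ^ 2) := by
      refine Real.le_sqrt_of_sq_le ?_
      have h4 : l ≤ q.2.1 - q.1.1 := by linarith [a1.2, b1.1]
      have h5 : l ^ 2 ≤ (q.2.1 - q.1.1) ^ 2 := pow_le_pow_left₀ hl0.le h4 2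
      nlinarith [sq_nonneg (q.1.2 - q.2.2)]
    have hup : Real.sqrt ((q.1.1 - q.2.1) ^ 2 + (q.1.2 - q.2.2) ^ 2) ≤ 6 * l := by
      refine Real.sqrt_le_iff.2 ⟨by linarith, ?_⟩
      have c1 : |q.1.1 - q.2.1| ≤ 4 * l := by
        rw [abs_le]
        constructor <;> linarith [a1.1, a1.2, b1.1, b1.2]
      have c2 : |q.1.2 - q.2.2| ≤ l := by
        rw [abs_le]
        constructor <;> linarith [a2.1, a2.2, b2.1, b2.2]
      have d1 := pow_le_pow_left₀ (abs_nonneg _) c1 2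
      have d2 := pow_le_pow_left₀ (abs_nonneg _) c2 2
      rw [sq_abs] at d1 d2
      nlinarith
    have h6 := Real.log_le_log (lt_of_lt_of_le hl0 hlow) hup
    have := mul_le_mul_of_nonneg_left h6 pi_pos'.le
    linarith

theorem cov_dif_up : ∃ a : ℝ, 0 ≤ a ∧ ∀ l : ℝ, 1 ≤ l →
    gffCov (dif l) (dif l) ≤ a + (Real.pi)⁻¹ * Real.log l := by
  refine ⟨|gffCov (phi (0, 0)) (phi (0, 0)) + gffCov (phi (3, 0)) (phi (3, 0))| +
    (Real.pi)⁻¹ * Real.log 6, ?_, fun l hl => ?_⟩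
  · have : 0 ≤ Real.log 6 := Real.log_nonneg (by norm_num)
    positivity
  have hl0 : 0 < l := by linarith
  have e : gffCov (dif l) (dif l) = gffCov (phi (0, 0)) (phi (0, 0)) -
      2 * gffCov (phi (0, 0)) (psi l (3, 0)) + gffCov (psi l (3, 0)) (psi l (3, 0)) := by
    have h1 := g3cov_sum (m := 2) ![phi (0, 0), psi l (3, 0)]
      (by
        intro j
        fin_cases j
        · exact phi_cont _
        · exact (psi_smooth _ _).continuous)
      (by
        intro j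
        fin_cases j
        · exact phi_compact _
        · exact psi_compact hl0 _) ![1, -1]
    have h2 := g3cov_symm (phi_cont (0, 0)) (psi_smooth l (3, 0)).continuous (phi_compact _)
      (psi_compact hl0 _)
    have h3 : (fun x => ∑ j : Fin 2, (![1, -1] : Fin 2 → ℝ) j *
        (![phi (0, 0), psi l (3, 0)] : Fin 2 → ℝ × ℝ → ℝ) j x) = dif l := by
      funext x
      rw [Fin.sum_univ_two]
      unfold dif
      simp
      ring
    rw [h3] at h1
    rw [h1, Fin.sum_univ_two, Fin.sum_univ_two, Fin.sum_univ_two]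
    simp only [Matrix.cons_val_zero, Matrix.cons_val_one]
    rw [← h2]
    ring
  rw [e]
  have h1 := cov_psi_up hl (3, 0)
  have h2 := cov_cross_up hl
  have h3 := le_abs_self (gffCov (phi (0, 0)) (phi (0, 0)) + gffCov (phi (3, 0)) (phi (3, 0)))
  have h4 : Real.log (6 * l) = Real.log 6 + Real.log l := Real.log_mul (by norm_num) hl0.ne'
  rw [h4] at h2
  have h5 : (2 * Real.pi)⁻¹ = (Real.pi)⁻¹ / 2 := by
    rw [mul_inv]
    ring
  rw [h5] at h2
  nlinarith

end Vale.Agent.P153.F.RSW.AC
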