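import Vale.Agent.P153.Topo.Cross

/-!
# P153, block F-B: crossing events of a random set of edges of the triangular lattice

Edges are coded by their midpoints: a random subset `S` of the fine lattice `ℤ × ℤ` (the vertex
`(i, j)` of the lattice is the point `(2 i, 2 j)`, the midpoint of the edge between `x` and `y` is
`x + y`); all sets `S` are contained in `Mid`. The fine lattice has the neighbours `(i ± 1, j)`,
`(i, j ± 1)`, `(i + 1, j - 1)`, `(i - 1, j + 1)`. All the numbers `a b c d p q n u v` below are in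
units of the lattice (two steps of the fine lattice). The symmetries `(i, j) ↦ (-i - j, j)`,
`(i + j, -j)`, `(j, i)` are reflections. The coordinate `2 i + j` is twice the first Euclidean
coordinate. Hexagons have their centre in even rows and even side length `2 n`.
-/

namespace Vale.Agent.P153.F.RSW

open Vale.Agent.P153.Topo

/-- The midpoints of the edges. -/
def Mid : Set (ℤ × ℤ) := {z | Odd z.1 ∨ Odd z.2}

/-- The parallelogram `[a, b] × [c, d]` (in lattice units). -/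
def pr (a b c d : ℤ) : Set (ℤ × ℤ) :=
  {z | 2 * a ≤ z.1 ∧ z.1 ≤ 2 * b ∧ 2 * c ≤ z.2 ∧ z.2 ≤ 2 * d}

/-- The set `S` crosses the parallelogram from `i = a` to `i = b`. -/
def LRp (a b c d : ℤ) (S : Set (ℤ × ℤ)) : Prop :=
  ∃ x y, Conn (S ∩ pr a b c d) x y ∧ x.1 = 2 * a ∧ y.1 = 2 * b

/-- The set `S` crosses the parallelogram from `j = c` to `j = d`. -/
def BTp (a b c d : ℤ) (S : Set (ℤ × ℤ)) : Prop :=
  ∃ x y, Conn (S ∩ pr a b c d) x y ∧ x.2 = 2 * c ∧ y.2 = 2 * d

/-- The hexagon of side `2 n` with centre in the row `2 p`, at the half coordinate `2 q` (all in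
lattice units). -/
def hex (p q n : ℤ) : Set (ℤ × ℤ) :=
  {z | 4 * (p - n) ≤ z.2 ∧ z.2 ≤ 4 * (p + n) ∧
    2 * (q - p - 2 * n) ≤ z.1 ∧ z.1 ≤ 2 * (q - p + 2 * n) ∧
    2 * (q + p - 2 * n) ≤ z.1 + z.2 ∧ z.1 + z.2 ≤ 2 * (q + p + 2 * n)}

/-- A path of `S` in the hexagon from its bottom side to the part `4 u ≤ 2 i + j ≤ 4 v` of its top
side. -/
def HT (p q n u v : ℤ) (S : Set (ℤ × ℤ)) : Prop :=
  ∃ x y, Conn (S ∩ hex p q n) x y ∧ x.2 = 4 * (p - n) ∧ y.2 = 4 * (p + n) ∧
    4 * u ≤ 2 * y.1 + y.2 ∧ 2 * y.1 + y.2 ≤ 4 * v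

/-- A path of `S` in the hexagon from its top side to the part `4 u ≤ 2 i + j ≤ 4 v` of its bottom
side. -/
def HM (p q n u v : ℤ) (S : Set (ℤ × ℤ)) : Prop :=
  ∃ x y, Conn (S ∩ hex p q n) x y ∧ x.2 = 4 * (p + n) ∧ y.2 = 4 * (p - n) ∧
    4 * u ≤ 2 * y.1 + y.2 ∧ 2 * y.1 + y.2 ≤ 4 * v

/-- A path of `S` in the hexagon from its upper left side to its lower right side. -/
def CT (p q n : ℤ) (S : Set (ℤ × ℤ)) : Prop :=
  ∃ x y, Conn (S ∩ hex p q n) x y ∧ x.1 = 2 * (q - p - 2 * n) ∧ y.1 = 2 * (q - p + 2 * n)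

/-- The hexagon is crossed from the upper left to the lower right side, and there are paths from its
bottom (top) side to the left and to the right part (at distance at least `h` from the middle) of its
top (bottom) side. -/
def XX (p q n h : ℤ) (S : Set (ℤ × ℤ)) : Prop :=
  HT p q n (q + h) (q + n) S ∧ HT p q n (q - n) (q - h) S ∧
  HM p q n (q + h) (q + n) S ∧ HM p q n (q - n) (q - h) S ∧ CT p q n S

/-- The four parallelograms around the box with centre `(p, q)` and half side `t`, inside the box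
with half side `2 t`, are crossed in the long direction. -/
def Ann (p q t : ℤ) (S : Set (ℤ × ℤ)) : Prop :=
  LRp (p - 2 * t) (p + 2 * t) (q + t) (q + 2 * t) S ∧
  LRp (p - 2 * t) (p + 2 * t) (q - 2 * t) (q - t) S ∧
  BTp (p - 2 * t) (p - t) (q - 2 * t) (q + 2 * t) S ∧
  BTp (p + t) (p + 2 * t) (q - 2 * t) (q + 2 * t) S

/-- The event whose probability is small by anti-concentration: circuits around the boxes
`B_s(0)`, `B_{2R}(0)` and `B_R(3R, 0)`, and a path from the row `-8R` to `[0, s] × {0}` (inside the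
hexagon of side `4R` with centre in the row `-4R`). -/
def Arm (s R : ℤ) (S : Set (ℤ × ℤ)) : Prop :=
  Ann 0 0 s S ∧ Ann 0 0 (2 * R) S ∧ Ann (3 * R) 0 R S ∧ HT (-(2 * R)) 0 (2 * R) 0 s S

/-- The deterministic facts about crossing paths (to be proved from `Topo.cross`). -/
structure Geo : Prop where
  /-- Two crossings joined by a crossing of the common part in the other direction. -/
  chain : ∀ (a a' b b' c d : ℤ) (S : Set (ℤ × ℤ)), a ≤ a' → a' ≤ b → b ≤ b' → c ≤ d →
    LRp a b c d S → BTp a' b c d S → LRp a' b' c d S → LRp a b' c d S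
  /-- A crossing of a longer and thinner parallelogram crosses a shorter and wider one. -/
  mono : ∀ (a a' b b' c c' d d' : ℤ) (S : Set (ℤ × ℤ)), a ≤ a' → a' ≤ b' → b' ≤ b → c' ≤ c →
    d ≤ d' → LRp a b c d S → LRp a' b' c' d' S
  /-- Two paths landing in the middle parts of the top and of the bottom side of a hexagon are joined
  by its cross `XX`. -/
  f1 : ∀ (n m v al : ℤ) (S : Set (ℤ × ℤ)), 0 ≤ al → 0 < m → m ≤ n → 0 ≤ v → v ≤ 3 * (n - m) →
    HT (m - n) (-v) n (-al) al S → HM (n - m) (-v) n (-al) al S → XX 0 0 m al S →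
    BTp (-v - (3 * n - m)) (-v + (3 * n - m)) (-(4 * n - 2 * m)) (4 * n - 2 * m) S
  /-- Zig-zag. -/
  zig : ∀ (n h : ℤ) (S : Set (ℤ × ℤ)), 0 < n → 0 ≤ h → h ≤ n → XX 0 0 n h S →
    XX 0 (-(2 * h)) n h S → LRp (-(2 * h) - 2 * n) (2 * n) (-(2 * n)) (2 * n) S
  /-- Two paths landing in `[0, s] × {0}` are joined by the annulus event. -/
  f2 : ∀ (s t : ℤ) (S : Set (ℤ × ℤ)), 0 < s → 2 * s ≤ t → HT (-t) 0 t 0 s S →
    HM t 0 t 0 s S → Ann 0 0 s S → BTp (-(3 * t)) (3 * t) (-(4 * t)) (4 * t) S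
  /-- Two paths landing in `[0, 1] × {0}`: the only midpoint there is `(1, 0)`. -/
  f2' : ∀ (t : ℤ) (S : Set (ℤ × ℤ)), S ⊆ Mid → 1 ≤ t → HT (-t) 0 t 0 1 S → HM t 0 t 0 1 S →
    BTp (-(3 * t)) (3 * t) (-(4 * t)) (4 * t) S

end Vale.Agent.P153.F.RSW
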