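import Mathlib

/-!
# P153, block F-B: anti-concentration, statement

Heights `φ : ℤ × ℤ → ℤ` with steps at most one, `φ 0 = 0`; lattice coordinates.
-/

namespace Vale.Agent.P153.F.RSW

open MeasureTheory

/-- Linear statistics of the heights. -/
noncomputable def evT (r : (ℤ × ℤ) →₀ ℝ) (φ : ℤ × ℤ → ℤ) : ℝ := r.sum fun q a => a * (φ q : ℝ)

/-- Bounded second moments at comparable scales, and anti-concentration between the scales `s` and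
`2 M s`. -/
def AcT (P : Measure (ℤ × ℤ → ℤ)) : Prop :=
  ∃ C : ℝ, ∀ K ε : ℝ, 0 < ε → ∃ M1 : ℕ, 1 ≤ M1 ∧ ∀ M : ℕ, M1 ≤ M → ∃ s0 : ℕ, 1 ≤ s0 ∧
    ∀ s : ℕ, s0 ≤ s → ∃ r1 o1 r2 o2 : (ℤ × ℤ) →₀ ℝ,
      ((r1.sum fun _ a => a) = 1 ∧ (o1.sum fun _ a => a) = 1 ∧ (r2.sum fun _ a => a) = 1 ∧
        (o2.sum fun _ a => a) = 1) ∧
      (∀ q ∈ r1.support, |q.1| < s ∧ |q.2| < s) ∧
      (∀ q ∈ o1.support, 2 * s < q.1) ∧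
      (∀ q ∈ r2.support, |q.1 - 3 * (2 * M * s)| < 2 * M * s ∧ |q.2| < 2 * M * s) ∧
      (∀ q ∈ o2.support, 2 * (2 * M * s) < q.1 - 3 * (2 * M * s)) ∧
      ∫ φ, (evT r1 φ - evT o1 φ) ^ 2 ∂P ≤ C ∧
      ∫ φ, (evT r2 φ - evT o2 φ) ^ 2 ∂P ≤ C ∧
      P.real {φ | |evT r1 φ - evT r2 φ| ≤ K} ≤ ε

end Vale.Agent.P153.F.RSW
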