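import Vale.Agent.P153.F.RSW.GeoT

/-!
# The event `Arm`: one cluster of `S` contains the three circuits
-/

namespace Vale.Agent.P153.F.RSW

open Vale.Agent.P153 Vale.Agent.P153.Topo

/-- `C` meets every path of the triangular lattice from the box with centre `(p, q)` and half side
`t` to the complement of the interior of the box with half side `2t`. -/
def Sep (C : Set (ℤ × ℤ)) (p q t : ℤ) : Prop :=
  ∀ (D : Set (ℤ × ℤ)) (x y : ℤ × ℤ), Conn D x y → x ∈ pr (p - t) (p + t) (q - t) (q + t) →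
    (y.1 ≤ 2 * (p - 2 * t) ∨ 2 * (p + 2 * t) ≤ y.1 ∨ y.2 ≤ 2 * (q - 2 * t) ∨
      2 * (q + 2 * t) ≤ y.2) → (D ∩ C).Nonempty

theorem Sep.mono {C C' : Set (ℤ × ℤ)} {p q t : ℤ} (h : Sep C p q t) (hC : C ⊆ C') :
    Sep C' p q t :=
  fun D x y hD hx hy => (h D x y hD hx hy).mono (Set.inter_subset_inter_right D hC)

/-- On `Arm` one cluster of `S` in a box contains circuits around the three boxes. -/
theorem Arm.joined {s R : ℤ} (hs : 0 < s) (hsR : s ≤ 2 * R) {S : Set (ℤ × ℤ)} (hA : Arm s R S) :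
    ∃ o : ℤ × ℤ, o ∈ S ∩ pr (-(4 * R)) (6 * R) (-(8 * R)) (4 * R) ∧
      Sep {w | Conn (S ∩ pr (-(4 * R)) (6 * R) (-(8 * R)) (4 * R)) o w} 0 0 s ∧
      Sep {w | Conn (S ∩ pr (-(4 * R)) (6 * R) (-(8 * R)) (4 * R)) o w} 0 0 (2 * R) ∧
      Sep {w | Conn (S ∩ pr (-(4 * R)) (6 * R) (-(8 * R)) (4 * R)) o w} (3 * R) 0 R := by
  obtain ⟨hA1, hA2, hA3, hH⟩ := hA
  have hR : 0 < R := by omega
  obtain ⟨o1, ho1, h1⟩ := hA1.cluster hs
  obtain ⟨o2, ho2, h2⟩ := hA2.cluster (by omega)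
  obtain ⟨o3, ho3, h3⟩ := hA3.cluster hR
  obtain ⟨x, y, hxy, hx, hy, hy1, hy2⟩ := hH
  set B := pr (-(4 * R)) (6 * R) (-(8 * R)) (4 * R) with hB
  have s1 : annR 0 0 s ⊆ B :=
    (annR_sub 0 0 s).trans (pr_mono (by omega) (by omega) (by omega) (by omega))
  have s2 : annR 0 0 (2 * R) ⊆ B :=
    (annR_sub 0 0 (2 * R)).trans (pr_mono (by omega) (by omega) (by omega) (by omega))
  have s3 : annR (3 * R) 0 R ⊆ B :=
    (annR_sub (3 * R) 0 R).trans (pr_mono (by omega) (by omega) (by omega) (by omega))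
  have s4 : hex (-(2 * R)) 0 (2 * R) ⊆ B := by
    intro z hz
    rw [mem_hex] at hz
    rw [hB, mem_pr]
    omega
  -- the path meets the circuits 1 and 2
  obtain ⟨w1, hw1, hw1'⟩ := h1 _ y x (c_cluster hxy.symm) (by rw [mem_pr]; omega)
    (by right; right; left; omega)
  obtain ⟨w2, hw2, hw2'⟩ := h2 _ y x (c_cluster hxy.symm) (by rw [mem_pr]; omega)
    (by right; right; left; omega)
  have e1 : Conn (S ∩ B) y o1 := c_join s4 s1 hw1 hw1'
  have e2 : Conn (S ∩ B) y o2 := c_join s4 s2 hw2 hw2'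
  have e12 : Conn (S ∩ B) o2 o1 := e2.symm.trans e1
  -- the circuits 2 and 3 meet
  obtain ⟨v, hv, hv'⟩ := h2 {z | z.2 = 0 ∧ 0 ≤ z.1} (0, 0) (8 * R, 0)
    (conn_row (fun i hi _ => ⟨rfl, by simp only; omega⟩)) (by rw [mem_pr]; simp only; omega)
    (by right; left; simp only; omega)
  obtain ⟨u, hu, hu'⟩ := h2 {z | z.2 = 0 ∧ z.1 ≤ 0} (0, 0) (-(8 * R), 0)
    (conn_row (fun i _ hi => ⟨rfl, by simp only; omega⟩)) (by rw [mem_pr]; simp only; omega)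
    (by left; simp only; omega)
  have hvm := hv'.right_mem.2
  have hum := hu'.right_mem.2
  obtain ⟨hv1, hv2⟩ := hv
  obtain ⟨hu1, hu2⟩ := hu
  obtain ⟨hvm1, hvm2⟩ := hvm
  rw [mem_pr] at hvm1
  have hvu : Conn (S ∩ annR 0 0 (2 * R)) v u := hv'.symm.trans hu'
  obtain ⟨w3, hw3, hw3'⟩ := h3 _ v u (c_cluster hvu) (by rw [mem_pr]; omega)
    (by left; omega)
  have e3 : Conn (S ∩ B) v o3 := c_join s2 s3 hw3 hw3'
  have e23 : Conn (S ∩ B) o2 o3 := (hv'.mono (Set.inter_subset_inter_right S s2)).trans e3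
  refine ⟨o2, ⟨ho2.1, s2 ho2.2⟩, ?_, ?_, ?_⟩
  · intro D x y hD hx hy
    obtain ⟨w, hw, hw'⟩ := h1 D x y hD hx hy
    exact ⟨w, hw, e12.trans (hw'.mono (Set.inter_subset_inter_right S s1))⟩
  · intro D x y hD hx hy
    obtain ⟨w, hw, hw'⟩ := h2 D x y hD hx hy
    exact ⟨w, hw, hw'.mono (Set.inter_subset_inter_right S s2)⟩
  · intro D x y hD hx hy
    obtain ⟨w, hw, hw'⟩ := h3 D x y hD hx hy
    exact ⟨w, hw, e23.trans (hw'.mono (Set.inter_subset_inter_right S s3))⟩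

end Vale.Agent.P153.F.RSW
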