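import Vale.Agent.P153.F.RSW.FlipT
import Vale.Agent.P145.FB.ArmAbs

/-!
# P153, block F-B: the arm event has small probability
-/

namespace Vale.Agent.P153.F.RSW

open MeasureTheory Filter Topology Relation
open Vale.Agent.P153 Vale.Agent.P153.Topo Vale.Agent.P153.A

/-- One cluster of `S` cuts the annuli around `(0, 0)` and around `(3R, 0)`. -/
def J2 (s R : ℤ) (S : Set (ℤ × ℤ)) : Prop :=
  ∃ o ∈ S ∩ bigB R, Cut (clu (S ∩ bigB R) o) 0 0 s ∧ Cut (clu (S ∩ bigB R) o) (3 * R) 0 R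

theorem bigB_fin (R : ℤ) : (bigB R).Finite := by
  have h1 : bigB R ⊆ Set.Icc (2 * (-(4 * R))) (2 * (6 * R)) ×ˢ
      Set.Icc (2 * (-(8 * R))) (2 * (4 * R)) := by
    rintro z ⟨h1, h2, h3, h4⟩
    exact ⟨⟨h1, h2⟩, ⟨h3, h4⟩⟩
  exact ((Set.finite_Icc _ _).prod (Set.finite_Icc _ _)).subset h1

open Classical in
/-- The possible values of `Wp (tau ω) ∩ bigB R`. -/
noncomputable def idx (s R : ℤ) : Finset (Finset (ℤ × ℤ)) :=
  (bigB_fin R).toFinset.powerset.filter fun T =>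
    ∃ o ∈ T, Cut (clu (T : Set (ℤ × ℤ)) o) 0 0 s ∧ Cut (clu (T : Set (ℤ × ℤ)) o) (3 * R) 0 R

/-- The event that `Wp (tau ω) ∩ bigB R` is `T`. -/
def pc (R : ℤ) (T : Finset (ℤ × ℤ)) : Set Om := {ω | Wp (tau ω) ∩ bigB R = (T : Set (ℤ × ℤ))}

open Classical in
/-- The vertices on which the event `pc` depends. -/
noncomputable def pcB (R : ℤ) : Finset Pt :=
  (bigB_fin R).toFinset.image v1 ∪ (bigB_fin R).toFinset.image v2

theorem pc_loc (R : ℤ) (T : Finset (ℤ × ℤ)) (ω ω' : Om)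
    (h : ∀ x ∈ pcB R, (ω x).1 = (ω' x).1) : ω ∈ pc R T ↔ ω' ∈ pc R T := by
  classical
  have key : Wp (tau ω) ∩ bigB R = Wp (tau ω') ∩ bigB R := by
    ext z
    refine and_congr_left fun hz => ?_
    have hz' : z ∈ (bigB_fin R).toFinset := (Set.Finite.mem_toFinset _).2 hz
    have h1 : (ω (v1 z)).1 = (ω' (v1 z)).1 :=
      h _ (Finset.mem_union_left _ (Finset.mem_image_of_mem _ hz'))
    have h2 : (ω (v2 z)).1 = (ω' (v2 z)).1 :=
      h _ (Finset.mem_union_right _ (Finset.mem_image_of_mem _ hz'))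
    show (z ∈ Mid ∧ (ω (v1 z)).1 = true ∧ (ω (v2 z)).1 = true) ↔
      (z ∈ Mid ∧ (ω' (v1 z)).1 = true ∧ (ω' (v2 z)).1 = true)
    rw [h1, h2]
  show Wp (tau ω) ∩ bigB R = _ ↔ Wp (tau ω') ∩ bigB R = _
  rw [key]

/-- Events which depend on finitely many vertices are measurable. -/
theorem meas_loc {E : Set Om} (B : Finset Pt)
    (h : ∀ ω ω' : Om, (∀ x ∈ B, (ω x).1 = (ω' x).1) → (ω ∈ E ↔ ω' ∈ E)) : MeasurableSet E := by
  have h1 : Measurable fun ω : Om => B.restrict ω := by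
    refine measurable_pi_lambda _ fun x => measurable_pi_apply x.1
  have h2 : E = (fun ω : Om => B.restrict ω) ⁻¹' (B.restrict '' E) := by
    ext ω
    constructor
    · intro h3
      exact ⟨ω, h3, rfl⟩
    · rintro ⟨ω', h3, h4⟩
      refine (h ω ω' fun x hx => ?_).2 h3
      have : B.restrict ω' ⟨x, hx⟩ = B.restrict ω ⟨x, hx⟩ := congrFun h4 _
      have h5 : ω' x = ω x := this
      rw [h5]
  rw [h2]
  exact h1 (Set.Finite.measurableSet (Set.toFinite _))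

theorem meas_pc (R : ℤ) (T : Finset (ℤ × ℤ)) : MeasurableSet (pc R T) :=
  meas_loc (pcB R) (pc_loc R T)

theorem mem_idx {s R : ℤ} {ω : Om} (h : J2 s R (Wp (tau ω))) : ∃ T ∈ idx s R, ω ∈ pc R T := by
  classical
  have hfin : (Wp (tau ω) ∩ bigB R).Finite := (bigB_fin R).subset Set.inter_subset_right
  refine ⟨hfin.toFinset, ?_, ?_⟩
  · rw [idx, Finset.mem_filter, Finset.mem_powerset]
    constructor
    · intro p hp
      rw [Set.Finite.mem_toFinset] at hp ⊢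
      exact hp.2
    · obtain ⟨o, ho, h1, h2⟩ := h
      refine ⟨o, by rwa [Set.Finite.mem_toFinset], ?_, ?_⟩ <;> rw [Set.Finite.coe_toFinset]
      · exact h1
      · exact h2
  · show Wp (tau ω) ∩ bigB R = _
    rw [Set.Finite.coe_toFinset]

open Classical in
/-- A point of the cluster. -/
noncomputable def pick (s R : ℤ) (T : Finset (ℤ × ℤ)) : ℤ × ℤ :=
  if h : ∃ o ∈ T, Cut (clu (T : Set (ℤ × ℤ)) o) 0 0 s ∧
    Cut (clu (T : Set (ℤ × ℤ)) o) (3 * R) 0 R then Classical.choose h else (0, 0)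

theorem pick_spec {s R : ℤ} {T : Finset (ℤ × ℤ)} (h : T ∈ idx s R) : pick s R T ∈ T ∧
    Cut (clu (T : Set (ℤ × ℤ)) (pick s R T)) 0 0 s ∧
    Cut (clu (T : Set (ℤ × ℤ)) (pick s R T)) (3 * R) 0 R := by
  classical
  have h1 := (Finset.mem_filter.1 h).2
  unfold pick
  rw [dif_pos h1]
  exact Classical.choose_spec h1

theorem pc_sub {R : ℤ} {T : Finset (ℤ × ℤ)} {ω : Om} (h : ω ∈ pc R T) :
    (T : Set (ℤ × ℤ)) ⊆ Wp (tau ω) := by
  have : Wp (tau ω) ∩ bigB R = (T : Set (ℤ × ℤ)) := h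
  rw [← this]
  exact Set.inter_subset_left

/-- The flip preserves the law restricted to `pc R T`. -/
theorem pc_flip {Q : Measure Om} (hQ : IsQ Q) (s R : ℤ) (T : Finset (ℤ × ℤ)) (p q t : ℤ) :
    (Q.restrict (pc R T)).map (negOn (Uf (clu (T : Set (ℤ × ℤ)) (pick s R T)) p q t)) =
      Q.restrict (pc R T) := by
  refine flip_law hQ _ (pcB R) (meas_pc R T) (pc_loc R T) fun ω hω x y hxy hx hy => ?_
  have h1 : Conn (T : Set (ℤ × ℤ)) (pick s R T) (x + y) := Uf_bd hxy hx hy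
  have h2 := pc_sub hω h1.right_mem
  rcases (ends hxy).2 with ⟨h4, h5⟩ | ⟨h4, h5⟩
  · exact ⟨by have := h2.2.1; rwa [h4] at this, by have := h2.2.2; rwa [h5] at this⟩
  · exact ⟨by have := h2.2.2; rwa [h5] at this, by have := h2.2.1; rwa [h4] at this⟩

/-! ### Bounds -/

theorem inc_abs (p q : Bool × Bool) : |inc p q| ≤ 1 := by
  revert p q; decide

theorem sm_abs {f : ℤ → ℤ} (h : ∀ k, |f k| ≤ 1) (n : ℤ) : |Sm f n| ≤ |n| := by
  unfold Sm
  have h1 : ∀ a b : ℤ, |∑ k ∈ Finset.Ico a b, f k| ≤ ((b - a).toNat : ℤ) := by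
    intro a b
    refine (Finset.abs_sum_le_sum_abs _ _).trans ((Finset.sum_le_sum fun k _ => h k).trans ?_)
    rw [Finset.sum_const, Int.card_Ico]
    simp
  have h2 := h1 0 n
  have h3 := h1 n 0
  have h4 := abs_sub (∑ k ∈ Finset.Ico 0 n, f k) (∑ k ∈ Finset.Ico n 0, f k)
  rcases abs_cases n with h5 | h5 <;> omega

theorem rc_abs (ω : Om) (x : Pt) : |rc ω x| ≤ |x.1| + |x.2| := by
  unfold rc
  exact (abs_add_le _ _).trans (add_le_add (sm_abs (fun _ => inc_abs _ _) _)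
    (sm_abs (fun _ => inc_abs _ _) _))

/-- The bound of a height average. -/
noncomputable def bX (r : (ℤ × ℤ) →₀ ℝ) : ℝ :=
  ∑ q ∈ r.support, |r q| * ((|q.1| + |q.2| : ℤ) : ℝ)

theorem bd_nonneg (q : ℤ × ℤ) : (0 : ℝ) ≤ ((|q.1| + |q.2| : ℤ) : ℝ) := by
  have h1 := abs_nonneg q.1
  have h2 := abs_nonneg q.2
  have : (0 : ℤ) ≤ |q.1| + |q.2| := by omega
  exact_mod_cast this

theorem bX_nonneg (r : (ℤ × ℤ) →₀ ℝ) : 0 ≤ bX r :=
  Finset.sum_nonneg fun q _ => mul_nonneg (abs_nonneg _) (bd_nonneg q)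

theorem ev_le_bX (ω : Om) (r : (ℤ × ℤ) →₀ ℝ) : |evT r (rc ω)| ≤ bX r := by
  unfold evT Finsupp.sum bX
  refine (Finset.abs_sum_le_sum_abs _ _).trans (Finset.sum_le_sum fun q _ => ?_)
  rw [abs_mul]
  refine mul_le_mul_of_nonneg_left ?_ (abs_nonneg _)
  have := rc_abs ω q
  rw [← Int.cast_abs]
  exact_mod_cast this

theorem lv_abs (b : Pt) (ω : Om) : |lv b ω| ≤ ((|b.1| + |b.2| : ℤ) : ℝ) + 2 := by
  have h1 := rc_abs ω b
  have h2 : |lev ω b| ≤ |b.1| + |b.2| + 1 := by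
    unfold lev
    have h3 : |s1 (ω b).2| ≤ 1 := by
      generalize (ω b).2 = c
      revert c
      decide
    have := abs_sub (rc ω b) (s1 (ω b).2)
    omega
  have h4 : |(lev ω b : ℝ)| ≤ ((|b.1| + |b.2| : ℤ) : ℝ) + 1 := by
    rw [← Int.cast_abs]
    exact_mod_cast h2
  unfold lv
  have h5 := abs_add_le (lev ω b : ℝ) (1 / 2)
  have h6 : |(1 / 2 : ℝ)| = 1 / 2 := abs_of_pos (by norm_num)
  rw [h6] at h5
  linarith

theorem meas_rc (q : Pt) : Measurable fun ω : Om => (rc ω q : ℝ) :=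
  (measurable_of_countable (fun n : ℤ => (n : ℝ))).comp
    ((measurable_pi_apply q).comp s_rc.2.2.2.2.2.1)

theorem meas_evT (r : (ℤ × ℤ) →₀ ℝ) : Measurable (evT r) := by
  unfold evT Finsupp.sum
  exact Finset.measurable_sum _ fun q _ => measurable_const.mul
    ((measurable_of_countable (fun n : ℤ => (n : ℝ))).comp (measurable_pi_apply q))

theorem meas_ev' (r : (ℤ × ℤ) →₀ ℝ) : Measurable fun ω : Om => evT r (rc ω) :=
  (meas_evT r).comp s_rc.2.2.2.2.2.1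

theorem meas_lv (b : Pt) : Measurable (lv b) := by
  unfold lv lev
  have h1 : Measurable fun ω : Om => rc ω b := (measurable_pi_apply b).comp s_rc.2.2.2.2.2.1
  have h2 : Measurable fun ω : Om => s1 (ω b).2 :=
    (measurable_of_countable fun p : Bool × Bool => s1 p.2).comp (measurable_pi_apply b)
  exact ((measurable_of_countable (fun n : ℤ => (n : ℝ))).comp (h1.sub h2)).add_const _

/-- One scale: the probability of the arm event is bounded by an anti-concentration probability. -/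
theorem arm_one {Q : Measure Om} (hQ : IsQ Q) {s R : ℤ}
    {r1 o1 r2 o2 : (ℤ × ℤ) →₀ ℝ}
    (m1 : (r1.sum fun _ a => a) = 1) (m2 : (o1.sum fun _ a => a) = 1)
    (m3 : (r2.sum fun _ a => a) = 1) (m4 : (o2.sum fun _ a => a) = 1)
    (s1 : ∀ q ∈ r1.support, |q.1 - 0| ≤ s ∧ |q.2 - 0| ≤ s)
    (s2 : ∀ q ∈ o1.support, ¬ inB 0 0 s q)
    (s3 : ∀ q ∈ r2.support, |q.1 - 3 * R| ≤ R ∧ |q.2 - 0| ≤ R)
    (s4 : ∀ q ∈ o2.support, ¬ inB (3 * R) 0 R q) {V : ℝ}
    (v1 : ∫ φ, (evT r1 φ - evT o1 φ) ^ 2 ∂(Q.map rc) ≤ V)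
    (v2 : ∫ φ, (evT r2 φ - evT o2 φ) ^ 2 ∂(Q.map rc) ≤ V) {T : ℝ} (hT : 0 < T) :
    pW Q (J2 s R) ≤
      (Q.map rc).real {φ | |evT r1 φ - evT r2 φ| ≤ 2 * T} + 2 * V / T ^ 2 := by
  classical
  have := hQ.prob
  have hrc : Measurable rc := s_rc.2.2.2.2.2.1
  have hsub : {ω | J2 s R (Wp (tau ω))} ⊆ ⋃ i ∈ idx s R, pc R i := by
    intro x hx
    obtain ⟨T, hT, hxT⟩ := mem_idx hx
    simp only [Set.mem_iUnion]
    exact ⟨T, hT, hxT⟩
  refine (measureReal_mono hsub (measure_ne_top _ _)).trans ?_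
  have e1 : ∫ ω, (evT r1 (rc ω) - evT o1 (rc ω)) ^ 2 ∂Q ≤ V := by
    rw [← integral_map (φ := rc) (f := fun φ => (evT r1 φ - evT o1 φ) ^ 2) hrc.aemeasurable
      (((meas_evT r1).sub (meas_evT o1)).pow_const 2).aestronglyMeasurable]
    exact v1
  have e2 : ∫ ω, (evT r2 (rc ω) - evT o2 (rc ω)) ^ 2 ∂Q ≤ V := by
    rw [← integral_map (φ := rc) (f := fun φ => (evT r2 φ - evT o2 φ) ^ 2) hrc.aemeasurable
      (((meas_evT r2).sub (meas_evT o2)).pow_const 2).aestronglyMeasurable]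
    exact v2
  have e3 : (Q.map rc).real {φ | |evT r1 φ - evT r2 φ| ≤ 2 * T} =
      Q.real {ω | |evT r1 (rc ω) - evT r2 (rc ω)| ≤ 2 * T} := by
    have hm : MeasurableSet {φ : ℤ × ℤ → ℤ | |evT r1 φ - evT r2 φ| ≤ 2 * T} :=
      measurableSet_le (continuous_abs.measurable.comp ((meas_evT r1).sub (meas_evT r2)))
        measurable_const
    rw [map_measureReal_apply hrc hm]
    rfl
  rw [e3]
  have hcomp : ∀ᵐ ω ∂Q, Comp ω := (s_sym Q hQ).2.2
  set b : Finset (ℤ × ℤ) → Pt := fun i => RSW.v1 (pick s R i) with hb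
  set bd : Finset (ℤ × ℤ) → ℝ := fun i => ((|(b i).1| + |(b i).2| : ℤ) : ℝ) + 2 with hbd
  have hbd0 : ∀ i, 0 ≤ bd i := fun i => by
    have := bd_nonneg (b i)
    simp only [hbd]
    linarith
  refine Vale.Agent.P145.FB.abs_arm Q (idx s R) (pc R) (fun i _ => meas_pc R i) ?_
    (fun ω => evT r1 (rc ω)) (fun ω => evT o1 (rc ω)) (fun ω => evT r2 (rc ω))
    (fun ω => evT o2 (rc ω)) (meas_ev' r1) (meas_ev' o1) (meas_ev' r2)
    (meas_ev' o2) (fun i => lv (b i)) (fun i _ => meas_lv _)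
    (fun i => negOn (Uf (clu (i : Set (ℤ × ℤ)) (pick s R i)) 0 0 s))
    (fun i => negOn (Uf (clu (i : Set (ℤ × ℤ)) (pick s R i)) (3 * R) 0 R))
    (fun i _ => meas_negOn _) (fun i _ => meas_negOn _)
    (bX r1 + bX o1 + bX r2 + bX o2 + ∑ i ∈ idx s R, bd i) ?_
    (fun i _ => pc_flip hQ _ _ _ _ _ _) (fun i _ => pc_flip hQ _ _ _ _ _ _)
    ?_ ?_ V e1 e2 T hT
  · intro i _ j _ hij
    rw [Function.onFun, Set.disjoint_left]
    intro x hx hx'
    apply hij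
    have h1 : Wp (tau x) ∩ bigB R = (i : Set (ℤ × ℤ)) := hx
    have h2 : Wp (tau x) ∩ bigB R = (j : Set (ℤ × ℤ)) := hx'
    exact Finset.coe_injective (h1.symm.trans h2)
  · refine Eventually.of_forall fun ω => ?_
    have hs0 : 0 ≤ ∑ i ∈ idx s R, bd i := Finset.sum_nonneg fun i _ => hbd0 i
    have b1 := bX_nonneg r1
    have b2 := bX_nonneg o1
    have b3 := bX_nonneg r2
    have b4 := bX_nonneg o2
    refine ⟨(ev_le_bX ω r1).trans (by linarith), (ev_le_bX ω o1).trans (by linarith),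
      (ev_le_bX ω r2).trans (by linarith), (ev_le_bX ω o2).trans (by linarith), ?_⟩
    intro i hi
    have h1 : |lv (b i) ω| ≤ bd i := lv_abs _ _
    have h2 : bd i ≤ ∑ i ∈ idx s R, bd i :=
      Finset.single_le_sum (f := bd) (fun j _ => hbd0 j) hi
    linarith
  · intro i hi
    rw [ae_restrict_iff' (meas_pc R i)]
    filter_upwards [hcomp] with ω hω hi'
    have hp := pick_spec hi
    have hB := bdC_clu hω (pc_sub hi') (pick s R i) 0 0 s
    exact ⟨ev_flip_in hω hB m1 fun q hq => Uf_in hp.2.1 (s1 q hq).1 (s1 q hq).2,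
      ev_flip_out hω hB m2 fun q hq hq' => s2 q hq (Uf_inB hq')⟩
  · intro i hi
    rw [ae_restrict_iff' (meas_pc R i)]
    filter_upwards [hcomp] with ω hω hi'
    have hp := pick_spec hi
    have hB := bdC_clu hω (pc_sub hi') (pick s R i) (3 * R) 0 R
    exact ⟨ev_flip_in hω hB m3 fun q hq => Uf_in hp.2.2 (s3 q hq).1 (s3 q hq).2,
      ev_flip_out hω hB m4 fun q hq hq' => s4 q hq (Uf_inB hq')⟩

/-- **The arm event has small probability.** -/
theorem arm_small {Q : Measure Om} (hQ : IsQ Q) (hac : AcT (Q.map rc)) :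
    ∀ c > 0, ∀ M0 : ℤ, ∃ M : ℤ, M0 ≤ M ∧ ∃ s0 : ℤ, ∀ s : ℤ, s0 ≤ s →
      pW Q (J2 s (2 * M * s)) < c := by
  intro c hc M0
  obtain ⟨C, hC⟩ := hac
  set V : ℝ := max C 1 with hV
  have hV1 : 1 ≤ V := le_max_right _ _
  set T : ℝ := 1 + 8 * V / c with hT
  have h8 : 0 < 8 * V / c := by positivity
  have hT0 : 0 < T := by linarith
  obtain ⟨M1, hM1, h1⟩ := hC (2 * T) (c / 4) (by positivity)
  set M : ℕ := max M1 M0.toNat with hM
  obtain ⟨s0, hs0, h2⟩ := h1 M (le_max_left _ _)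
  have hMpos : 1 ≤ M := hM1.trans (le_max_left _ _)
  refine ⟨M, ?_, s0, fun s hs => ?_⟩
  · have : M0.toNat ≤ M := le_max_right _ _
    omega
  obtain ⟨k, rfl⟩ : ∃ k : ℕ, s = k := ⟨s.toNat, by omega⟩
  have hk : s0 ≤ k := by exact_mod_cast hs
  obtain ⟨r1, o1, r2, o2, ⟨m1, m2, m3, m4⟩, s1, s2, s3, s4, v1, v2, hp⟩ := h2 k hk
  have key := arm_one hQ (s := (k : ℤ)) (R := 2 * M * k) m1 m2 m3 m4 (V := V) (T := T)
    (fun q hq => by
      have := s1 q hq
      rw [sub_zero, sub_zero]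
      exact ⟨this.1.le, this.2.le⟩)
    (fun q hq hin => by
      have := s2 q hq
      have h3 := hin.2.1
      linarith)
    (fun q hq => by
      have := s3 q hq
      rw [sub_zero]
      exact ⟨this.1.le, this.2.le⟩)
    (fun q hq hin => by
      have := s4 q hq
      have h3 := hin.2.1
      linarith)
    (v1.trans (le_max_left _ _)) (v2.trans (le_max_left _ _)) hT0
  have h4 : 2 * V / T ^ 2 ≤ c / 4 := by
    have hTT : T ≤ T ^ 2 := by nlinarith
    have h5 : 2 * V / T ^ 2 ≤ 2 * V / T := by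
      apply div_le_div_of_nonneg_left (by linarith) hT0 hTT
    have h6 : 2 * V / T ≤ c / 4 := by
      rw [div_le_iff₀ hT0, hT]
      have : c / 4 * (1 + 8 * V / c) = c / 4 + 2 * V := by field_simp; ring
      rw [this]; linarith
    linarith
  linarith

/-- The arm event of the crossing theorem. -/
theorem harm {Q : Measure Om} (hQ : IsQ Q) (hac : AcT (Q.map rc)) :
    ∀ c : ℝ, 0 < c → ∀ M0 : ℤ, ∃ M : ℤ, M0 ≤ M ∧ ∃ s0 : ℤ, ∀ s : ℤ, s0 ≤ s →
      pW Q (Arm s (2 * M * s)) < c := by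
  intro c hc M0
  obtain ⟨M, hM, s0, h⟩ := arm_small hQ hac c hc (max M0 1)
  refine ⟨M, (le_max_left _ _).trans hM, max s0 1, fun s hs => ?_⟩
  have hs1 : 1 ≤ s := (le_max_right _ _).trans hs
  have hM1 : 1 ≤ M := (le_max_right _ _).trans hM
  have := hQ.prob
  refine lt_of_le_of_lt (measureReal_mono ?_) (h s ((le_max_left _ _).trans hs))
  intro ω hω
  exact arm_cut (by omega) (by nlinarith) (Wp_sub _) hω

end Vale.Agent.P153.F.RSW
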