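import Vale.Agent.P153.F.RSW.Defs

/-!
# P153, block F-B: increasing local events, symmetries
-/

namespace Vale.Agent.P153.F.RSW

open Relation Vale.Agent.P153.Topo

/-- Increasing events. -/
def Inc (Q : Set (ℤ × ℤ) → Prop) : Prop := ∀ S T : Set (ℤ × ℤ), S ⊆ T → Q S → Q T

/-- Events which depend on the points of a bounded box only. -/
def Loc (Q : Set (ℤ × ℤ) → Prop) : Prop :=
  ∃ N : ℤ, ∀ S T : Set (ℤ × ℤ),
    (∀ z : ℤ × ℤ, |z.1| ≤ N → |z.2| ≤ N → (z ∈ S ↔ z ∈ T)) → Q S → Q T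

/-- Increasing local events. -/
def IL (Q : Set (ℤ × ℤ) → Prop) : Prop := Inc Q ∧ Loc Q

theorem IL.and {Q R : Set (ℤ × ℤ) → Prop} (hQ : IL Q) (hR : IL R) :
    IL (fun S => Q S ∧ R S) := by
  refine ⟨fun S T h hS => ⟨hQ.1 S T h hS.1, hR.1 S T h hS.2⟩, ?_⟩
  obtain ⟨N, hN⟩ := hQ.2
  obtain ⟨M, hM⟩ := hR.2
  refine ⟨max N M, fun S T h hS => ⟨hN S T (fun z h1 h2 => h z ?_ ?_) hS.1,
    hM S T (fun z h1 h2 => h z ?_ ?_) hS.2⟩⟩
  · exact h1.trans (le_max_left _ _)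
  · exact h2.trans (le_max_left _ _)
  · exact h1.trans (le_max_right _ _)
  · exact h2.trans (le_max_right _ _)

/-- The data of the abstract theorem: `p Q` is the probability of the event `Q` for a random
set of midpoints. -/
structure PT where
  /-- probability of an event -/
  p : (Set (ℤ × ℤ) → Prop) → ℝ
  nonneg : ∀ Q, 0 ≤ p Q
  le_one : ∀ Q, p Q ≤ 1
  mono : ∀ Q R : Set (ℤ × ℤ) → Prop, (∀ S, S ⊆ Mid → Q S → R S) → p Q ≤ p R
  or_le : ∀ Q R : Set (ℤ × ℤ) → Prop, p (fun S => Q S ∨ R S) ≤ p Q + p R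
  fkg : ∀ Q R : Set (ℤ × ℤ) → Prop, IL Q → IL R → p Q * p R ≤ p (fun S => Q S ∧ R S)
  shift : ∀ (a b : ℤ) (Q : Set (ℤ × ℤ) → Prop), IL Q →
    p (fun S => Q {z | (z.1 + 2 * a, z.2 + 2 * b) ∈ S}) = p Q
  reflx : ∀ Q : Set (ℤ × ℤ) → Prop, IL Q → p (fun S => Q {z | (-z.1 - z.2, z.2) ∈ S}) = p Q
  refly : ∀ Q : Set (ℤ × ℤ) → Prop, IL Q → p (fun S => Q {z | (z.1 + z.2, -z.2) ∈ S}) = p Q
  swap : ∀ Q : Set (ℤ × ℤ) → Prop, IL Q → p (fun S => Q {z | (z.2, z.1) ∈ S}) = p Q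

theorem conn_mono {S T : Set (ℤ × ℤ)} {x y : ℤ × ℤ} (h : Conn S x y) (hST : S ⊆ T) :
    Conn T x y := h.mono hST

theorem conn_map {S S' : Set (ℤ × ℤ)} {x y : ℤ × ℤ} {T : ℤ × ℤ → ℤ × ℤ}
    (hT : ∀ u v, Adj u v → Adj (T u) (T v)) (hS : ∀ z ∈ S, T z ∈ S') (h : Conn S x y) :
    Conn S' (T x) (T y) := by
  refine ⟨hS _ h.1, ?_⟩
  have h2 := h.2
  induction h2 with
  | refl => exact ReflTransGen.refl
  | tail h1 h2 ih => exact (ih ⟨h.1, h1⟩).tail ⟨hT _ _ h2.1, hS _ h2.2⟩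

/-- Transport of a connection event by a symmetry of the lattice. -/
theorem ex_iff {T T' : ℤ × ℤ → ℤ × ℤ} (h1 : ∀ z, T (T' z) = z)
    (hT : ∀ u v, Adj u v → Adj (T u) (T v)) (hT' : ∀ u v, Adj u v → Adj (T' u) (T' v))
    {R R' : Set (ℤ × ℤ)} (hR : ∀ z, z ∈ R ↔ T z ∈ R')
    {P P' : ℤ × ℤ → ℤ × ℤ → Prop} (hP : ∀ x y, P x y ↔ P' (T x) (T y)) (S : Set (ℤ × ℤ)) :
    (∃ x y, Conn ({z | T z ∈ S} ∩ R) x y ∧ P x y) ↔ ∃ x y, Conn (S ∩ R') x y ∧ P' x y := by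
  constructor
  · rintro ⟨x, y, h, hp⟩
    exact ⟨T x, T y, conn_map hT (fun z hz => ⟨hz.1, (hR z).1 hz.2⟩) h, (hP x y).1 hp⟩
  · rintro ⟨x, y, h, hp⟩
    refine ⟨T' x, T' y, conn_map hT' (fun z hz => ⟨?_, ?_⟩) h,
      (hP _ _).2 (by rw [h1, h1]; exact hp)⟩
    · show T (T' z) ∈ S
      rw [h1]; exact hz.1
    · rw [hR, h1]; exact hz.2

/-- A connection event in a bounded region is increasing and local. -/
theorem IL_ex {R : Set (ℤ × ℤ)} (N : ℤ) (hR : ∀ z ∈ R, |z.1| ≤ N ∧ |z.2| ≤ N)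
    (P : ℤ × ℤ → ℤ × ℤ → Prop) : IL (fun S => ∃ x y, Conn (S ∩ R) x y ∧ P x y) := by
  constructor
  · rintro S T hST ⟨x, y, h, hp⟩
    exact ⟨x, y, h.mono (Set.inter_subset_inter_left _ hST), hp⟩
  · refine ⟨N, ?_⟩
    rintro S T hST ⟨x, y, h, hp⟩
    refine ⟨x, y, h.mono ?_, hp⟩
    rintro z ⟨hz, hzR⟩
    exact ⟨(hST z (hR z hzR).1 (hR z hzR).2).1 hz, hzR⟩

theorem pr_bdd (a b c d : ℤ) : ∀ z ∈ pr a b c d,
    |z.1| ≤ 2 * (|a| + |b| + |c| + |d|) ∧ |z.2| ≤ 2 * (|a| + |b| + |c| + |d|) := by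
  rintro ⟨x, y⟩ ⟨h1, h2, h3, h4⟩
  dsimp only at h1 h2 h3 h4 ⊢
  have := abs_nonneg a
  have := abs_nonneg b
  have := abs_nonneg c
  have := abs_nonneg d
  have := le_abs_self a
  have := le_abs_self b
  have := le_abs_self c
  have := le_abs_self d
  have := neg_abs_le a
  have := neg_abs_le b
  have := neg_abs_le c
  have := neg_abs_le d
  constructor <;> rw [abs_le] <;> constructor <;> linarith

theorem hex_bdd (p q n : ℤ) : ∀ z ∈ hex p q n,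
    |z.1| ≤ 4 * (|p| + |q| + |n|) ∧ |z.2| ≤ 4 * (|p| + |q| + |n|) := by
  rintro ⟨x, y⟩ ⟨h1, h2, h3, h4, _, _⟩
  dsimp only at h1 h2 h3 h4 ⊢
  have := abs_nonneg p
  have := abs_nonneg q
  have := abs_nonneg n
  have := le_abs_self p
  have := le_abs_self q
  have := le_abs_self n
  have := neg_abs_le p
  have := neg_abs_le q
  have := neg_abs_le n
  constructor <;> rw [abs_le] <;> constructor <;> linarith

theorem IL_LRp (a b c d : ℤ) : IL (LRp a b c d) :=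
  IL_ex _ (pr_bdd a b c d) (fun x y => x.1 = 2 * a ∧ y.1 = 2 * b)

theorem IL_BTp (a b c d : ℤ) : IL (BTp a b c d) :=
  IL_ex _ (pr_bdd a b c d) (fun x y => x.2 = 2 * c ∧ y.2 = 2 * d)

theorem IL_HT (p q n u v : ℤ) : IL (HT p q n u v) :=
  IL_ex _ (hex_bdd p q n) (fun x y => x.2 = 4 * (p - n) ∧ y.2 = 4 * (p + n) ∧
    4 * u ≤ 2 * y.1 + y.2 ∧ 2 * y.1 + y.2 ≤ 4 * v)

theorem IL_HM (p q n u v : ℤ) : IL (HM p q n u v) :=
  IL_ex _ (hex_bdd p q n) (fun x y => x.2 = 4 * (p + n) ∧ y.2 = 4 * (p - n) ∧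
    4 * u ≤ 2 * y.1 + y.2 ∧ 2 * y.1 + y.2 ≤ 4 * v)

theorem IL_CT (p q n : ℤ) : IL (CT p q n) :=
  IL_ex _ (hex_bdd p q n) (fun x y => x.1 = 2 * (q - p - 2 * n) ∧ y.1 = 2 * (q - p + 2 * n))

theorem IL_XX (p q n h : ℤ) : IL (XX p q n h) :=
  (IL_HT _ _ _ _ _).and ((IL_HT _ _ _ _ _).and ((IL_HM _ _ _ _ _).and
    ((IL_HM _ _ _ _ _).and (IL_CT _ _ _))))

theorem IL_Ann (p q t : ℤ) : IL (Ann p q t) :=
  (IL_LRp _ _ _ _).and ((IL_LRp _ _ _ _).and ((IL_BTp _ _ _ _).and (IL_BTp _ _ _ _)))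

section sym

theorem adj_shift (p q : ℤ) (u v : ℤ × ℤ) (h : Adj u v) :
    Adj (u.1 + 2 * p, u.2 + 2 * q) (v.1 + 2 * p, v.2 + 2 * q) := by
  rw [adj_iff] at *; dsimp only; omega

theorem adj_reflx (u v : ℤ × ℤ) (h : Adj u v) : Adj (-u.1 - u.2, u.2) (-v.1 - v.2, v.2) := by
  rw [adj_iff] at *; dsimp only; omega

theorem adj_refly (u v : ℤ × ℤ) (h : Adj u v) : Adj (u.1 + u.2, -u.2) (v.1 + v.2, -v.2) := by
  rw [adj_iff] at *; dsimp only; omega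

theorem adj_swap (u v : ℤ × ℤ) (h : Adj u v) : Adj (u.2, u.1) (v.2, v.1) := by
  rw [adj_iff] at *; dsimp only; omega

variable (S : Set (ℤ × ℤ))

theorem LRp_shift (a b c d p q : ℤ) :
    LRp a b c d {z | (z.1 + 2 * p, z.2 + 2 * q) ∈ S} ↔ LRp (a + p) (b + p) (c + q) (d + q) S := by
  refine ex_iff (T := fun z => (z.1 + 2 * p, z.2 + 2 * q))
    (T' := fun z => (z.1 + 2 * (-p), z.2 + 2 * (-q))) ?_ (adj_shift p q) (adj_shift (-p) (-q)) ?_ ?_ S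
  · rintro ⟨x, y⟩; ext <;> dsimp only <;> ring
  · rintro ⟨x, y⟩; simp only [pr, Set.mem_ofPred_eq]; constructor <;> intro h <;> omega
  · rintro ⟨x, y⟩ ⟨x', y'⟩; dsimp only; omega

theorem HT_shift (p q n u v a b : ℤ) :
    HT p q n u v {z | (z.1 + 2 * (b - a), z.2 + 2 * (2 * a)) ∈ S} ↔
      HT (p + a) (q + b) n (u + b) (v + b) S := by
  refine ex_iff (T := fun z => (z.1 + 2 * (b - a), z.2 + 2 * (2 * a)))
    (T' := fun z => (z.1 + 2 * (-(b - a)), z.2 + 2 * (-(2 * a)))) ?_ (adj_shift (b - a) (2 * a))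
    (adj_shift (-(b - a)) (-(2 * a))) ?_ ?_ S
  · rintro ⟨x, y⟩; ext <;> dsimp only <;> ring
  · rintro ⟨x, y⟩; simp only [hex, Set.mem_ofPred_eq]; constructor <;> intro h <;> omega
  · rintro ⟨x, y⟩ ⟨x', y'⟩; dsimp only; omega

theorem CT_shift (p q n a b : ℤ) :
    CT p q n {z | (z.1 + 2 * (b - a), z.2 + 2 * (2 * a)) ∈ S} ↔ CT (p + a) (q + b) n S := by
  refine ex_iff (T := fun z => (z.1 + 2 * (b - a), z.2 + 2 * (2 * a)))
    (T' := fun z => (z.1 + 2 * (-(b - a)), z.2 + 2 * (-(2 * a)))) ?_ (adj_shift (b - a) (2 * a))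
    (adj_shift (-(b - a)) (-(2 * a))) ?_ ?_ S
  · rintro ⟨x, y⟩; ext <;> dsimp only <;> ring
  · rintro ⟨x, y⟩; simp only [hex, Set.mem_ofPred_eq]; constructor <;> intro h <;> omega
  · rintro ⟨x, y⟩ ⟨x', y'⟩; dsimp only; omega

theorem HT_refly (p q n u v : ℤ) :
    HT p q n u v {z | (z.1 + z.2, -z.2) ∈ S} ↔ HM (-p) q n u v S := by
  refine ex_iff (T := fun z => (z.1 + z.2, -z.2)) (T' := fun z => (z.1 + z.2, -z.2)) ?_ adj_refly
    adj_refly ?_ ?_ S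
  · rintro ⟨x, y⟩; ext <;> dsimp only <;> ring
  · rintro ⟨x, y⟩; simp only [hex, Set.mem_ofPred_eq]; constructor <;> intro h <;> omega
  · rintro ⟨x, y⟩ ⟨x', y'⟩; dsimp only; omega

theorem HT_reflx (p q n u v : ℤ) :
    HT p q n u v {z | (-z.1 - z.2, z.2) ∈ S} ↔ HT p (-q) n (-v) (-u) S := by
  refine ex_iff (T := fun z => (-z.1 - z.2, z.2)) (T' := fun z => (-z.1 - z.2, z.2)) ?_ adj_reflx
    adj_reflx ?_ ?_ S
  · rintro ⟨x, y⟩; ext <;> dsimp only <;> ring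
  · rintro ⟨x, y⟩; simp only [hex, Set.mem_ofPred_eq]; constructor <;> intro h <;> omega
  · rintro ⟨x, y⟩ ⟨x', y'⟩; dsimp only; omega

theorem LRp_swap (a b c d : ℤ) : LRp a b c d {z | (z.2, z.1) ∈ S} ↔ BTp c d a b S := by
  refine ex_iff (T := fun z => (z.2, z.1)) (T' := fun z => (z.2, z.1)) ?_ adj_swap adj_swap ?_ ?_ S
  · rintro ⟨x, y⟩; rfl
  · rintro ⟨x, y⟩; simp only [pr, Set.mem_ofPred_eq]; constructor <;> intro h <;> omega
  · rintro ⟨x, y⟩ ⟨x', y'⟩; dsimp only; omega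

/-- The two kinds of crossings of a hexagon. -/
theorem CT_swap (n : ℤ) : CT 0 0 n {z | (z.2, z.1) ∈ S} ↔ HT 0 0 n (-n) n S := by
  unfold CT HT
  rw [ex_iff (T := fun z => (z.2, z.1)) (T' := fun z => (z.2, z.1))
    (R := hex 0 0 n) (R' := hex 0 0 n)
    (P := fun x y => x.1 = 2 * (0 - 0 - 2 * n) ∧ y.1 = 2 * (0 - 0 + 2 * n))
    (P' := fun x y => x.2 = 4 * (0 - n) ∧ y.2 = 4 * (0 + n)) ?_ adj_swap adj_swap ?_ ?_ S]
  · constructor
    · rintro ⟨x, y, h, h1, h2⟩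
      obtain ⟨_, g1, g2, g3, g4, g5, g6⟩ := h.right_mem
      exact ⟨x, y, h, h1, h2, by omega, by omega⟩
    · rintro ⟨x, y, h, h1, h2, _, _⟩
      exact ⟨x, y, h, h1, h2⟩
  · rintro ⟨x, y⟩; rfl
  · rintro ⟨x, y⟩; simp only [hex, Set.mem_ofPred_eq]; constructor <;> intro h <;> omega
  · rintro ⟨x, y⟩ ⟨x', y'⟩; dsimp only; omega

end sym

namespace PT

variable (P : PT)

theorem p_LRp_shift (a b c d p q : ℤ) :
    P.p (LRp (a + p) (b + p) (c + q) (d + q)) = P.p (LRp a b c d) := by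
  rw [← P.shift p q _ (IL_LRp a b c d)]
  congr 1
  funext S
  exact propext (LRp_shift S a b c d p q).symm

theorem p_HT_shift (p q n u v a b : ℤ) :
    P.p (HT (p + a) (q + b) n (u + b) (v + b)) = P.p (HT p q n u v) := by
  rw [← P.shift (b - a) (2 * a) _ (IL_HT p q n u v)]
  congr 1
  funext S
  exact propext (HT_shift S p q n u v a b).symm

theorem p_CT_shift (p q n a b : ℤ) : P.p (CT (p + a) (q + b) n) = P.p (CT p q n) := by
  rw [← P.shift (b - a) (2 * a) _ (IL_CT p q n)]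
  congr 1
  funext S
  exact propext (CT_shift S p q n a b).symm

theorem p_HM (p q n u v : ℤ) : P.p (HM (-p) q n u v) = P.p (HT p q n u v) := by
  rw [← P.refly _ (IL_HT p q n u v)]
  congr 1
  funext S
  exact propext (HT_refly S p q n u v).symm

theorem p_HT_reflx (p q n u v : ℤ) : P.p (HT p (-q) n (-v) (-u)) = P.p (HT p q n u v) := by
  rw [← P.reflx _ (IL_HT p q n u v)]
  congr 1
  funext S
  exact propext (HT_reflx S p q n u v).symm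

theorem p_BTp (a b c d : ℤ) : P.p (BTp c d a b) = P.p (LRp a b c d) := by
  rw [← P.swap _ (IL_LRp a b c d)]
  congr 1
  funext S
  exact propext (LRp_swap S a b c d).symm

theorem p_CT (p q n : ℤ) : P.p (CT p q n) = P.p (HT 0 0 n (-n) n) := by
  have h1 := P.p_CT_shift 0 0 n p q
  rw [zero_add, zero_add] at h1
  rw [h1, ← P.swap _ (IL_CT 0 0 n)]
  congr 1
  funext S
  exact propext (CT_swap S n)

end PT

end Vale.Agent.P153.F.RSW
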