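import Vale.Agent.P153.F.RSW.Wall
import Vale.Agent.P153.F.RSW.Ev

/-!
# P153, block F-B: duality in rhombi and hexagons (deterministic part)
-/

namespace Vale.Agent.P153.F.RSW

open Vale.Agent.P153.Topo
open Vale.Agent.P153.A hiding Loc

/-- A bichromatic edge going up (down) from a vertex is joined to a horizontal one. -/
theorem side1 {t s : Sp} (hc : Cmp t s) {R : Set (ℤ × ℤ)} {V e : ℤ × ℤ} (he : Dir e)
    (ht : t V ≠ t (V + e)) (h1 : pt V e ∈ R) (h2 : pt V (rt e) ∈ R) :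
    Conn (Wm s ∩ R) (pt V (rt e)) (pt V e) :=
  Conn.of_adj ⟨(pt_Wm (dir_rt he)).2 (star1 hc he ht), h2⟩ ⟨(pt_Wm he).2 (star0 hc he ht), h1⟩
    (adj_symm (pt_adj he))

theorem side2 {t s : Sp} (hc : Cmp t s) {R : Set (ℤ × ℤ)} {V e : ℤ × ℤ} (he : Dir e)
    (ht : t V ≠ t (V + e)) (h1 : pt V e ∈ R) (h2 : pt V (rt' e) ∈ R) :
    Conn (Wm s ∩ R) (pt V (rt' e)) (pt V e) :=
  Conn.of_adj ⟨(pt_Wm (dir_rt' he)).2 (star2 hc he ht), h2⟩ ⟨(pt_Wm he).2 (star0 hc he ht), h1⟩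
    (adj_symm (pt_adj' he))

theorem side0 {t s : Sp} (hc : Cmp t s) {R : Set (ℤ × ℤ)} {x m : ℤ × ℤ} (h : Near t R x m) :
    Conn (Wm s ∩ R) m m := Conn.refl ⟨bi_Wm hc h.1 h.2.2.1, h.2.1⟩

/-! ### Rhombi -/

/-- Crossing of the rhombus from the bottom to the top side, each prolonged by one edge. -/
def BX (n : ℤ) (S : Set (ℤ × ℤ)) : Prop :=
  ∃ m m', Conn (S ∩ pr 0 n 0 n) m m' ∧ (m.2 = 0 ∨ m = (2 * n, 1)) ∧
    (m'.2 = 2 * n ∨ m' = (0, 2 * n - 1))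

theorem rh_bot {t s : Sp} (hc : Cmp t s) {n : ℤ} {x m : ℤ × ℤ} (hx : x.2 = 0)
    (h : Near t (pr 0 n 0 n) x m) :
    ∃ m₁, Conn (Wm s ∩ pr 0 n 0 n) m₁ m ∧ (m₁.2 = 0 ∨ m₁ = (2 * n, 1)) := by
  by_cases hxm : x ∈ Mid
  · have hmx : m = x := by
      rcases h.2.2.2 with h4 | ⟨h4, _⟩
      · exact h4
      · exact absurd hxm h4
    exact ⟨m, side0 hc h, Or.inl (by rw [hmx]; exact hx)⟩
  · obtain ⟨V, rfl⟩ := vertex_of hxm
    obtain ⟨e, he, rfl, ht, hR⟩ := near_vertex h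
    simp only [pt, Prod.snd_zero] at hx
    have hR' := hR
    simp only [pr, pt, Set.mem_ofPred_eq] at hR'
    rcases he with rfl | rfl | rfl | rfl | rfl | rfl
    · exact ⟨_, side0 hc h, Or.inl (by simp only [pt]; omega)⟩
    · by_cases hV : V.1 = n
      · refine ⟨_, side0 hc h, Or.inr ?_⟩
        ext <;> simp only [pt] <;> omega
      · refine ⟨_, side2 hc (by simp [Dir]) ht hR ?_, Or.inl ?_⟩
        · simp only [pr, pt, rt', Set.mem_ofPred_eq]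
          omega
        · simp only [pt, rt']
          omega
    · refine ⟨_, side1 hc (by simp [Dir]) ht hR ?_, Or.inl ?_⟩
      · simp only [pr, pt, rt, Set.mem_ofPred_eq]
        omega
      · simp only [pt, rt]
        omega
    · exact ⟨_, side0 hc h, Or.inl (by simp only [pt]; omega)⟩
    · omega
    · omega

theorem rh_top {t s : Sp} (hc : Cmp t s) {n : ℤ} {x m : ℤ × ℤ} (hx : x.2 = 2 * n)
    (h : Near t (pr 0 n 0 n) x m) :
    ∃ m₁, Conn (Wm s ∩ pr 0 n 0 n) m₁ m ∧ (m₁.2 = 2 * n ∨ m₁ = (0, 2 * n - 1)) := by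
  by_cases hxm : x ∈ Mid
  · have hmx : m = x := by
      rcases h.2.2.2 with h4 | ⟨h4, _⟩
      · exact h4
      · exact absurd hxm h4
    exact ⟨m, side0 hc h, Or.inl (by rw [hmx]; exact hx)⟩
  · obtain ⟨V, rfl⟩ := vertex_of hxm
    obtain ⟨e, he, rfl, ht, hR⟩ := near_vertex h
    simp only [pt, Prod.snd_zero] at hx
    have hR' := hR
    simp only [pr, pt, Set.mem_ofPred_eq] at hR'
    rcases he with rfl | rfl | rfl | rfl | rfl | rfl
    · exact ⟨_, side0 hc h, Or.inl (by simp only [pt]; omega)⟩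
    · omega
    · omega
    · exact ⟨_, side0 hc h, Or.inl (by simp only [pt]; omega)⟩
    · by_cases hV : V.1 = 0
      · refine ⟨_, side0 hc h, Or.inr ?_⟩
        ext <;> simp only [pt] <;> omega
      · refine ⟨_, side2 hc (by simp [Dir]) ht hR ?_, Or.inl ?_⟩
        · simp only [pr, pt, rt', Set.mem_ofPred_eq]
          omega
        · simp only [pt, rt']
          omega
    · refine ⟨_, side1 hc (by simp [Dir]) ht hR ?_, Or.inl ?_⟩
      · simp only [pr, pt, rt, Set.mem_ofPred_eq]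
        omega
      · simp only [pt, rt]
        omega

/-- **Duality in a rhombus.** -/
theorem rh_dich {t s : Sp} (hc : Cmp t s) {n : ℤ} (hn : 0 < n) :
    LRp 0 n 0 n (Wp t) ∨ LRp 0 n 0 n (Wp fun x => !t x) ∨ BX n (Wp s) ∨
      BX n (Wp fun x => !s x) := by
  have hRect : Rect 0 (2 * n) 0 (2 * n) = pr 0 n 0 n := by
    ext z
    simp only [Rect, pr, Set.mem_ofPred_eq, mul_zero]
  rcases Topo.hex (Wm t) (a := 0) (b := 2 * n) (c := 0) (d := 2 * n) (by omega) (by omega) with h | h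
  · obtain ⟨x, y, h, hx, hy⟩ := h
    rw [hRect] at h
    rcases sgn h with h | h
    · exact Or.inl ⟨x, y, h, by omega, hy⟩
    · exact Or.inr (Or.inl ⟨x, y, h, by omega, hy⟩)
  · obtain ⟨x, y, h, hx, hy⟩ := h
    rw [hRect] at h
    obtain ⟨m, m', hm, hm', hmm⟩ := wall hc (rg_pr hn hn) h (fun he => by rw [he] at hx; omega)
    obtain ⟨m₁, g1, g2⟩ := rh_bot hc hx hm
    obtain ⟨m₂, g3, g4⟩ := rh_top hc hy hm'
    rcases sgn ((g1.trans hmm).trans g3.symm) with h | h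
    · exact Or.inr (Or.inr (Or.inl ⟨m₁, m₂, h, g2, g4⟩))
    · exact Or.inr (Or.inr (Or.inr ⟨m₁, m₂, h, g2, g4⟩))

/-- The corners of the rhombus are closed. -/
def GR (n : ℤ) (S : Set (ℤ × ℤ)) : Prop :=
  ((2 * n - 1, 1) ∈ S ∧ (2 * n - 1, 0) ∈ S) ∧ ((1, 2 * n - 1) ∈ S ∧ (1, 2 * n) ∈ S)

theorem rh_corner {n : ℤ} (hn : 0 < n) {S : Set (ℤ × ℤ)} (h : BX n S) (hg : GR n S) :
    BTp 0 n 0 n S := by
  obtain ⟨m, m', h, h1, h2⟩ := h
  obtain ⟨⟨g1, g2⟩, g3, g4⟩ := hg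
  have c1 : ∃ k, Conn (S ∩ pr 0 n 0 n) k m ∧ k.2 = 0 := by
    rcases h1 with h1 | rfl
    · exact ⟨m, Conn.refl h.left_mem, h1⟩
    · refine ⟨(2 * n - 1, 0), ?_, rfl⟩
      have e1 : ((2 * n - 1, 1) : ℤ × ℤ) ∈ S ∩ pr 0 n 0 n := ⟨g1, by
        simp only [pr, Set.mem_ofPred_eq]; omega⟩
      have e2 : ((2 * n - 1, 0) : ℤ × ℤ) ∈ S ∩ pr 0 n 0 n := ⟨g2, by
        simp only [pr, Set.mem_ofPred_eq]; omega⟩
      exact (Conn.of_adj e2 e1 (by rw [adj_iff]; omega)).tail (by rw [adj_iff]; dsimp only; omega)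
        h.left_mem
  have c2 : ∃ k, Conn (S ∩ pr 0 n 0 n) m' k ∧ k.2 = 2 * n := by
    rcases h2 with h2 | rfl
    · exact ⟨m', Conn.refl h.right_mem, h2⟩
    · refine ⟨(1, 2 * n), ?_, rfl⟩
      have e1 : ((1, 2 * n - 1) : ℤ × ℤ) ∈ S ∩ pr 0 n 0 n := ⟨g3, by
        simp only [pr, Set.mem_ofPred_eq]; omega⟩
      have e2 : ((1, 2 * n) : ℤ × ℤ) ∈ S ∩ pr 0 n 0 n := ⟨g4, by
        simp only [pr, Set.mem_ofPred_eq]; omega⟩
      exact (Conn.of_adj h.right_mem e1 (by rw [adj_iff]; dsimp only; omega)).tail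
        (by rw [adj_iff]; dsimp only; omega) e2
  obtain ⟨k, hk, hk0⟩ := c1
  obtain ⟨k', hk', hk0'⟩ := c2
  exact ⟨k, k', (hk.trans h).trans hk', by omega, hk0'⟩

/-! ### Hexagons -/

/-- Crossing of the hexagon from the bottom to the top side, each prolonged by one edge. -/
def HX (n : ℤ) (S : Set (ℤ × ℤ)) : Prop :=
  ∃ m m', Conn (S ∩ hex 0 0 n) m m' ∧
    (m.2 = -(4 * n) ∨ m = (4 * n, -(4 * n) + 1) ∨ m = (-1, -(4 * n) + 1)) ∧
    (m'.2 = 4 * n ∨ m' = (-(4 * n), 4 * n - 1) ∨ m' = (1, 4 * n - 1))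

/-- Crossing of the hexagon from the two left sides to the two right sides. -/
def LU (n : ℤ) (S : Set (ℤ × ℤ)) : Prop :=
  ∃ x y, Conn (S ∩ hex 0 0 n) x y ∧ (x.1 = -(4 * n) ∨ x.1 + x.2 = -(4 * n)) ∧
    (y.1 = 4 * n ∨ y.1 + y.2 = 4 * n)

theorem mem_hex0 {n : ℤ} {z : ℤ × ℤ} : z ∈ hex 0 0 n ↔ -(4 * n) ≤ z.2 ∧ z.2 ≤ 4 * n ∧
    -(4 * n) ≤ z.1 ∧ z.1 ≤ 4 * n ∧ -(4 * n) ≤ z.1 + z.2 ∧ z.1 + z.2 ≤ 4 * n := by
  simp only [hex, Set.mem_ofPred_eq]
  omega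

theorem hx_bot {t s : Sp} (hc : Cmp t s) {n : ℤ} {x m : ℤ × ℤ} (hx : x.2 = -(4 * n))
    (h : Near t (hex 0 0 n) x m) :
    ∃ m₁, Conn (Wm s ∩ hex 0 0 n) m₁ m ∧
      (m₁.2 = -(4 * n) ∨ m₁ = (4 * n, -(4 * n) + 1) ∨ m₁ = (-1, -(4 * n) + 1)) := by
  by_cases hxm : x ∈ Mid
  · have hmx : m = x := by
      rcases h.2.2.2 with h4 | ⟨h4, _⟩
      · exact h4
      · exact absurd hxm h4
    exact ⟨m, side0 hc h, Or.inl (by rw [hmx]; exact hx)⟩
  · obtain ⟨V, rfl⟩ := vertex_of hxm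
    obtain ⟨e, he, rfl, ht, hR⟩ := near_vertex h
    simp only [pt, Prod.snd_zero] at hx
    have hR' := mem_hex0.1 hR
    simp only [pt] at hR'
    rcases he with rfl | rfl | rfl | rfl | rfl | rfl
    · exact ⟨_, side0 hc h, Or.inl (by simp only [pt]; omega)⟩
    · by_cases hV : V.1 = 2 * n
      · refine ⟨_, side0 hc h, Or.inr (Or.inl ?_)⟩
        ext <;> simp only [pt] <;> omega
      · refine ⟨_, side2 hc (by simp [Dir]) ht hR ?_, Or.inl ?_⟩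
        · rw [mem_hex0]
          simp only [pt, rt']
          omega
        · simp only [pt, rt']
          omega
    · by_cases hV : V.1 = 0
      · refine ⟨_, side0 hc h, Or.inr (Or.inr ?_)⟩
        ext <;> simp only [pt] <;> omega
      · refine ⟨_, side1 hc (by simp [Dir]) ht hR ?_, Or.inl ?_⟩
        · rw [mem_hex0]
          simp only [pt, rt]
          omega
        · simp only [pt, rt]
          omega
    · exact ⟨_, side0 hc h, Or.inl (by simp only [pt]; omega)⟩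
    · omega
    · omega

theorem hx_top {t s : Sp} (hc : Cmp t s) {n : ℤ} {x m : ℤ × ℤ} (hx : x.2 = 4 * n)
    (h : Near t (hex 0 0 n) x m) :
    ∃ m₁, Conn (Wm s ∩ hex 0 0 n) m₁ m ∧
      (m₁.2 = 4 * n ∨ m₁ = (-(4 * n), 4 * n - 1) ∨ m₁ = (1, 4 * n - 1)) := by
  by_cases hxm : x ∈ Mid
  · have hmx : m = x := by
      rcases h.2.2.2 with h4 | ⟨h4, _⟩
      · exact h4
      · exact absurd hxm h4
    exact ⟨m, side0 hc h, Or.inl (by rw [hmx]; exact hx)⟩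
  · obtain ⟨V, rfl⟩ := vertex_of hxm
    obtain ⟨e, he, rfl, ht, hR⟩ := near_vertex h
    simp only [pt, Prod.snd_zero] at hx
    have hR' := mem_hex0.1 hR
    simp only [pt] at hR'
    rcases he with rfl | rfl | rfl | rfl | rfl | rfl
    · exact ⟨_, side0 hc h, Or.inl (by simp only [pt]; omega)⟩
    · omega
    · omega
    · exact ⟨_, side0 hc h, Or.inl (by simp only [pt]; omega)⟩
    · by_cases hV : V.1 = -(2 * n)
      · refine ⟨_, side0 hc h, Or.inr (Or.inl ?_)⟩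
        ext <;> simp only [pt] <;> omega
      · refine ⟨_, side2 hc (by simp [Dir]) ht hR ?_, Or.inl ?_⟩
        · rw [mem_hex0]
          simp only [pt, rt']
          omega
        · simp only [pt, rt']
          omega
    · by_cases hV : V.1 = 0
      · refine ⟨_, side0 hc h, Or.inr (Or.inr ?_)⟩
        ext <;> simp only [pt] <;> omega
      · refine ⟨_, side1 hc (by simp [Dir]) ht hR ?_, Or.inl ?_⟩
        · rw [mem_hex0]
          simp only [pt, rt]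
          omega
        · simp only [pt, rt]
          omega

/-- A crossing of the parallelogram, the corners outside the hexagon being open, gives a crossing
of the hexagon. -/
theorem hx_extract {A : Set (ℤ × ℤ)} {n : ℤ} (hn : 0 < n) {x y : ℤ × ℤ}
    (h : Conn (((A ∩ hex 0 0 n) ∪ {z | 4 * n < z.1 + z.2 ∨ z.1 + z.2 < -(4 * n)}) ∩
      Rect (-(4 * n)) (4 * n) (-(4 * n)) (4 * n)) x y) (hx : x.1 = -(4 * n)) (hy : y.1 = 4 * n) :
    LU n A := by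
  have key : (y.1 + y.2 < -(4 * n)) ∨
      (∃ x', Conn (A ∩ hex 0 0 n) x' y ∧ (x'.1 = -(4 * n) ∨ x'.1 + x'.2 = -(4 * n))) ∨ LU n A := by
    refine Conn.ind (fun z => (z.1 + z.2 < -(4 * n)) ∨
      (∃ x', Conn (A ∩ hex 0 0 n) x' z ∧ (x'.1 = -(4 * n) ∨ x'.1 + x'.2 = -(4 * n))) ∨ LU n A)
      ?_ (fun u v hu huv hv ih => ?_) h
    · obtain ⟨h1, h2⟩ := h.left_mem
      rcases h1 with h1 | h1 | h1
      · exact Or.inr (Or.inl ⟨x, Conn.refl h1, Or.inl hx⟩)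
      · rw [mem_rect] at h2
        omega
      · exact Or.inl h1
    · rw [adj_iff] at huv
      rcases ih with ih | ⟨x', ih, hx'⟩ | ih
      · rcases hv.1 with h1 | h1 | h1
        · refine Or.inr (Or.inl ⟨v, Conn.refl h1, Or.inr ?_⟩)
          have := mem_hex0.1 h1.2
          omega
        · omega
        · exact Or.inl h1
      · rcases hv.1 with h1 | h1 | h1
        · exact Or.inr (Or.inl ⟨x', ih.tail (adj_iff.2 huv) h1, hx'⟩)
        · refine Or.inr (Or.inr ⟨x', u, ih, hx', Or.inr ?_⟩)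
          have := mem_hex0.1 ih.right_mem.2
          omega
        · exact Or.inl h1
      · exact Or.inr (Or.inr ih)
  have hyR := h.right_mem.2
  rw [mem_rect] at hyR
  rcases key with h1 | ⟨x', h1, h2⟩ | h1
  · omega
  · exact ⟨x', y, h1, h2, Or.inl hy⟩
  · exact h1

/-- **Duality in a hexagon.** -/
theorem hx_dich {t s : Sp} (hc : Cmp t s) {n : ℤ} (hn : 0 < n) :
    LU n (Wp t) ∨ LU n (Wp fun x => !t x) ∨ HX n (Wp s) ∨ HX n (Wp fun x => !s x) := by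
  rcases Topo.hex ((Wm t ∩ hex 0 0 n) ∪ {z | 4 * n < z.1 + z.2 ∨ z.1 + z.2 < -(4 * n)})
    (a := -(4 * n)) (b := 4 * n) (c := -(4 * n)) (d := 4 * n) (by omega) (by omega) with h | h
  · obtain ⟨x, y, h, hx, hy⟩ := h
    obtain ⟨x', y', h', h1, h2⟩ := hx_extract hn h hx hy
    rcases sgn h' with h | h
    · exact Or.inl ⟨x', y', h, h1, h2⟩
    · exact Or.inr (Or.inl ⟨x', y', h, h1, h2⟩)
  · obtain ⟨x, y, h, hx, hy⟩ := h
    have h' : Conn ((Wm t)ᶜ ∩ hex 0 0 n) x y := by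
      refine h.mono ?_
      rintro z ⟨h1, h2⟩
      rw [Set.mem_compl_iff, Set.mem_union, not_or] at h1
      have h3 : z ∈ hex 0 0 n := by
        rw [mem_hex0]
        rw [mem_rect] at h2
        have h4 := h1.2
        simp only [Set.mem_ofPred_eq, not_or, not_lt] at h4
        omega
      exact ⟨fun h4 => h1.1 ⟨h4, h3⟩, h3⟩
    obtain ⟨m, m', hm, hm', hmm⟩ := wall hc (rg_hex hn) h' (fun he => by rw [he] at hx; omega)
    obtain ⟨m₁, g1, g2⟩ := hx_bot hc hx hm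
    obtain ⟨m₂, g3, g4⟩ := hx_top hc hy hm'
    rcases sgn ((g1.trans hmm).trans g3.symm) with h | h
    · exact Or.inr (Or.inr (Or.inl ⟨m₁, m₂, h, g2, g4⟩))
    · exact Or.inr (Or.inr (Or.inr ⟨m₁, m₂, h, g2, g4⟩))

/-- The corners of the top and of the bottom side of the hexagon are closed. -/
def GH (n : ℤ) (S : Set (ℤ × ℤ)) : Prop :=
  (((4 * n - 1, -(4 * n) + 1) ∈ S ∧ (4 * n - 1, -(4 * n)) ∈ S) ∧
    ((0, -(4 * n) + 1) ∈ S ∧ (1, -(4 * n)) ∈ S)) ∧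
  (((-(4 * n) + 1, 4 * n - 1) ∈ S ∧ (-(4 * n) + 1, 4 * n) ∈ S) ∧
    ((0, 4 * n - 1) ∈ S ∧ (-1, 4 * n) ∈ S))

theorem hx_corner {n : ℤ} (hn : 0 < n) {S : Set (ℤ × ℤ)} (h : HX n S) (hg : GH n S) :
    HT 0 0 n (-n) n S := by
  obtain ⟨m, m', h, h1, h2⟩ := h
  obtain ⟨⟨⟨g1, g2⟩, g3, g4⟩, ⟨⟨g5, g6⟩, g7, g8⟩⟩ := hg
  have two : ∀ a b c : ℤ × ℤ, a ∈ S ∩ hex 0 0 n → b ∈ S → b ∈ hex 0 0 n → c ∈ S → c ∈ hex 0 0 n →
      Adj a b → Adj b c → Conn (S ∩ hex 0 0 n) a c := fun a b c ha hb hb' hc hc' hab hbc =>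
    (Conn.of_adj ha ⟨hb, hb'⟩ hab).tail hbc ⟨hc, hc'⟩
  have c1 : ∃ k, Conn (S ∩ hex 0 0 n) m k ∧ k.2 = -(4 * n) := by
    rcases h1 with h1 | rfl | rfl
    · exact ⟨m, Conn.refl h.left_mem, h1⟩
    · exact ⟨_, two _ _ _ h.left_mem g1 (by rw [mem_hex0]; dsimp only; omega) g2
        (by rw [mem_hex0]; dsimp only; omega) (by rw [adj_iff]; dsimp only; omega)
        (by rw [adj_iff]; dsimp only; omega), rfl⟩
    · exact ⟨_, two _ _ _ h.left_mem g3 (by rw [mem_hex0]; dsimp only; omega) g4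
        (by rw [mem_hex0]; dsimp only; omega) (by rw [adj_iff]; dsimp only; omega)
        (by rw [adj_iff]; dsimp only; omega), rfl⟩
  have c2 : ∃ k, Conn (S ∩ hex 0 0 n) m' k ∧ k.2 = 4 * n := by
    rcases h2 with h2 | rfl | rfl
    · exact ⟨m', Conn.refl h.right_mem, h2⟩
    · exact ⟨_, two _ _ _ h.right_mem g5 (by rw [mem_hex0]; dsimp only; omega) g6
        (by rw [mem_hex0]; dsimp only; omega) (by rw [adj_iff]; dsimp only; omega)
        (by rw [adj_iff]; dsimp only; omega), rfl⟩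
    · exact ⟨_, two _ _ _ h.right_mem g7 (by rw [mem_hex0]; dsimp only; omega) g8
        (by rw [mem_hex0]; dsimp only; omega) (by rw [adj_iff]; dsimp only; omega)
        (by rw [adj_iff]; dsimp only; omega), rfl⟩
  obtain ⟨k, hk, hk0⟩ := c1
  obtain ⟨k', hk', hk0'⟩ := c2
  have hkR := mem_hex0.1 hk'.right_mem.2
  exact ⟨k, k', (hk.symm.trans h).trans hk', by omega, by omega, by omega, by omega⟩

/-! ### Crossings between sides of the hexagon -/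

/-- From the left side to the upper right side. -/
def C2 (n : ℤ) (S : Set (ℤ × ℤ)) : Prop :=
  ∃ x y, Conn (S ∩ hex 0 0 n) x y ∧ (x.1 = -(4 * n) ∧ y.1 + y.2 = 4 * n)

/-- From the lower left side to the right side. -/
def C3 (n : ℤ) (S : Set (ℤ × ℤ)) : Prop :=
  ∃ x y, Conn (S ∩ hex 0 0 n) x y ∧ (x.1 + x.2 = -(4 * n) ∧ y.1 = 4 * n)

/-- From the lower left side to the upper right side. -/
def C4 (n : ℤ) (S : Set (ℤ × ℤ)) : Prop :=
  ∃ x y, Conn (S ∩ hex 0 0 n) x y ∧ (x.1 + x.2 = -(4 * n) ∧ y.1 + y.2 = 4 * n)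

/-- From the top side to the lower left side. -/
def C5 (n : ℤ) (S : Set (ℤ × ℤ)) : Prop :=
  ∃ x y, Conn (S ∩ hex 0 0 n) x y ∧ (x.2 = 4 * n ∧ y.1 + y.2 = -(4 * n))

theorem LU_cases {n : ℤ} {S : Set (ℤ × ℤ)} (h : LU n S) :
    (CT 0 0 n S ∨ C2 n S) ∨ (C3 n S ∨ C4 n S) := by
  obtain ⟨x, y, h, h1 | h1, h2 | h2⟩ := h
  · exact Or.inl (Or.inl ⟨x, y, h, by omega, by omega⟩)
  · exact Or.inl (Or.inr ⟨x, y, h, h1, h2⟩)
  · exact Or.inr (Or.inl ⟨x, y, h, h1, h2⟩)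
  · exact Or.inr (Or.inr ⟨x, y, h, h1, h2⟩)

/-- Two interlaced crossings meet. -/
theorem C25 {n : ℤ} {S : Set (ℤ × ℤ)} (h2 : C2 n S) (h5 : C5 n S) : C4 n S := by
  obtain ⟨x, y, h, hx, hy⟩ := h2
  obtain ⟨u, v, k, hu, hv⟩ := h5
  have hyR := mem_hex0.1 h.right_mem.2
  have hvR := mem_hex0.1 k.right_mem.2
  set A : Set (ℤ × ℤ) := {z | Conn (S ∩ hex 0 0 n) x z} ∪ {z | z.2 = y.2 ∧ y.1 < z.1 ∧ z.1 ≤ 4 * n}
    with hA
  set B : Set (ℤ × ℤ) := {z | Conn (S ∩ hex 0 0 n) u z} ∪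
    {z | z.1 = v.1 ∧ z.2 < v.2 ∧ -(4 * n) ≤ z.2} with hB
  have hAc : Conn A x y := by
    refine Conn.ind (fun z => Conn A x z) (Conn.refl (Or.inl (Conn.refl h.left_mem))) ?_ h
    intro a b ha hab hb ih
    exact ih.tail hab (Or.inl (ha.tail hab hb))
  have hBc : Conn B u v := by
    refine Conn.ind (fun z => Conn B u z) (Conn.refl (Or.inl (Conn.refl k.left_mem))) ?_ k
    intro a b ha hab hb ih
    exact ih.tail hab (Or.inl (ha.tail hab hb))
  have ext1 : ∀ j : ℕ, y.1 + j ≤ 4 * n → Conn A x (y.1 + j, y.2) := by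
    intro j
    induction j with
    | zero => intro _; simpa using hAc
    | succ j ih =>
      intro hj
      push_cast at hj
      refine (ih (by omega)).tail (by rw [adj_iff]; dsimp only; omega) (Or.inr ?_)
      refine ⟨rfl, ?_, ?_⟩ <;> dsimp only <;> push_cast <;> omega
  have ext2 : ∀ j : ℕ, -(4 * n) ≤ v.2 - j → Conn B u (v.1, v.2 - j) := by
    intro j
    induction j with
    | zero => intro _; simpa using hBc
    | succ j ih =>
      intro hj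
      push_cast at hj
      refine (ih (by omega)).tail (by rw [adj_iff]; dsimp only; push_cast; omega) (Or.inr ?_)
      refine ⟨rfl, ?_, ?_⟩ <;> dsimp only <;> push_cast <;> omega
  have e1 := ext1 (4 * n - y.1).toNat (by omega)
  have e2 := ext2 (v.2 + 4 * n).toNat (by omega)
  have hAR : ∀ z ∈ A, -(4 * n) ≤ z.1 ∧ z.1 ≤ 4 * n ∧ -(4 * n) ≤ z.2 ∧ z.2 ≤ 4 * n := by
    rintro z (hz | ⟨h1, h2, h3⟩)
    · have := mem_hex0.1 hz.right_mem.2
      omega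
    · omega
  have hBR : ∀ z ∈ B, -(4 * n) ≤ z.1 ∧ z.1 ≤ 4 * n ∧ -(4 * n) ≤ z.2 ∧ z.2 ≤ 4 * n := by
    rintro z (hz | ⟨h1, h2, h3⟩)
    · have := mem_hex0.1 hz.right_mem.2
      omega
    · omega
  obtain ⟨z, hzA, hzB⟩ := cross hAR hBR e1 hx (by dsimp only; omega) e2.symm (by dsimp only; omega) hu
  have hz : Conn (S ∩ hex 0 0 n) x z ∧ Conn (S ∩ hex 0 0 n) u z := by
    rcases hzA with hzA | ⟨a1, a2, a3⟩
    · rcases hzB with hzB | ⟨b1, b2, b3⟩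
      · exact ⟨hzA, hzB⟩
      · have := mem_hex0.1 hzA.right_mem.2
        omega
    · rcases hzB with hzB | ⟨b1, b2, b3⟩
      · have := mem_hex0.1 hzB.right_mem.2
        omega
      · omega
  exact ⟨v, y, ((k.symm.trans hz.2).trans hz.1.symm).trans h, hv, hy⟩

theorem C2_refl {n : ℤ} {S : Set (ℤ × ℤ)} : C2 n {z | (-z.1, -z.2) ∈ S} ↔ C3 n S := by
  unfold C2 C3
  rw [ex_iff (T := fun z => (-z.1, -z.2)) (T' := fun z => (-z.1, -z.2))
    (R := hex 0 0 n) (R' := hex 0 0 n)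
    (P := fun x y => x.1 = -(4 * n) ∧ y.1 + y.2 = 4 * n)
    (P' := fun x y => x.1 = 4 * n ∧ y.1 + y.2 = -(4 * n))]
  · constructor
    · rintro ⟨x, y, h, h1, h2⟩
      exact ⟨y, x, h.symm, h2, h1⟩
    · rintro ⟨x, y, h, h1, h2⟩
      exact ⟨y, x, h.symm, h2, h1⟩
  · rintro ⟨x, y⟩; simp
  · intro u v h; rw [adj_iff] at *; dsimp only; omega
  · intro u v h; rw [adj_iff] at *; dsimp only; omega
  · rintro ⟨x, y⟩; simp only [mem_hex0]; omega
  · rintro ⟨x, y⟩ ⟨x', y'⟩; dsimp only; omega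

theorem C2_refl' {n : ℤ} {S : Set (ℤ × ℤ)} : C2 n {z | (-z.2, -z.1) ∈ S} ↔ C5 n S := by
  unfold C2 C5
  refine ex_iff (T := fun z => (-z.2, -z.1)) (T' := fun z => (-z.2, -z.1)) ?_ ?_ ?_ ?_ ?_ S
  · rintro ⟨x, y⟩; simp
  · intro u v h; rw [adj_iff] at *; dsimp only; omega
  · intro u v h; rw [adj_iff] at *; dsimp only; omega
  · rintro ⟨x, y⟩; simp only [mem_hex0]; omega
  · rintro ⟨x, y⟩ ⟨x', y'⟩; dsimp only; omega

theorem C4_refl {n : ℤ} {S : Set (ℤ × ℤ)} : C4 n {z | (z.1 + z.2, -z.2) ∈ S} ↔ CT 0 0 n S := by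
  unfold C4 CT
  refine ex_iff (T := fun z => (z.1 + z.2, -z.2)) (T' := fun z => (z.1 + z.2, -z.2)) ?_ adj_refly
    adj_refly ?_ ?_ S
  · rintro ⟨x, y⟩; ext <;> dsimp only <;> ring
  · rintro ⟨x, y⟩; simp only [mem_hex0]; omega
  · rintro ⟨x, y⟩ ⟨x', y'⟩; dsimp only; omega

end Vale.Agent.P153.F.RSW
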