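import Vale.Agent.P153.A.Stmt
import Vale.Agent.P153.F.RSW.Defs

/-!
# P153, block F-B: the closed edges

`Wp s` = the midpoints of the edges both ends of which have spin `+` in `s`.
-/

namespace Vale.Agent.P153.F.RSW

open MeasureTheory Vale.Agent.P153.A

/-- First end of the edge with midpoint `z`. -/
def v1 (z : ℤ × ℤ) : ℤ × ℤ := (z.1 / 2, (z.2 + 1) / 2)

/-- Second end of the edge with midpoint `z`. -/
def v2 (z : ℤ × ℤ) : ℤ × ℤ := ((z.1 + 1) / 2, z.2 / 2)

/-- The midpoints of the edges both ends of which have spin `+`. -/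
def Wp (s : Sp) : Set (ℤ × ℤ) := {z | z ∈ Mid ∧ s (v1 z) = true ∧ s (v2 z) = true}

theorem Wp_sub (s : Sp) : Wp s ⊆ Mid := fun _ h => h.1

theorem Wp_mono {s t : Sp} (h : s ≤ t) : Wp s ⊆ Wp t := fun z hz =>
  ⟨hz.1, Bool.eq_true_of_true_le (by rw [← hz.2.1]; exact h _),
    Bool.eq_true_of_true_le (by rw [← hz.2.2]; exact h _)⟩

/-- The probability of the event `E` for the closed edges of `τ`. -/
noncomputable def pW (Q : Measure Om) (E : Set (ℤ × ℤ) → Prop) : ℝ := Q.real {ω | E (Wp (tau ω))}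

end Vale.Agent.P153.F.RSW
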