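import Vale.Agent.P153.Topo.Hex
import Vale.Agent.P153.F.RSW.Wp

/-!
# P153, block F-B: walls of `τ` are closed for `σ`

`t` and `s` are spins at most one of which changes along every edge. A path of the dual complement
of the `t`-monochromatic edges (it uses vertices and `t`-bichromatic edges) gives a path of
`s`-monochromatic edges along it, inside the same region.
-/

namespace Vale.Agent.P153.F.RSW

open Vale.Agent.P153.Topo Vale.Agent.P153.A

/-- The six directions. -/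
def Dir (e : ℤ × ℤ) : Prop :=
  e = (1, 0) ∨ e = (0, 1) ∨ e = (-1, 1) ∨ e = (-1, 0) ∨ e = (0, -1) ∨ e = (1, -1)

/-- Rotation by 60 degrees. -/
def rt (e : ℤ × ℤ) : ℤ × ℤ := (-e.2, e.1 + e.2)

/-- Rotation by -60 degrees. -/
def rt' (e : ℤ × ℤ) : ℤ × ℤ := (e.1 + e.2, -e.1)

theorem dir_rt {e : ℤ × ℤ} (h : Dir e) : Dir (rt e) := by
  rcases h with rfl | rfl | rfl | rfl | rfl | rfl <;> simp [Dir, rt]

theorem dir_rt' {e : ℤ × ℤ} (h : Dir e) : Dir (rt' e) := by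
  rcases h with rfl | rfl | rfl | rfl | rfl | rfl <;> simp [Dir, rt']

theorem dir_cases {e e' : ℤ × ℤ} (h : Dir e) (h' : Dir e') :
    e' = e ∨ e' = rt e ∨ e' = rt (rt e) ∨ e' = -e ∨ e' = rt' (rt' e) ∨ e' = rt' e := by
  rcases h with rfl | rfl | rfl | rfl | rfl | rfl <;>
    rcases h' with rfl | rfl | rfl | rfl | rfl | rfl <;> simp [rt, rt']

/-- The point of the fine lattice at the vertex `V`, moved by `e`. -/
def pt (V e : ℤ × ℤ) : ℤ × ℤ := (2 * V.1 + e.1, 2 * V.2 + e.2)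

theorem pt_mid {V e : ℤ × ℤ} (h : Dir e) : pt V e ∈ Mid := by
  rcases h with rfl | rfl | rfl | rfl | rfl | rfl <;>
    simp only [pt, Mid, Set.mem_ofPred_eq, Int.odd_iff] <;> omega

theorem pt_ends {V e : ℤ × ℤ} (h : Dir e) :
    (v1 (pt V e) = V ∧ v2 (pt V e) = V + e) ∨ (v1 (pt V e) = V + e ∧ v2 (pt V e) = V) := by
  obtain ⟨a, b⟩ := V
  rcases h with rfl | rfl | rfl | rfl | rfl | rfl <;>
    simp only [pt, v1, v2, Prod.mk_add_mk, Prod.mk.injEq] <;> omega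

/-- The midpoints of the monochromatic edges. -/
def Wm (u : Sp) : Set (ℤ × ℤ) := {z | z ∈ Mid ∧ u (v1 z) = u (v2 z)}

theorem pt_Wm {u : Sp} {V e : ℤ × ℤ} (h : Dir e) : pt V e ∈ Wm u ↔ u V = u (V + e) := by
  rcases pt_ends (V := V) h with ⟨h1, h2⟩ | ⟨h1, h2⟩
  · simp only [Wm, Set.mem_ofPred_eq, h1, h2, pt_mid h, true_and]
  · simp only [Wm, Set.mem_ofPred_eq, h1, h2, pt_mid h, true_and]
    exact eq_comm

theorem pt_adj {V e : ℤ × ℤ} (h : Dir e) : Adj (pt V e) (pt V (rt e)) := by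
  rw [adj_iff]
  rcases h with rfl | rfl | rfl | rfl | rfl | rfl <;> dsimp only [pt, rt] <;> omega

theorem rt_rt' (e : ℤ × ℤ) : rt (rt' e) = e := by
  ext <;> simp [rt, rt']

theorem pt_adj' {V e : ℤ × ℤ} (h : Dir e) : Adj (pt V e) (pt V (rt' e)) := by
  have h1 := pt_adj (V := V) (dir_rt' h)
  rw [rt_rt'] at h1
  exact adj_symm h1

theorem dir_adj {V e : ℤ × ℤ} (h : Dir e) : Adj V (V + e) := by
  rw [adj_iff]
  simp only [Prod.fst_add, Prod.snd_add]
  rcases h with rfl | rfl | rfl | rfl | rfl | rfl <;> dsimp only <;> omega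

theorem dir_adj2 {V e : ℤ × ℤ} (h : Dir e) : Adj (V + e) (V + rt e) := by
  rw [adj_iff]
  simp only [Prod.fst_add, Prod.snd_add]
  rcases h with rfl | rfl | rfl | rfl | rfl | rfl <;> dsimp only [rt] <;> omega

/-- Regions bounded by lattice lines. -/
structure RG (R : Set (ℤ × ℤ)) : Prop where
  c2 : ∀ V e : ℤ × ℤ, Dir e → pt V 0 ∈ R → pt V e ∈ R → pt V (rt (rt e)) ∈ R → pt V (rt e) ∈ R
  c3 : ∀ V e : ℤ × ℤ, Dir e → pt V 0 ∈ R → pt V e ∈ R → pt V (-e) ∈ R →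
    (pt V (rt e) ∈ R ∧ pt V (rt (rt e)) ∈ R) ∨ (pt V (rt' e) ∈ R ∧ pt V (rt' (rt' e)) ∈ R)

theorem rg_pr {a b c d : ℤ} (hab : a < b) (hcd : c < d) : RG (pr a b c d) := by
  constructor
  · rintro ⟨v, w⟩ e he h0 h1 h2
    rcases he with rfl | rfl | rfl | rfl | rfl | rfl <;>
      simp only [pr, pt, rt, Set.mem_ofPred_eq, Prod.fst_zero, Prod.snd_zero] at h0 h1 h2 ⊢ <;>
      omega
  · rintro ⟨v, w⟩ e he h0 h1 h2
    rcases he with rfl | rfl | rfl | rfl | rfl | rfl <;>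
      simp only [pr, pt, rt, rt', Set.mem_ofPred_eq, Prod.fst_zero, Prod.snd_zero, Prod.fst_neg,
        Prod.snd_neg] at h0 h1 h2 ⊢ <;>
      omega

theorem rg_hex {n : ℤ} (hn : 0 < n) : RG (hex 0 0 n) := by
  constructor
  · rintro ⟨v, w⟩ e he h0 h1 h2
    rcases he with rfl | rfl | rfl | rfl | rfl | rfl <;>
      simp only [hex, pt, rt, Set.mem_ofPred_eq, Prod.fst_zero, Prod.snd_zero] at h0 h1 h2 ⊢ <;>
      omega
  · rintro ⟨v, w⟩ e he h0 h1 h2
    rcases he with rfl | rfl | rfl | rfl | rfl | rfl <;>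
      simp only [hex, pt, rt, rt', Set.mem_ofPred_eq, Prod.fst_zero, Prod.snd_zero, Prod.fst_neg,
        Prod.snd_neg] at h0 h1 h2 ⊢ <;>
      omega

/-- At most one of the spins changes along every edge. -/
def Cmp (t s : Sp) : Prop := ∀ x y, Adj x y → t x = t y ∨ s x = s y

theorem star0 {t s : Sp} (hc : Cmp t s) {V e : ℤ × ℤ} (he : Dir e) (h : t V ≠ t (V + e)) :
    s V = s (V + e) := by
  rcases hc _ _ (dir_adj (V := V) he) with h1 | h1
  · exact absurd h1 h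
  · exact h1

theorem star1 {t s : Sp} (hc : Cmp t s) {V e : ℤ × ℤ} (he : Dir e) (h : t V ≠ t (V + e)) :
    s V = s (V + rt e) := by
  by_cases h1 : t V = t (V + rt e)
  · have h2 : t (V + e) ≠ t (V + rt e) := fun h3 => h (h1.trans h3.symm)
    rcases hc _ _ (dir_adj2 (V := V) he) with h3 | h3
    · exact absurd h3 h2
    · exact (star0 hc he h).trans h3
  · exact star0 hc (dir_rt he) h1

theorem rt'_rt (e : ℤ × ℤ) : rt' (rt e) = e := by
  ext <;> simp [rt, rt']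

theorem star2 {t s : Sp} (hc : Cmp t s) {V e : ℤ × ℤ} (he : Dir e) (h : t V ≠ t (V + e)) :
    s V = s (V + rt' e) := by
  by_cases h1 : t V = t (V + rt' e)
  · have h2 : t (V + e) ≠ t (V + rt' e) := fun h3 => h (h1.trans h3.symm)
    have h4 := dir_adj2 (V := V) (dir_rt' he)
    rw [rt_rt'] at h4
    rcases hc _ _ (adj_symm h4) with h3 | h3
    · exact absurd h3 h2
    · exact (star0 hc he h).trans h3
  · exact star0 hc (dir_rt' he) h1

/-- The star of a vertex: two `t`-bichromatic edges are joined by `s`-monochromatic edges. -/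
theorem star {t s : Sp} (hc : Cmp t s) {R : Set (ℤ × ℤ)} (hR : RG R) {V e e' : ℤ × ℤ}
    (he : Dir e) (he' : Dir e') (h0 : pt V 0 ∈ R) (h1 : pt V e ∈ R) (h2 : pt V e' ∈ R)
    (ht : t V ≠ t (V + e)) (ht' : t V ≠ t (V + e')) : Conn (Wm s ∩ R) (pt V e) (pt V e') := by
  have m1 : pt V e ∈ Wm s ∩ R := ⟨(pt_Wm he).2 (star0 hc he ht), h1⟩
  have m2 : pt V e' ∈ Wm s ∩ R := ⟨(pt_Wm he').2 (star0 hc he' ht'), h2⟩
  rcases dir_cases he he' with rfl | rfl | rfl | rfl | rfl | rfl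
  · exact Conn.refl m1
  · exact Conn.of_adj m1 m2 (pt_adj he)
  · have m3 : pt V (rt e) ∈ Wm s ∩ R :=
      ⟨(pt_Wm (dir_rt he)).2 (star1 hc he ht), hR.c2 V e he h0 h1 h2⟩
    exact (Conn.of_adj m1 m3 (pt_adj he)).tail (pt_adj (dir_rt he)) m2
  · rcases hR.c3 V e he h0 h1 h2 with ⟨h3, h4⟩ | ⟨h3, h4⟩
    · have m3 : pt V (rt e) ∈ Wm s ∩ R := ⟨(pt_Wm (dir_rt he)).2 (star1 hc he ht), h3⟩
      have e1 : rt (rt e) = rt' (-e) := by ext <;> simp only [rt, rt', Prod.fst_neg, Prod.snd_neg] <;> ring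
      have m4 : pt V (rt (rt e)) ∈ Wm s ∩ R := by
        refine ⟨(pt_Wm (dir_rt (dir_rt he))).2 ?_, h4⟩
        rw [e1]
        exact star2 hc he' ht'
      refine ((Conn.of_adj m1 m3 (pt_adj he)).tail (pt_adj (dir_rt he)) m4).tail ?_ m2
      have e2 : -e = rt (rt (rt e)) := by ext <;> simp [rt]
      rw [e2]
      exact pt_adj (dir_rt (dir_rt he))
    · have m3 : pt V (rt' e) ∈ Wm s ∩ R := ⟨(pt_Wm (dir_rt' he)).2 (star2 hc he ht), h3⟩
      have e1 : rt' (rt' e) = rt (-e) := by ext <;> simp only [rt, rt', Prod.fst_neg, Prod.snd_neg] <;> ring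
      have m4 : pt V (rt' (rt' e)) ∈ Wm s ∩ R := by
        refine ⟨(pt_Wm (dir_rt' (dir_rt' he))).2 ?_, h4⟩
        rw [e1]
        exact star1 hc he' ht'
      refine ((Conn.of_adj m1 m3 (pt_adj' he)).tail (pt_adj' (dir_rt' he)) m4).tail ?_ m2
      have e2 : -e = rt' (rt' (rt' e)) := by ext <;> simp [rt']
      rw [e2]
      exact pt_adj' (dir_rt' (dir_rt' he))
  · have h3 : pt V (rt (rt (rt' (rt' e)))) ∈ R := by rw [rt_rt', rt_rt']; exact h1
    have h4 := hR.c2 V _ he' h0 h2 h3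
    rw [rt_rt'] at h4
    have m3 : pt V (rt' e) ∈ Wm s ∩ R := ⟨(pt_Wm (dir_rt' he)).2 (star2 hc he ht), h4⟩
    exact (Conn.of_adj m1 m3 (pt_adj' he)).tail (pt_adj' (dir_rt' he)) m2
  · exact Conn.of_adj m1 m2 (pt_adj' he)

/-- A `t`-bichromatic edge at, or equal to, the point `z`. -/
def Near (t : Sp) (R : Set (ℤ × ℤ)) (z m : ℤ × ℤ) : Prop :=
  m ∈ Mid ∧ m ∈ R ∧ t (v1 m) ≠ t (v2 m) ∧ (m = z ∨ (z ∉ Mid ∧ Adj z m))

/-- A point which is not a midpoint is a vertex. -/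
theorem vertex_of {z : ℤ × ℤ} (h : z ∉ Mid) : ∃ V, z = pt V 0 := by
  refine ⟨(z.1 / 2, z.2 / 2), ?_⟩
  simp only [Mid, Set.mem_ofPred_eq, Int.odd_iff, not_or] at h
  ext <;> simp only [pt, Prod.fst_zero, Prod.snd_zero] <;> omega

theorem adj_vertex {V m : ℤ × ℤ} (h : Adj (pt V 0) m) : ∃ e, Dir e ∧ m = pt V e := by
  rw [adj_iff] at h
  simp only [pt, Prod.fst_zero, Prod.snd_zero, add_zero] at h
  refine ⟨(m.1 - 2 * V.1, m.2 - 2 * V.2), ?_, ?_⟩
  · simp only [Dir, Prod.mk.injEq]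
    omega
  · ext <;> simp [pt]

theorem near_vertex {t : Sp} {R : Set (ℤ × ℤ)} {V m : ℤ × ℤ} (h : Near t R (pt V 0) m) :
    ∃ e, Dir e ∧ m = pt V e ∧ t V ≠ t (V + e) ∧ m ∈ R := by
  obtain ⟨h1, h2, h3, h4⟩ := h
  rcases h4 with rfl | ⟨_, h4⟩
  · exfalso
    simp only [Mid, Set.mem_ofPred_eq, pt, Prod.fst_zero, Prod.snd_zero, Int.odd_iff] at h1
    omega
  · obtain ⟨e, he, rfl⟩ := adj_vertex h4
    refine ⟨e, he, rfl, ?_, h2⟩
    rcases pt_ends (V := V) he with ⟨g1, g2⟩ | ⟨g1, g2⟩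
    · rwa [g1, g2] at h3
    · rw [g1, g2] at h3
      exact h3.symm

theorem vertex_not_mid (V : ℤ × ℤ) : pt V 0 ∉ Mid := by
  simp only [Mid, Set.mem_ofPred_eq, pt, Prod.fst_zero, Prod.snd_zero, Int.odd_iff]
  omega

theorem mid_adj_vertex {z m : ℤ × ℤ} (hz : z ∉ Mid) (h : Adj z m) : m ∈ Mid := by
  obtain ⟨V, rfl⟩ := vertex_of hz
  obtain ⟨e, he, rfl⟩ := adj_vertex h
  exact pt_mid he

theorem bi_Wm {t s : Sp} (hc : Cmp t s) {z : ℤ × ℤ} (hz : z ∈ Mid) (h : t (v1 z) ≠ t (v2 z)) :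
    z ∈ Wm s := by
  have hadj : Adj (v1 z) (v2 z) := by
    rw [adj_iff]
    simp only [Mid, Set.mem_ofPred_eq, Int.odd_iff] at hz
    simp only [v1, v2]
    omega
  rcases hc _ _ hadj with h1 | h1
  · exact absurd h1 h
  · exact ⟨hz, h1⟩

/-- **Walls.** -/
theorem wall {t s : Sp} (hc : Cmp t s) {R : Set (ℤ × ℤ)} (hR : RG R) {x y : ℤ × ℤ}
    (h : Conn ((Wm t)ᶜ ∩ R) x y) (hxy : x ≠ y) :
    ∃ m m', Near t R x m ∧ Near t R y m' ∧ Conn (Wm s ∩ R) m m' := by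
  have key : y = x ∨ ∃ m, Near t R x m ∧ (∃ m', Near t R y m') ∧
      ∀ m', Near t R y m' → Conn (Wm s ∩ R) m m' := by
    refine Conn.ind (fun z => z = x ∨ ∃ m, Near t R x m ∧ (∃ m', Near t R z m') ∧
      ∀ m', Near t R z m' → Conn (Wm s ∩ R) m m') (Or.inl rfl) (fun u v hu huv hv ih => ?_) h
    have bi : ∀ z ∈ (Wm t)ᶜ ∩ R, z ∈ Mid → t (v1 z) ≠ t (v2 z) := fun z hz hz' h' =>
      hz.1 ⟨hz', h'⟩
    have nself : ∀ z ∈ (Wm t)ᶜ ∩ R, z ∈ Mid → Near t R z z := fun z hz hz' =>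
      ⟨hz', hz.2, bi z hz hz', Or.inl rfl⟩
    have eqn : ∀ z m : ℤ × ℤ, z ∈ Mid → Near t R z m → m = z := by
      rintro z m hz ⟨_, _, _, h4⟩
      rcases h4 with h4 | ⟨h4, _⟩
      · exact h4
      · exact absurd hz h4
    have huR := hu.right_mem
    have hst : ∀ z ∈ (Wm t)ᶜ ∩ R, z ∉ Mid → ∀ m m', Near t R z m → Near t R z m' →
        Conn (Wm s ∩ R) m m' := by
      intro z hz hz' m m' h1 h2
      obtain ⟨V, rfl⟩ := vertex_of hz'
      obtain ⟨e, he, rfl, ht, hR1⟩ := near_vertex h1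
      obtain ⟨e', he', rfl, ht', hR2⟩ := near_vertex h2
      exact star hc hR he he' hz.2 hR1 hR2 ht ht'
    by_cases hum : u ∈ Mid
    · -- `u` is a bichromatic edge
      have hnu : ∀ m, Near t R x m → (∀ m', Near t R u m' → Conn (Wm s ∩ R) m m') →
          ∃ m, Near t R x m ∧ (∃ m', Near t R v m') ∧
            ∀ m', Near t R v m' → Conn (Wm s ∩ R) m m' := by
        intro m hm hall
        have hmu := hall u (nself u huR hum)
        refine ⟨m, hm, ?_, fun m' hm' => ?_⟩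
        · by_cases hvm : v ∈ Mid
          · exact ⟨v, nself v hv hvm⟩
          · exact ⟨u, hum, huR.2, bi u huR hum, Or.inr ⟨hvm, adj_symm huv⟩⟩
        · by_cases hvm : v ∈ Mid
          · rw [eqn v m' hvm hm']
            exact hmu.tail huv ⟨bi_Wm hc hvm (bi v hv hvm), hv.2⟩
          · exact hmu.trans (hst v hv hvm u m'
              ⟨hum, huR.2, bi u huR hum, Or.inr ⟨hvm, adj_symm huv⟩⟩ hm')
      right
      rcases ih with rfl | ⟨m, hm, _, hall⟩
      · refine hnu u (nself u huR hum) fun m' hm' => ?_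
        rw [eqn u m' hum hm']
        exact Conn.refl ⟨bi_Wm hc hum (bi u huR hum), huR.2⟩
      · exact hnu m hm hall
    · -- `u` is a vertex
      have hvm : v ∈ Mid := mid_adj_vertex hum huv
      have hnv : Near t R u v := ⟨hvm, hv.2, bi v hv hvm, Or.inr ⟨hum, huv⟩⟩
      right
      rcases ih with rfl | ⟨m, hm, _, hall⟩
      · refine ⟨v, hnv, ⟨v, nself v hv hvm⟩, fun m' hm' => ?_⟩
        rw [eqn v m' hvm hm']
        exact Conn.refl ⟨bi_Wm hc hvm (bi v hv hvm), hv.2⟩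
      · refine ⟨m, hm, ⟨v, nself v hv hvm⟩, fun m' hm' => ?_⟩
        rw [eqn v m' hvm hm']
        exact hall v hnv
  rcases key with h1 | ⟨m, hm, ⟨m', hm'⟩, hall⟩
  · exact absurd h1.symm hxy
  · exact ⟨m, m', hm, hm', hall m' hm'⟩

/-- Adjacent midpoints share a vertex. -/
theorem share {z w : ℤ × ℤ} (hz : z ∈ Mid) (hw : w ∈ Mid) (h : Adj z w) :
    v1 z = v1 w ∨ v1 z = v2 w ∨ v2 z = v1 w ∨ v2 z = v2 w := by
  rw [adj_iff] at h
  simp only [Mid, Set.mem_ofPred_eq, Int.odd_iff] at hz hw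
  simp only [v1, v2, Prod.mk.injEq]
  omega

/-- A path of monochromatic edges has a constant sign. -/
theorem sgn {u : Sp} {R : Set (ℤ × ℤ)} {m m' : ℤ × ℤ} (h : Conn (Wm u ∩ R) m m') :
    Conn (Wp u ∩ R) m m' ∨ Conn (Wp (fun x => !u x) ∩ R) m m' := by
  have key : ∀ u' : Sp, (Wm u ⊆ Wm u') → u' (v1 m) = true → Conn (Wp u' ∩ R) m m' := by
    intro u' hu' h0
    refine Conn.ind (fun z => Conn (Wp u' ∩ R) m z) ?_ (fun a b ha hab hb ih => ?_) h
    · have h1 := hu' h.left_mem.1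
      exact Conn.refl ⟨⟨h1.1, h0, by rw [← h1.2]; exact h0⟩, h.left_mem.2⟩
    · have h1 := ih.right_mem.1
      have h2 := hu' hb.1
      have h3 := h2.2
      have hb1 : u' (v1 b) = true ∧ u' (v2 b) = true := by
        rcases share h1.1 h2.1 hab with h4 | h4 | h4 | h4
        · have := h1.2.1
          rw [h4] at this
          exact ⟨this, by rw [← h3]; exact this⟩
        · have := h1.2.1
          rw [h4] at this
          exact ⟨by rw [h3]; exact this, this⟩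
        · have := h1.2.2
          rw [h4] at this
          exact ⟨this, by rw [← h3]; exact this⟩
        · have := h1.2.2
          rw [h4] at this
          exact ⟨by rw [h3]; exact this, this⟩
      exact ih.tail hab ⟨⟨h2.1, hb1.1, hb1.2⟩, hb.2⟩
  cases h0 : u (v1 m)
  · right
    refine key (fun x => !u x) (fun z hz => ⟨hz.1, ?_⟩) ?_
    · have := hz.2
      simp only
      rw [this]
    · simp [h0]
  · left
    exact key u (fun z hz => hz) h0

end Vale.Agent.P153.F.RSW
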