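import Vale.Agent.P153.F.RSW.Inst
import Vale.Agent.P153.F.RSW.ArmGeoT
import Vale.Agent.P153.F.RSW.AcDef
import Vale.Agent.P153.F.RSW.Wall
import Vale.Agent.P153.A.Rc

/-!
# P153, block F-B: the flip of `σ` in a region with closed boundary

On the arm event one cluster of closed edges separates the inner box from the outer box in the
annuli around `(0, 0)` and `(3R, 0)`. The set `Uf C p q t` consists of the vertices of the outer box
which are not joined to its complement by edges outside the cluster `C`.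
-/

namespace Vale.Agent.P153.F.RSW

open MeasureTheory Filter Topology Relation
open Vale.Agent.P153 Vale.Agent.P153.Topo Vale.Agent.P153.A

/-- The big parallelogram. -/
def bigB (R : ℤ) : Set (ℤ × ℤ) := pr (-(4 * R)) (6 * R) (-(8 * R)) (4 * R)

/-- The cluster of `o` in `T`. -/
def clu (T : Set (ℤ × ℤ)) (o : ℤ × ℤ) : Set (ℤ × ℤ) := {w | Conn T o w}

theorem clu_sub {T : Set (ℤ × ℤ)} {o : ℤ × ℤ} : clu T o ⊆ T := fun _ h => Conn.right_mem h

/-- The vertices `V` and `W` are joined by an edge with midpoint outside `C`. -/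
def DS (C : Set (ℤ × ℤ)) (V W : ℤ × ℤ) : Prop := Adj V W ∧ V + W ∉ C

/-- Strictly inside the box with centre `(p, q)` and half side `2t`. -/
def inB (p q t : ℤ) (W : ℤ × ℤ) : Prop :=
  p - 2 * t < W.1 ∧ W.1 < p + 2 * t ∧ q - 2 * t < W.2 ∧ W.2 < q + 2 * t

/-- Paths which avoid `C` and start in the box with centre `(p, q)` and half side `t` stay
strictly inside the box with half side `2t`. -/
def Cut (C : Set (ℤ × ℤ)) (p q t : ℤ) : Prop :=
  ∀ V W : ℤ × ℤ, |V.1 - p| ≤ t → |V.2 - q| ≤ t → ReflTransGen (DS C) V W → inB p q t W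

theorem ds_conn {C : Set (ℤ × ℤ)} {V W : ℤ × ℤ} (h : ReflTransGen (DS C) V W) :
    Conn {z | z ∉ Mid ∨ z ∉ C} (2 * V.1, 2 * V.2) (2 * W.1, 2 * W.2) := by
  have hm : ∀ U : ℤ × ℤ, ((2 * U.1, 2 * U.2) : ℤ × ℤ) ∉ Mid := by
    intro U
    simp only [Mid, Set.mem_ofPred_eq, Int.odd_iff]
    omega
  induction h with
  | refl => exact Conn.refl (Or.inl (hm V))
  | @tail b c _ hbc ih =>
    obtain ⟨h1, h2⟩ := hbc
    rw [Topo.adj_iff] at h1
    refine (ih.tail (z := b + c) ?_ (Or.inr h2)).tail ?_ (Or.inl (hm c))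
    · rw [Topo.adj_iff]
      simp only [Prod.fst_add, Prod.snd_add]
      omega
    · rw [Topo.adj_iff]
      simp only [Prod.fst_add, Prod.snd_add]
      omega

theorem cut_of_sep {C : Set (ℤ × ℤ)} {p q t : ℤ} (h : Sep C p q t) (hC : C ⊆ Mid) :
    Cut C p q t := by
  intro V W h1 h2 h3
  by_contra hg
  rw [abs_le] at h1 h2
  obtain ⟨z, hz1, hz2⟩ := h _ _ _ (ds_conn h3)
    (by simp only [pr, Set.mem_ofPred_eq]; omega) (by unfold inB at hg; simp only; omega)
  rcases hz1 with h4 | h4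
  · exact h4 (hC hz2)
  · exact h4 hz2

/-- The arm event gives one cluster which cuts both annuli. -/
theorem arm_cut {s R : ℤ} (hs : 0 < s) (hsR : s ≤ 2 * R) {S : Set (ℤ × ℤ)} (hS : S ⊆ Mid)
    (h : Arm s R S) :
    ∃ o ∈ S ∩ bigB R, Cut (clu (S ∩ bigB R) o) 0 0 s ∧
      Cut (clu (S ∩ bigB R) o) (3 * R) 0 R := by
  obtain ⟨o, ho, h1, -, h3⟩ := h.joined hs hsR
  have hc : clu (S ∩ bigB R) o ⊆ Mid := fun z hz => hS (clu_sub hz).1
  exact ⟨o, ho, cut_of_sep h1 hc, cut_of_sep h3 hc⟩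

/-- The vertices which are not joined to the complement of the box with centre `(p, q)` and half
side `2t` by a path avoiding `C`. -/
def UU (C : Set (ℤ × ℤ)) (p q t : ℤ) : Set (ℤ × ℤ) :=
  {V | ∀ W, ReflTransGen (DS C) V W → inB p q t W}

theorem UU_fin (C : Set (ℤ × ℤ)) (p q t : ℤ) : (UU C p q t).Finite := by
  refine Set.Finite.subset ((Set.finite_Icc (p - 2 * t) (p + 2 * t)).prod
    (Set.finite_Icc (q - 2 * t) (q + 2 * t))) ?_
  intro V hV
  have := hV V ReflTransGen.refl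
  unfold inB at this
  rw [Set.mem_prod, Set.mem_Icc, Set.mem_Icc]
  omega

/-- `UU` as a finite set. -/
noncomputable def Uf (C : Set (ℤ × ℤ)) (p q t : ℤ) : Finset (ℤ × ℤ) := (UU_fin C p q t).toFinset

theorem mem_Uf {C : Set (ℤ × ℤ)} {p q t : ℤ} {V : ℤ × ℤ} :
    V ∈ Uf C p q t ↔ ∀ W, ReflTransGen (DS C) V W → inB p q t W := by
  unfold Uf; rw [Set.Finite.mem_toFinset]; rfl

/-- The boundary of `Uf` belongs to `C`. -/
theorem Uf_bd {C : Set (ℤ × ℤ)} {p q t : ℤ} {V W : ℤ × ℤ} (h : Adj V W) (hV : V ∈ Uf C p q t)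
    (hW : W ∉ Uf C p q t) : V + W ∈ C := by
  by_contra hc
  exact hW (mem_Uf.2 fun X hX => mem_Uf.1 hV X (ReflTransGen.head ⟨h, hc⟩ hX))

theorem Uf_in {C : Set (ℤ × ℤ)} {p q t : ℤ} (hcut : Cut C p q t) {V : ℤ × ℤ} (h1 : |V.1 - p| ≤ t)
    (h2 : |V.2 - q| ≤ t) : V ∈ Uf C p q t :=
  mem_Uf.2 fun W hW => hcut V W h1 h2 hW

theorem Uf_inB {C : Set (ℤ × ℤ)} {p q t : ℤ} {V : ℤ × ℤ} (h : V ∈ Uf C p q t) : inB p q t V :=
  mem_Uf.1 h V ReflTransGen.refl

/-- The ends of the edge with midpoint `V + W`. -/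
theorem ends {V W : ℤ × ℤ} (h : Adj V W) :
    V + W ∈ Mid ∧ ((v1 (V + W) = V ∧ v2 (V + W) = W) ∨ (v1 (V + W) = W ∧ v2 (V + W) = V)) := by
  rw [Topo.adj_iff] at h
  obtain ⟨a, b⟩ := V
  obtain ⟨c, d⟩ := W
  simp only [Mid, Set.mem_ofPred_eq, Int.odd_iff, v1, v2, Prod.mk_add_mk, Prod.mk.injEq] at h ⊢
  omega

theorem v_adj {z : ℤ × ℤ} (hz : z ∈ Mid) : GFF.Adj (v1 z) (v2 z) := by
  simp only [Mid, Set.mem_ofPred_eq, Int.odd_iff] at hz
  rw [adj_iff]
  simp only [v1, v2]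
  omega

theorem gff_adj {x y : ℤ × ℤ} : GFF.Adj x y ↔ Adj x y := Iff.rfl

/-! ### The level of a cluster -/

/-- The spin `σ` as a number. -/
def s1 (b : Bool) : ℤ := if b then 1 else 0

/-- The level of a vertex with `τ = +`. -/
noncomputable def lev (ω : Om) (v : Pt) : ℤ := rc ω v - s1 (ω v).2

theorem inc_tt (a b : Bool) : inc (true, a) (true, b) = s1 b - s1 a := by
  revert a b; decide

theorem lev_step {ω : Om} (hω : Comp ω) {x y : Pt} (h : GFF.Adj x y) (hx : (ω x).1 = true)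
    (hy : (ω y).1 = true) : lev ω x = lev ω y := by
  have h1 := s_rc.1 ω hω x y h
  have h2 : ω x = (true, (ω x).2) := by rw [← hx]
  have h3 : ω y = (true, (ω y).2) := by rw [← hy]
  have h4 : inc (ω x) (ω y) = s1 (ω y).2 - s1 (ω x).2 := by
    rw [h2, h3, inc_tt]
  unfold lev
  omega

theorem lev_clu {ω : Om} (hω : Comp ω) {T : Set (ℤ × ℤ)} (hT : T ⊆ Wp (tau ω)) {o z : ℤ × ℤ}
    (h : Conn T o z) : lev ω (v1 z) = lev ω (v1 o) ∧ lev ω (v2 z) = lev ω (v1 o) := by
  have hm : ∀ z ∈ T, lev ω (v1 z) = lev ω (v2 z) := fun z hz =>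
    lev_step hω (v_adj (hT hz).1) (hT hz).2.1 (hT hz).2.2
  refine Conn.ind (fun z => lev ω (v1 z) = lev ω (v1 o) ∧ lev ω (v2 z) = lev ω (v1 o))
    ⟨rfl, (hm o h.left_mem).symm⟩ (fun a b ha hab hb ih => ?_) h
  have h1 := hm a ha.right_mem
  have h2 := hm b hb
  have h3 : lev ω (v1 b) = lev ω (v1 o) ∨ lev ω (v2 b) = lev ω (v1 o) := by
    rcases share (hT ha.right_mem).1 (hT hb).1 hab with h4 | h4 | h4 | h4
    · left; rw [← h4]; exact ih.1
    · right; rw [← h4]; exact ih.1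
    · left; rw [← h4]; exact ih.2
    · right; rw [← h4]; exact ih.2
  rcases h3 with h3 | h3
  · exact ⟨h3, by rw [← h2]; exact h3⟩
  · exact ⟨by rw [h2]; exact h3, h3⟩

/-- The boundary of the flipped region is closed and has the level of `b`. -/
def BdC (U : Finset Pt) (b : Pt) (ω : Om) : Prop :=
  ∀ x y, GFF.Adj x y → x ∈ U → y ∉ U → (ω x).1 = true ∧ (ω y).1 = true ∧
    lev ω x = lev ω b ∧ lev ω y = lev ω b

theorem bdC_clu {ω : Om} (hω : Comp ω) {T : Set (ℤ × ℤ)} (hT : T ⊆ Wp (tau ω)) (o : ℤ × ℤ)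
    (p q t : ℤ) : BdC (Uf (clu T o) p q t) (v1 o) ω := by
  intro x y hxy hx hy
  have h1 : Conn T o (x + y) := Uf_bd hxy hx hy
  have h2 := hT h1.right_mem
  have h3 := lev_clu hω hT h1
  rcases (ends hxy).2 with ⟨h4, h5⟩ | ⟨h4, h5⟩
  · rw [h4, h5] at h3
    exact ⟨by have := h2.2.1; rwa [h4] at this, by have := h2.2.2; rwa [h5] at this, h3.1, h3.2⟩
  · rw [h4, h5] at h3
    exact ⟨by have := h2.2.2; rwa [h5] at this, by have := h2.2.1; rwa [h4] at this, h3.2, h3.1⟩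

/-- The potential of the flipped configuration. -/
noncomputable def psi (U : Finset Pt) (b : Pt) (ω : Om) (x : Pt) : ℤ :=
  if x ∈ U then 1 - (rc ω x - lev ω b) else rc ω x - lev ω b

theorem s1_not (b : Bool) : s1 (!b) = 1 - s1 b := by revert b; decide

theorem negOn_in {U : Finset Pt} {ω : Om} {x : Pt} (h : x ∈ U) :
    negOn U ω x = ((ω x).1, !(ω x).2) := by unfold negOn; rw [if_pos h]

theorem negOn_out {U : Finset Pt} {ω : Om} {x : Pt} (h : x ∉ U) : negOn U ω x = ω x := by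
  unfold negOn; rw [if_neg h]

theorem rc_negOn {ω : Om} (hω : Comp ω) {U : Finset Pt} {b : Pt} (hb : BdC U b ω) (x : Pt) :
    rc (negOn U ω) x = psi U b ω x - psi U b ω 0 := by
  refine rc_eq_of_pot (fun x y hxy => ?_) x
  have hadj : GFF.Adj x y := rc_adj_step.2 hxy
  have hadj' : GFF.Adj y x := Topo.adj_symm hadj
  have h1 := s_rc.1 ω hω x y hadj
  unfold psi
  by_cases hx : x ∈ U <;> by_cases hy : y ∈ U
  · rw [negOn_in hx, negOn_in hy, rc_inc_neg, if_pos hx, if_pos hy, ← h1]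
    ring
  · obtain ⟨h2, h3, h4, h5⟩ := hb x y hadj hx hy
    rw [negOn_in hx, negOn_out hy, if_pos hx, if_neg hy, h2]
    have h6 : ω y = (true, (ω y).2) := by rw [← h3]
    rw [h6, inc_tt, s1_not]
    unfold lev at h4 h5 ⊢
    omega
  · obtain ⟨h2, h3, h4, h5⟩ := hb y x hadj' hy hx
    rw [negOn_out hx, negOn_in hy, if_neg hx, if_pos hy, h2]
    have h6 : ω x = (true, (ω x).2) := by rw [← h3]
    rw [h6, inc_tt, s1_not]
    unfold lev at h4 h5 ⊢
    omega
  · rw [negOn_out hx, negOn_out hy, if_neg hx, if_neg hy, ← h1]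
    ring

/-- The level of the flipped configuration. -/
theorem lev_negOn {ω : Om} (hω : Comp ω) {U : Finset Pt} {b : Pt} (hb : BdC U b ω) :
    lev (negOn U ω) b = - psi U b ω 0 := by
  have h1 := rc_negOn hω hb b
  unfold lev
  rw [h1]
  by_cases hx : b ∈ U
  · rw [negOn_in hx]
    unfold psi
    rw [if_pos hx, s1_not]
    unfold lev
    ring
  · rw [negOn_out hx]
    unfold psi
    rw [if_neg hx]
    unfold lev
    ring

/-- The level as a real number. -/
noncomputable def lv (b : Pt) (ω : Om) : ℝ := (lev ω b : ℝ) + 1 / 2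

theorem ev_sub {r : (ℤ × ℤ) →₀ ℝ} (hr : (r.sum fun _ a => a) = 1) (φ : ℤ × ℤ → ℤ) (c : ℝ) :
    evT r φ - c = r.sum fun q a => a * ((φ q : ℝ) - c) := by
  have h1 : (r.sum fun q a => a * ((φ q : ℝ) - c)) =
      (r.sum fun q a => a * (φ q : ℝ)) - (r.sum fun _ a => a) * c := by
    unfold Finsupp.sum
    rw [Finset.sum_mul, ← Finset.sum_sub_distrib]
    exact Finset.sum_congr rfl fun q _ => by ring
  rw [h1, hr]
  unfold evT
  ring

theorem ev_flip_in {ω : Om} (hω : Comp ω) {U : Finset Pt} {b : Pt} (hb : BdC U b ω)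
    {r : (ℤ × ℤ) →₀ ℝ} (hr : (r.sum fun _ a => a) = 1) (h : ∀ q ∈ r.support, q ∈ U) :
    evT r (rc (negOn U ω)) - lv b (negOn U ω) = -(evT r (rc ω) - lv b ω) := by
  rw [ev_sub hr, ev_sub hr]
  unfold Finsupp.sum
  rw [← Finset.sum_neg_distrib]
  refine Finset.sum_congr rfl fun q hq => ?_
  have h1 : ((rc (negOn U ω) q : ℤ) : ℝ) - lv b (negOn U ω) = 1 / 2 - ((rc ω q : ℝ) - lev ω b) := by
    unfold lv
    rw [rc_negOn hω hb q, lev_negOn hω hb]
    have h2 : psi U b ω q = 1 - (rc ω q - lev ω b) := by unfold psi; rw [if_pos (h q hq)]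
    rw [h2]
    push_cast
    ring
  beta_reduce
  rw [h1]
  unfold lv
  ring

theorem ev_flip_out {ω : Om} (hω : Comp ω) {U : Finset Pt} {b : Pt} (hb : BdC U b ω)
    {r : (ℤ × ℤ) →₀ ℝ} (hr : (r.sum fun _ a => a) = 1) (h : ∀ q ∈ r.support, q ∉ U) :
    evT r (rc (negOn U ω)) - lv b (negOn U ω) = evT r (rc ω) - lv b ω := by
  rw [ev_sub hr, ev_sub hr]
  unfold Finsupp.sum
  refine Finset.sum_congr rfl fun q hq => ?_
  have h1 : ((rc (negOn U ω) q : ℤ) : ℝ) - lv b (negOn U ω) = (rc ω q : ℝ) - lev ω b - 1 / 2 := by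
    unfold lv
    rw [rc_negOn hω hb q, lev_negOn hω hb]
    have h2 : psi U b ω q = rc ω q - lev ω b := by unfold psi; rw [if_neg (h q hq)]
    rw [h2]
    push_cast
    ring
  beta_reduce
  rw [h1]
  unfold lv
  ring

/-! ### The flip preserves the law -/

theorem meas_negOn (U : Finset Pt) : Measurable (negOn U) := by
  refine measurable_pi_lambda _ fun x => ?_
  by_cases hx : x ∈ U
  · have : (fun ω : Om => negOn U ω x) = (fun p : Bool × Bool => (p.1, !p.2)) ∘
        fun ω : Om => ω x := by funext ω; exact negOn_in hx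
    rw [this]
    exact (Measurable.of_discrete).comp (measurable_pi_apply x)
  · have : (fun ω : Om => negOn U ω x) = fun ω : Om => ω x := by funext ω; exact negOn_out hx
    rw [this]
    exact measurable_pi_apply x

theorem negOn_fst (U : Finset Pt) (ω : Om) (x : Pt) : (negOn U ω x).1 = (ω x).1 := rfl

theorem negOn_cf {D U : Finset Pt} (hUD : U ⊆ D) {ω : Om} (h : ω ∈ Cf D)
    (hb : ∀ x y, GFF.Adj x y → x ∈ U → y ∉ U → (ω x).1 = true ∧ (ω y).1 = true) :
    negOn U ω ∈ Cf D := by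
  obtain ⟨h1, h2, h3⟩ := h
  refine ⟨fun x y hxy => ?_, fun x hx => h2 x hx, fun x hx => ?_⟩
  · by_cases hx : x ∈ U <;> by_cases hy : y ∈ U
    · rw [negOn_in hx, negOn_in hy]
      rcases h1 x y hxy with h | h
      · exact Or.inl h
      · right
        simp only [h]
    · left
      rw [negOn_fst, negOn_fst, (hb x y hxy hx hy).1, (hb x y hxy hx hy).2]
    · left
      rw [negOn_fst, negOn_fst, (hb y x (Topo.adj_symm hxy) hy hx).1,
        (hb y x (Topo.adj_symm hxy) hy hx).2]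
    · rw [negOn_out hx, negOn_out hy]
      exact h1 x y hxy
  · rw [negOn_out fun h => hx (hUD h)]
    exact h3 x hx

/-- **The flip preserves the law**, on events which are determined by `τ` and which make the
boundary closed. -/
theorem flip_law {Q : Measure Om} (hQ : IsQ Q) (U B0 : Finset Pt) {E : Set Om}
    (hEm : MeasurableSet E) (hE : ∀ ω ω' : Om, (∀ x ∈ B0, (ω x).1 = (ω' x).1) → (ω ∈ E ↔ ω' ∈ E))
    (hb : ∀ ω ∈ E, ∀ x y, GFF.Adj x y → x ∈ U → y ∉ U → (ω x).1 = true ∧ (ω y).1 = true) :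
    (Q.restrict E).map (negOn U) = Q.restrict E := by
  classical
  haveI := hQ.prob
  set Φ : Om → Om := fun ω => if ω ∈ E then negOn U ω else ω with hΦ
  have hneg : ∀ ω, negOn U ω ∈ E ↔ ω ∈ E := fun ω => hE _ _ fun x _ => rfl
  have hΦE : ∀ ω, Φ ω ∈ E ↔ ω ∈ E := by
    intro ω
    simp only [hΦ]
    by_cases h : ω ∈ E
    · rw [if_pos h]; exact hneg ω
    · rw [if_neg h]
  have hΦΦ : ∀ ω, Φ (Φ ω) = ω := by
    intro ω
    by_cases h : ω ∈ E
    · have h1 : Φ ω = negOn U ω := if_pos h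
      have h2 : Φ (Φ ω) = negOn U (Φ ω) := if_pos ((hΦE ω).2 h)
      rw [h2, h1, negOn_negOn]
    · have h1 : Φ ω = ω := if_neg h
      rw [h1, h1]
  have hΦm : Measurable Φ := Measurable.ite hEm (meas_negOn U) measurable_id
  have hcf : ∀ D, U ⊆ D → Set.BijOn Φ (Cf D) (Cf D) := by
    intro D hD
    have hmaps : ∀ ω ∈ Cf D, Φ ω ∈ Cf D := by
      intro ω hω
      by_cases h : ω ∈ E
      · have h1 : Φ ω = negOn U ω := if_pos h
        rw [h1]
        exact negOn_cf hD hω (hb ω h)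
      · have h1 : Φ ω = ω := if_neg h
        rwa [h1]
    exact ⟨hmaps, fun ω _ ω' _ h => by rw [← hΦΦ ω, h, hΦΦ], fun ω h => ⟨Φ ω, hmaps ω h, hΦΦ ω⟩⟩
  have hmap : Q.map Φ = Q := by
    haveI : IsProbabilityMeasure (Q.map Φ) := Measure.isProbabilityMeasure_map hΦm.aemeasurable
    refine sym_ext fun B F hF hFm => ?_
    rw [integral_map hΦm.aemeasurable hFm.aestronglyMeasurable]
    have hl : A.Loc (B ∪ B0) (fun ω : Om => F (Φ ω)) := by
      intro ω ω' h
      refine hF _ _ fun x hx => ?_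
      have h1 : ω ∈ E ↔ ω' ∈ E := hE _ _ fun y hy => by rw [h y (Finset.mem_union_right _ hy)]
      have h2 : ω x = ω' x := h x (Finset.mem_union_left _ hx)
      simp only [hΦ]
      by_cases h3 : ω ∈ E
      · rw [if_pos h3, if_pos (h1.1 h3)]
        unfold negOn
        rw [h2]
      · rw [if_neg h3, if_neg fun h4 => h3 (h1.2 h4)]
        exact h2
    refine tendsto_nhds_unique (hQ.lim _ _ hl) ((hQ.lim _ _ hF).congr' ?_)
    filter_upwards [eventually_ge_atTop U] with D hD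
    exact (sym_E2 (hcf D hD) F).symm
  ext S hS
  rw [Measure.map_apply (meas_negOn U) hS, Measure.restrict_apply (meas_negOn U hS),
    Measure.restrict_apply hS]
  have h1 : Q.map Φ (S ∩ E) = Q (S ∩ E) := by rw [hmap]
  rw [Measure.map_apply hΦm (hS.inter hEm)] at h1
  rw [← h1]
  congr 1
  ext ω
  by_cases h : ω ∈ E
  · have h2 : Φ ω = negOn U ω := if_pos h
    simp only [Set.mem_inter_iff, Set.mem_preimage, h2, h, and_true, hneg]
  · have h2 : Φ ω = ω := if_neg h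
    simp only [Set.mem_inter_iff, Set.mem_preimage, h2, h, and_false]

end Vale.Agent.P153.F.RSW
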