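import Vale.Agent.P153.F.RSW.Ev
import Vale.Agent.P153.Topo.Hex
import Vale.Agent.P153.Topo.Circuit

/-!
# P153, block F-B: deterministic geometry of crossings (the structure `Geo`)
-/

namespace Vale.Agent.P153.F.RSW

open Vale.Agent.P153 Vale.Agent.P153.Topo

theorem mem_pr {a b c d : ℤ} {z : ℤ × ℤ} :
    z ∈ pr a b c d ↔ 2 * a ≤ z.1 ∧ z.1 ≤ 2 * b ∧ 2 * c ≤ z.2 ∧ z.2 ≤ 2 * d := Iff.rfl

theorem mem_hex {p q n : ℤ} {z : ℤ × ℤ} : z ∈ hex p q n ↔
    4 * (p - n) ≤ z.2 ∧ z.2 ≤ 4 * (p + n) ∧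
    2 * (q - p - 2 * n) ≤ z.1 ∧ z.1 ≤ 2 * (q - p + 2 * n) ∧
    2 * (q + p - 2 * n) ≤ z.1 + z.2 ∧ z.1 + z.2 ≤ 2 * (q + p + 2 * n) := Iff.rfl

theorem pr_mono {a b c d a' b' c' d' : ℤ} (h1 : a' ≤ a) (h2 : b ≤ b') (h3 : c' ≤ c) (h4 : d ≤ d') :
    pr a b c d ⊆ pr a' b' c' d' := by
  intro z hz
  rw [mem_pr] at hz ⊢
  omega

/-- The path stays in the cluster of its starting point. -/
theorem c_cluster {S : Set (ℤ × ℤ)} {x y : ℤ × ℤ} (h : Conn S x y) :
    Conn {z | Conn S x z} x y :=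
  Conn.ind (fun z => Conn {z | Conn S x z} x z) (Conn.refl (Conn.refl h.1))
    (fun _ _ hu huv hv ih => ih.tail huv (hu.tail huv hv)) h

theorem c_map {S T : Set (ℤ × ℤ)} {f : ℤ × ℤ → ℤ × ℤ} (hf : ∀ u v, Adj u v → Adj (f u) (f v))
    (hST : ∀ z ∈ S, f z ∈ T) {x y : ℤ × ℤ} (h : Conn S x y) : Conn T (f x) (f y) :=
  Conn.ind (fun z => Conn T (f x) (f z)) (Conn.refl (hST x h.1))
    (fun u v _ huv hv ih => ih.tail (hf u v huv) (hST v hv)) h

theorem adj_neg (u v : ℤ × ℤ) (h : Adj u v) : Adj (-u.1, -u.2) (-v.1, -v.2) := by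
  rw [adj_iff] at h ⊢
  simp only
  omega

/-- Two paths of `S ∩ A` and `S ∩ B` which meet, inside a larger set. -/
theorem c_join {S A B C : Set (ℤ × ℤ)} {x y z : ℤ × ℤ} (hA : A ⊆ C) (hB : B ⊆ C)
    (h1 : Conn (S ∩ A) x z) (h2 : Conn (S ∩ B) y z) : Conn (S ∩ C) x y :=
  (h1.mono (Set.inter_subset_inter_right S hA)).trans
    (h2.mono (Set.inter_subset_inter_right S hB)).symm

/-- A crossing from the left to the right and a crossing from the bottom to the top meet. -/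
theorem ccross {S T : Set (ℤ × ℤ)} {a b c d : ℤ} (hS : S ⊆ Rect a b c d) (hT : T ⊆ Rect a b c d)
    {x x' y y' : ℤ × ℤ} (hx : Conn S x x') (hxa : x.1 = a) (hxb : x'.1 = b)
    (hy : Conn T y y') (hyc : y.2 = c) (hyd : y'.2 = d) : ∃ z, Conn S x z ∧ Conn T y z :=
  cross (A := {z | Conn S x z}) (B := {z | Conn T y z}) (fun z hz => hS hz.right_mem)
    (fun z hz => hT hz.right_mem) (c_cluster hx) hxa hxb (c_cluster hy) hyc hyd

/-- **Landing lemma (right).** -/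
theorem landR {S T : Set (ℤ × ℤ)} {a b c d : ℤ} (hS : S ⊆ Rect a b c d) (hT : T ⊆ Rect a b c d)
    {x x' y y' : ℤ × ℤ} (hx : Conn S x x') (hxa : x.1 = a) (hxb : x'.1 = b)
    (hy : Conn T y y') (hyb : y.1 = b) (hyb' : y'.1 = b) (h1 : y.2 ≤ x'.2) (h2 : x'.2 ≤ y'.2) :
    ∃ z, Conn S x z ∧ Conn T y z := by
  have hxr := hS hx.left_mem
  have hxr' := hS hx.right_mem
  have hyr := hT hy.left_mem
  have hyr' := hT hy.right_mem
  rw [mem_rect] at hxr hxr' hyr hyr'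
  set A : Set (ℤ × ℤ) := insert (b + 1, x'.2) {z | Conn S x z} with hA
  set B : Set (ℤ × ℤ) := {z | Conn T y z} ∪
    {z | z.1 = b + 1 ∧ c ≤ z.2 ∧ z.2 ≤ d ∧ (z.2 ≤ y.2 ∨ y'.2 ≤ z.2)} with hB
  have hAc : Conn A x (b + 1, x'.2) := by
    refine ((c_cluster hx).mono (Set.subset_insert _ _)).tail ?_ (Set.mem_insert _ _)
    rw [adj_iff]
    left
    exact ⟨by rw [hxb], rfl⟩
  have hBc : Conn B (b + 1, c) (b + 1, d) := by
    have e1 : Conn B (b + 1, c) (b + 1, y.2) := conn_col (fun j hj1 hj2 => Or.inr ⟨rfl, by omega,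
      by omega, Or.inl (by omega)⟩)
    have e2 : Conn B (b + 1, y.2) y := by
      refine Conn.of_adj (Or.inr ⟨rfl, by omega, by omega, Or.inl le_rfl⟩) (Or.inl (Conn.refl hy.1)) ?_
      rw [adj_iff]
      right; left
      exact ⟨by rw [hyb]; ring, rfl⟩
    have e3 : Conn B y y' := (c_cluster hy).mono Set.subset_union_left
    have e4 : Conn B y' (b + 1, y'.2) := by
      refine Conn.of_adj (Or.inl hy) (Or.inr ⟨rfl, by omega, by omega, Or.inr le_rfl⟩) ?_
      rw [adj_iff]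
      left
      exact ⟨by rw [hyb'], rfl⟩
    have e5 : Conn B (b + 1, y'.2) (b + 1, d) := conn_col (fun j hj1 hj2 => Or.inr ⟨rfl, by omega,
      by omega, Or.inr (by omega)⟩)
    exact (((e1.trans e2).trans e3).trans e4).trans e5
  obtain ⟨z, hzA, hzB⟩ := cross (A := A) (B := B) (a := a) (b := b + 1) (c := c) (d := d)
    (by
      rintro z (rfl | hz)
      · exact ⟨by simp only; omega, by simp only; omega, by simp only; omega, by simp only; omega⟩
      · have := hS hz.right_mem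
        rw [mem_rect] at this
        omega)
    (by
      rintro z (hz | hz)
      · have := hT hz.right_mem
        rw [mem_rect] at this
        omega
      · obtain ⟨h3, h4, h5, _⟩ := hz
        omega)
    hAc hxa rfl hBc rfl rfl
  rcases hzA with rfl | hzA
  · rcases hzB with hzB | hzB
    · have := hT hzB.right_mem
      rw [mem_rect] at this
      simp only at this
      omega
    · obtain ⟨_, _, _, h6 | h6⟩ := hzB
      · have h7 : x' = y := Prod.ext (by rw [hxb, hyb]) (le_antisymm h6 h1)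
        exact ⟨x', hx, by rw [h7]; exact Conn.refl hy.1⟩
      · have h7 : x' = y' := Prod.ext (by rw [hxb, hyb']) (le_antisymm h2 h6)
        exact ⟨x', hx, by rw [h7]; exact hy⟩
  · rcases hzB with hzB | hzB
    · exact ⟨z, hzA, hzB⟩
    · have h3 := hS hzA.right_mem
      rw [mem_rect] at h3
      have := hzB.1
      omega

/-- **Interlacing lemma.** Two paths between the vertical sides of a strip, the second one below
the first one on the left and above it on the right, meet. -/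
theorem interlace {S T : Set (ℤ × ℤ)} {a b c d : ℤ} (hS : S ⊆ Rect a b c d) (hT : T ⊆ Rect a b c d)
    {x x' y y' : ℤ × ℤ} (hx : Conn S x x') (hxa : x.1 = a) (hxb : x'.1 = b)
    (hy : Conn T y y') (hya : y.1 = a) (hyb : y'.1 = b) (h1 : y.2 ≤ x.2) (h2 : x'.2 ≤ y'.2) :
    ∃ z, Conn S x z ∧ Conn T y z := by
  have hxr := hS hx.left_mem
  have hxr' := hS hx.right_mem
  have hyr := hT hy.left_mem
  have hyr' := hT hy.right_mem
  rw [mem_rect] at hxr hxr' hyr hyr'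
  set A : Set (ℤ × ℤ) := {z | Conn S x z} ∪ {(a - 1, x.2), (b + 1, x'.2)} with hA
  set B : Set (ℤ × ℤ) := {z | Conn T y z} ∪
    ({z | z.1 = a - 1 ∧ c ≤ z.2 ∧ z.2 ≤ y.2} ∪ {z | z.1 = b + 1 ∧ y'.2 ≤ z.2 ∧ z.2 ≤ d}) with hB
  have hAc : Conn A (a - 1, x.2) (b + 1, x'.2) := by
    have e1 : Conn A (a - 1, x.2) x := by
      refine Conn.of_adj (Or.inr (Or.inl rfl)) (Or.inl (Conn.refl hx.1)) ?_
      rw [adj_iff]
      left
      exact ⟨by simp only; omega, rfl⟩
    have e2 : Conn A x x' := (c_cluster hx).mono Set.subset_union_left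
    have e3 : Conn A x' (b + 1, x'.2) := by
      refine Conn.of_adj (Or.inl hx) (Or.inr (Or.inr rfl)) ?_
      rw [adj_iff]
      left
      exact ⟨by simp only; omega, rfl⟩
    exact (e1.trans e2).trans e3
  have hBc : Conn B (a - 1, c) (b + 1, d) := by
    have e1 : Conn B (a - 1, c) (a - 1, y.2) := conn_col (fun j hj1 hj2 =>
      Or.inr (Or.inl ⟨rfl, by omega, by omega⟩))
    have e2 : Conn B (a - 1, y.2) y := by
      refine Conn.of_adj (Or.inr (Or.inl ⟨rfl, by omega, le_rfl⟩)) (Or.inl (Conn.refl hy.1)) ?_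
      rw [adj_iff]
      left
      exact ⟨by simp only; omega, rfl⟩
    have e3 : Conn B y y' := (c_cluster hy).mono Set.subset_union_left
    have e4 : Conn B y' (b + 1, y'.2) := by
      refine Conn.of_adj (Or.inl hy) (Or.inr (Or.inr ⟨rfl, le_rfl, by omega⟩)) ?_
      rw [adj_iff]
      left
      exact ⟨by simp only; omega, rfl⟩
    have e5 : Conn B (b + 1, y'.2) (b + 1, d) := conn_col (fun j hj1 hj2 =>
      Or.inr (Or.inr ⟨rfl, by omega, by omega⟩))
    exact (((e1.trans e2).trans e3).trans e4).trans e5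
  obtain ⟨z, hzA, hzB⟩ := cross (A := A) (B := B) (a := a - 1) (b := b + 1) (c := c) (d := d)
    (by
      rintro z (hz | rfl | rfl)
      · have := hS hz.right_mem
        rw [mem_rect] at this
        omega
      · exact ⟨le_rfl, by simp only; omega, by simp only; omega, by simp only; omega⟩
      · exact ⟨by simp only; omega, le_rfl, by simp only; omega, by simp only; omega⟩)
    (by
      rintro z (hz | hz | hz)
      · have := hT hz.right_mem
        rw [mem_rect] at this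
        omega
      · obtain ⟨h3, h4, h5⟩ := hz
        omega
      · obtain ⟨h3, h4, h5⟩ := hz
        omega)
    hAc rfl rfl hBc rfl rfl
  have hTz : ∀ {w : ℤ × ℤ}, Conn T y w → a ≤ w.1 ∧ w.1 ≤ b := fun hw => by
    have := hT hw.right_mem
    rw [mem_rect] at this
    omega
  rcases hzA with hzA | rfl | rfl
  · rcases hzB with hzB | hzB | hzB
    · exact ⟨z, hzA, hzB⟩
    · have h3 := hS hzA.right_mem
      rw [mem_rect] at h3
      have := hzB.1
      omega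
    · have h3 := hS hzA.right_mem
      rw [mem_rect] at h3
      have := hzB.1
      omega
  · rcases hzB with hzB | hzB | hzB
    · have := hTz hzB
      simp only at this
      omega
    · have h6 := hzB.2.2
      have h7 : x = y := Prod.ext (by rw [hxa, hya]) (le_antisymm h6 h1)
      exact ⟨x, Conn.refl hx.1, by rw [h7]; exact Conn.refl hy.1⟩
    · have := hzB.1
      simp only at this
      omega
  · rcases hzB with hzB | hzB | hzB
    · have := hTz hzB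
      simp only at this
      omega
    · have := hzB.1
      simp only at this
      omega
    · have h6 := hzB.2.1
      have h7 : x' = y' := Prod.ext (by rw [hxb, hyb]) (le_antisymm h2 h6)
      exact ⟨x', hx, by rw [h7]; exact hy⟩

/-- **Landing lemma (top).** -/
theorem landT {S T : Set (ℤ × ℤ)} {a b c d : ℤ} (hS : S ⊆ Rect a b c d) (hT : T ⊆ Rect a b c d)
    {x x' y y' : ℤ × ℤ} (hx : Conn S x x') (hxc : x.2 = c) (hxd : x'.2 = d)
    (hy : Conn T y y') (hyd : y.2 = d) (hyd' : y'.2 = d) (h1 : y.1 ≤ x'.1) (h2 : x'.1 ≤ y'.1) :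
    ∃ z, Conn S x z ∧ Conn T y z := by
  obtain ⟨z, hz1, hz2⟩ := landR (S := {z | (z.2, z.1) ∈ S}) (T := {z | (z.2, z.1) ∈ T})
    (a := c) (b := d) (c := a) (d := b) (x := (x.2, x.1)) (x' := (x'.2, x'.1)) (y := (y.2, y.1))
    (y' := (y'.2, y'.1))
    (fun z hz => by
      have := hS hz
      rw [mem_rect] at this ⊢
      simp only at this
      omega)
    (fun z hz => by
      have := hT hz
      rw [mem_rect] at this ⊢
      simp only at this
      omega)
    (c_map adj_swap (fun z hz => hz) hx) hxc hxd (c_map adj_swap (fun z hz => hz) hy) hyd hyd' h1 h2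
  exact ⟨(z.2, z.1), c_map (T := S) adj_swap (fun z hz => hz) hz1,
    c_map (T := T) adj_swap (fun z hz => hz) hz2⟩

/-- **Landing lemma (bottom).** -/
theorem landB {S T : Set (ℤ × ℤ)} {a b c d : ℤ} (hS : S ⊆ Rect a b c d) (hT : T ⊆ Rect a b c d)
    {x x' y y' : ℤ × ℤ} (hx : Conn S x x') (hxd : x.2 = d) (hxc : x'.2 = c)
    (hy : Conn T y y') (hyc : y.2 = c) (hyc' : y'.2 = c) (h1 : y.1 ≤ x'.1) (h2 : x'.1 ≤ y'.1) :
    ∃ z, Conn S x z ∧ Conn T y z := by
  have nn : ∀ z : ℤ × ℤ, ((- -z.1, - -z.2) : ℤ × ℤ) = z := fun z => by simp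
  obtain ⟨z, hz1, hz2⟩ := landT (S := {z | (-z.1, -z.2) ∈ S}) (T := {z | (-z.1, -z.2) ∈ T})
    (a := -b) (b := -a) (c := -d) (d := -c) (x := (-x.1, -x.2)) (x' := (-x'.1, -x'.2))
    (y := (-y'.1, -y'.2)) (y' := (-y.1, -y.2))
    (fun z hz => by
      have := hS hz
      rw [mem_rect] at this ⊢
      simp only at this
      omega)
    (fun z hz => by
      have := hT hz
      rw [mem_rect] at this ⊢
      simp only at this
      omega)
    (c_map adj_neg (fun z hz => by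
      show ((- -z.1, - -z.2) : ℤ × ℤ) ∈ S
      rw [nn]; exact hz) hx) (by simp only; omega) (by simp only; omega)
    (c_map adj_neg (fun z hz => by
      show ((- -z.1, - -z.2) : ℤ × ℤ) ∈ T
      rw [nn]; exact hz) hy.symm) (by simp only; omega) (by simp only; omega)
    (by simp only; omega) (by simp only; omega)
  have k1 := c_map (T := S) adj_neg (fun z hz => hz) hz1
  have k2 := c_map (T := T) adj_neg (fun z hz => hz) hz2
  simp only [nn] at k1 k2
  exact ⟨(-z.1, -z.2), k1, hy.trans k2⟩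

/-- **Interlacing lemma (vertical).** -/
theorem interV {S T : Set (ℤ × ℤ)} {a b c d : ℤ} (hS : S ⊆ Rect a b c d) (hT : T ⊆ Rect a b c d)
    {x x' y y' : ℤ × ℤ} (hx : Conn S x x') (hxc : x.2 = c) (hxd : x'.2 = d)
    (hy : Conn T y y') (hyc : y.2 = c) (hyd : y'.2 = d) (h1 : y.1 ≤ x.1) (h2 : x'.1 ≤ y'.1) :
    ∃ z, Conn S x z ∧ Conn T y z := by
  obtain ⟨z, hz1, hz2⟩ := interlace (S := {z | (z.2, z.1) ∈ S}) (T := {z | (z.2, z.1) ∈ T})
    (a := c) (b := d) (c := a) (d := b) (x := (x.2, x.1)) (x' := (x'.2, x'.1)) (y := (y.2, y.1))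
    (y' := (y'.2, y'.1))
    (fun z hz => by
      have := hS hz
      rw [mem_rect] at this ⊢
      simp only at this
      omega)
    (fun z hz => by
      have := hT hz
      rw [mem_rect] at this ⊢
      simp only at this
      omega)
    (c_map adj_swap (fun z hz => hz) hx) hxc hxd (c_map adj_swap (fun z hz => hz) hy) hyc hyd h1 h2
  exact ⟨(z.2, z.1), c_map (T := S) adj_swap (fun z hz => hz) hz1,
    c_map (T := T) adj_swap (fun z hz => hz) hz2⟩

theorem LRp.chain' (a a' b b' c d : ℤ) (S : Set (ℤ × ℤ)) (h1 : a ≤ a') (_h2 : a' ≤ b) (h3 : b ≤ b')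
    (_h4 : c ≤ d) (hl : LRp a b c d S) (hv : BTp a' b c d S) (hr : LRp a' b' c d S) :
    LRp a b' c d S := by
  obtain ⟨x, x', hx, hxa, hxb⟩ := hl
  obtain ⟨v, v', hv, hvc, hvd⟩ := hv
  obtain ⟨y, y', hy, hya, hyb⟩ := hr
  obtain ⟨z, hz1, hz2⟩ := ccross (S := S ∩ pr a b c d) (T := S ∩ pr a' b c d)
    (a := 2 * a) (b := 2 * b) (c := 2 * c) (d := 2 * d) Set.inter_subset_right
    (Set.inter_subset_right.trans (pr_mono h1 le_rfl le_rfl le_rfl)) hx hxa hxb hv hvc hvd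
  obtain ⟨w, hw1, hw2⟩ := ccross (S := S ∩ pr a' b' c d) (T := S ∩ pr a' b c d)
    (a := 2 * a') (b := 2 * b') (c := 2 * c) (d := 2 * d) Set.inter_subset_right
    (Set.inter_subset_right.trans (pr_mono le_rfl h3 le_rfl le_rfl)) hy hya hyb hv hvc hvd
  have e1 : pr a b c d ⊆ pr a b' c d := pr_mono le_rfl h3 le_rfl le_rfl
  have e2 : pr a' b c d ⊆ pr a b' c d := pr_mono h1 h3 le_rfl le_rfl
  have e3 : pr a' b' c d ⊆ pr a b' c d := pr_mono h1 le_rfl le_rfl le_rfl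
  have h5 : Conn (S ∩ pr a b' c d) x v := c_join e1 e2 hz1 hz2
  have h6 : Conn (S ∩ pr a b' c d) y v := c_join e3 e2 hw1 hw2
  exact ⟨x, y', (h5.trans h6.symm).trans (hy.mono (Set.inter_subset_inter_right S e3)), hxa, hyb⟩

/-- The annulus between the boxes with centre `(p, q)` and half sides `t`, `2t`. -/
def annR (p q t : ℤ) : Set (ℤ × ℤ) :=
  {z | z ∈ pr (p - 2 * t) (p + 2 * t) (q - 2 * t) (q + 2 * t) ∧
    (z.1 ≤ 2 * (p - t) ∨ 2 * (p + t) ≤ z.1 ∨ z.2 ≤ 2 * (q - t) ∨ 2 * (q + t) ≤ z.2)}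

theorem annR_sub (p q t : ℤ) : annR p q t ⊆ pr (p - 2 * t) (p + 2 * t) (q - 2 * t) (q + 2 * t) :=
  fun _ hz => hz.1

/-- Exit lemma for the triangular lattice. -/
theorem c_first {S : Set (ℤ × ℤ)} {f : ℤ × ℤ → ℤ} (hf : ∀ u v, Adj u v → f v ≤ f u + 1) {d : ℤ}
    {x y : ℤ × ℤ} (h : Conn S x y) (hx : f x ≤ d) (hy : d ≤ f y) :
    ∃ z, f z = d ∧ Conn (S ∩ {w | f w ≤ d}) x z := by
  have key : (f y < d ∧ Conn (S ∩ {w | f w ≤ d}) x y) ∨
      ∃ z, f z = d ∧ Conn (S ∩ {w | f w ≤ d}) x z := by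
    refine Conn.ind (S := S) (fun y => (f y < d ∧ Conn (S ∩ {w | f w ≤ d}) x y) ∨
      ∃ z, f z = d ∧ Conn (S ∩ {w | f w ≤ d}) x z) ?_ ?_ h
    · rcases lt_or_eq_of_le hx with h1 | h1
      · exact Or.inl ⟨h1, Conn.refl ⟨h.1, hx⟩⟩
      · exact Or.inr ⟨x, h1, Conn.refl ⟨h.1, hx⟩⟩
    · intro u v _ huv hv ih
      rcases ih with ⟨h1, h2⟩ | h1
      · have h3 := hf u v huv
        have h4 : Conn (S ∩ {w | f w ≤ d}) x v := h2.tail huv ⟨hv, show f v ≤ d by omega⟩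
        rcases lt_or_ge (f v) d with h5 | h5
        · exact Or.inl ⟨h5, h4⟩
        · exact Or.inr ⟨v, by omega, h4⟩
      · exact Or.inr h1
  rcases key with ⟨h1, _⟩ | h1
  · omega
  · exact h1

theorem c_exit {S : Set (ℤ × ℤ)} {f : ℤ × ℤ → ℤ} (hf : ∀ u v, Adj u v → f v ≤ f u + 1)
    {c d : ℤ} (hcd : c ≤ d) {x y : ℤ × ℤ} (h : Conn S x y) (hx : f x ≤ c) (hy : d ≤ f y) :
    ∃ z w, f z = c ∧ f w = d ∧ Conn (S ∩ {u | c ≤ f u ∧ f u ≤ d}) z w := by
  obtain ⟨w, hw, h1⟩ := c_first hf h (hx.trans hcd) hy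
  obtain ⟨z, hz, h2⟩ := c_first (f := fun u => - f u) (d := -c)
    (fun u v huv => by have := hf v u (adj_symm huv); omega) h1.symm (by omega) (by omega)
  have h3 : Conn (S ∩ {u | c ≤ f u ∧ f u ≤ d}) w z := h2.mono (by
    rintro u ⟨⟨h3, h4⟩, h5⟩
    refine ⟨h3, ?_, h4⟩
    have : - f u ≤ -c := h5
    show c ≤ f u
    omega)
  exact ⟨z, w, by omega, hw, h3.symm⟩

theorem adj_fst (u v : ℤ × ℤ) (h : Adj u v) : v.1 ≤ u.1 + 1 := by
  rw [adj_iff] at h
  omega

theorem LRp.mono' (a a' b b' c c' d d' : ℤ) (S : Set (ℤ × ℤ)) (h1 : a ≤ a') (h2 : a' ≤ b')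
    (h3 : b' ≤ b) (h4 : c' ≤ c) (h5 : d ≤ d') (h : LRp a b c d S) : LRp a' b' c' d' S := by
  obtain ⟨x, y, hxy, hx, hy⟩ := h
  obtain ⟨z, w, hz, hw, hzw⟩ := c_exit (f := Prod.fst) adj_fst (c := 2 * a') (d := 2 * b')
    (by omega) hxy (by omega) (by omega)
  refine ⟨z, w, hzw.mono ?_, hz, hw⟩
  rintro u ⟨⟨hu1, hu2⟩, hu3, hu4⟩
  rw [mem_pr] at hu2
  exact ⟨hu1, by rw [mem_pr]; omega⟩

/-- The event `Ann` gives one cluster of `S` inside the annulus which meets every path of the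
triangular lattice from the inner box to the
complement of the interior of the outer box. -/
theorem Ann.cluster {p q t : ℤ} (ht : 0 < t) {S : Set (ℤ × ℤ)} (hA : Ann p q t S) :
    ∃ o, o ∈ S ∩ annR p q t ∧ ∀ (D : Set (ℤ × ℤ)) (x y : ℤ × ℤ), Conn D x y →
      x ∈ pr (p - t) (p + t) (q - t) (q + t) →
      (y.1 ≤ 2 * (p - 2 * t) ∨ 2 * (p + 2 * t) ≤ y.1 ∨ y.2 ≤ 2 * (q - 2 * t) ∨
        2 * (q + 2 * t) ≤ y.2) →
      ∃ w, w ∈ D ∧ Conn (S ∩ annR p q t) o w := by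
  obtain ⟨⟨a1, b1, h1, h1a, h1b⟩, ⟨a2, b2, h2, h2a, h2b⟩, ⟨a3, b3, h3, h3a, h3b⟩,
    ⟨a4, b4, h4, h4a, h4b⟩⟩ := hA
  have k1 : Conn (S ∩ annR p q t) a1 b1 := h1.mono (Set.inter_subset_inter_right S (by
    intro z hz
    rw [mem_pr] at hz
    refine ⟨by rw [mem_pr]; omega, ?_⟩
    right; right; right; omega))
  have k2 : Conn (S ∩ annR p q t) a2 b2 := h2.mono (Set.inter_subset_inter_right S (by
    intro z hz
    rw [mem_pr] at hz
    refine ⟨by rw [mem_pr]; omega, ?_⟩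
    right; right; left; omega))
  have k3 : Conn (S ∩ annR p q t) a3 b3 := h3.mono (Set.inter_subset_inter_right S (by
    intro z hz
    rw [mem_pr] at hz
    refine ⟨by rw [mem_pr]; omega, ?_⟩
    left; omega))
  have k4 : Conn (S ∩ annR p q t) a4 b4 := h4.mono (Set.inter_subset_inter_right S (by
    intro z hz
    rw [mem_pr] at hz
    refine ⟨by rw [mem_pr]; omega, ?_⟩
    right; left; omega))
  -- a horizontal strip and a vertical strip meet in the big box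
  have hH : ∀ {c d : ℤ}, q - 2 * t ≤ c → d ≤ q + 2 * t → ∀ {a b : ℤ}, p - 2 * t ≤ a →
      b ≤ p + 2 * t → ∀ {x x' y y' : ℤ × ℤ},
      Conn (S ∩ pr (p - 2 * t) (p + 2 * t) c d) x x' → x.1 = 2 * (p - 2 * t) →
      x'.1 = 2 * (p + 2 * t) → Conn (S ∩ pr a b (q - 2 * t) (q + 2 * t)) y y' →
      y.2 = 2 * (q - 2 * t) → y'.2 = 2 * (q + 2 * t) →
      ∃ z, Conn (S ∩ pr (p - 2 * t) (p + 2 * t) c d) x z ∧
        Conn (S ∩ pr a b (q - 2 * t) (q + 2 * t)) y z := by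
    intro c d hc hd a b ha hb x x' y y' hx hxa hxb hy hya hyb
    exact ccross (a := 2 * (p - 2 * t)) (b := 2 * (p + 2 * t)) (c := 2 * (q - 2 * t))
      (d := 2 * (q + 2 * t)) (Set.inter_subset_right.trans (pr_mono le_rfl le_rfl hc hd))
      (Set.inter_subset_right.trans (pr_mono ha hb le_rfl le_rfl)) hx hxa hxb hy hya hyb
  have sub1 : pr (p - 2 * t) (p + 2 * t) (q + t) (q + 2 * t) ⊆ annR p q t := by
    intro z hz
    rw [mem_pr] at hz
    refine ⟨by rw [mem_pr]; omega, ?_⟩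
    right; right; right; omega
  have sub2 : pr (p - 2 * t) (p + 2 * t) (q - 2 * t) (q - t) ⊆ annR p q t := by
    intro z hz
    rw [mem_pr] at hz
    refine ⟨by rw [mem_pr]; omega, ?_⟩
    right; right; left; omega
  have sub3 : pr (p - 2 * t) (p - t) (q - 2 * t) (q + 2 * t) ⊆ annR p q t := by
    intro z hz
    rw [mem_pr] at hz
    refine ⟨by rw [mem_pr]; omega, ?_⟩
    left; omega
  have sub4 : pr (p + t) (p + 2 * t) (q - 2 * t) (q + 2 * t) ⊆ annR p q t := by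
    intro z hz
    rw [mem_pr] at hz
    refine ⟨by rw [mem_pr]; omega, ?_⟩
    right; left; omega
  obtain ⟨z13, c13, d13⟩ := hH (by omega) (by omega) (by omega) (by omega) h1 h1a h1b h3 h3a h3b
  obtain ⟨z14, c14, d14⟩ := hH (by omega) (by omega) (by omega) (by omega) h1 h1a h1b h4 h4a h4b
  obtain ⟨z23, c23, d23⟩ := hH (by omega) (by omega) (by omega) (by omega) h2 h2a h2b h3 h3a h3b
  have j13 : Conn (S ∩ annR p q t) a1 a3 := c_join sub1 sub3 c13 d13
  have j14 : Conn (S ∩ annR p q t) a1 a4 := c_join sub1 sub4 c14 d14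
  have j12 : Conn (S ∩ annR p q t) a1 a2 := j13.trans (c_join sub2 sub3 c23 d23).symm
  refine ⟨a1, k1.left_mem, ?_⟩
  intro D x y hD hx hy
  -- cut the path at the first exit of the open outer box
  set f : ℤ × ℤ → ℤ := fun z => max (max (z.1 - 2 * p) (2 * p - z.1)) (max (z.2 - 2 * q) (2 * q - z.2))
    with hf
  have hfl : ∀ u v, Adj u v → f v ≤ f u + 1 := by
    intro u v huv
    rw [adj_iff] at huv
    simp only [hf]
    omega
  rw [mem_pr] at hx
  obtain ⟨y1, hy1, hD1⟩ := c_first hfl (d := 4 * t) hD (by simp only [hf]; omega)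
    (by simp only [hf]; omega)
  have hD1r : ∀ z ∈ D ∩ {w | f w ≤ 4 * t}, z ∈ pr (p - 2 * t) (p + 2 * t) (q - 2 * t) (q + 2 * t) := by
    rintro z ⟨_, hz⟩
    have hz' : max (max (z.1 - 2 * p) (2 * p - z.1)) (max (z.2 - 2 * q) (2 * q - z.2)) ≤ 4 * t := hz
    rw [mem_pr]
    omega
  have hside : y1.1 = 2 * (p - 2 * t) ∨ y1.1 = 2 * (p + 2 * t) ∨ y1.2 = 2 * (q - 2 * t) ∨
      y1.2 = 2 * (q + 2 * t) := by
    simp only [hf] at hy1
    omega
  have hf1 : ∀ u v : ℤ × ℤ, Adj u v → v.1 ≤ u.1 + 1 := by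
    intro u v huv
    rw [adj_iff] at huv
    omega
  have hf1' : ∀ u v : ℤ × ℤ, Adj u v → -v.1 ≤ -u.1 + 1 := by
    intro u v huv
    rw [adj_iff] at huv
    omega
  have hf2 : ∀ u v : ℤ × ℤ, Adj u v → v.2 ≤ u.2 + 1 := by
    intro u v huv
    rw [adj_iff] at huv
    omega
  have hf2' : ∀ u v : ℤ × ℤ, Adj u v → -v.2 ≤ -u.2 + 1 := by
    intro u v huv
    rw [adj_iff] at huv
    omega
  rcases hside with h | h | h | h
  · -- exit through the left side
    obtain ⟨z, w, hz, hw, hzw⟩ := c_exit (f := fun u => -u.1) hf1' (c := -(2 * (p - t)))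
      (d := -(2 * (p - 2 * t))) (by omega) hD1 (by omega) (by omega)
    obtain ⟨v, hv1, hv2⟩ := cross (A := D ∩ {w | f w ≤ 4 * t} ∩
        {u | -(2 * (p - t)) ≤ -u.1 ∧ -u.1 ≤ -(2 * (p - 2 * t))})
      (B := {z | Conn (S ∩ pr (p - 2 * t) (p - t) (q - 2 * t) (q + 2 * t)) a3 z})
      (a := 2 * (p - 2 * t)) (b := 2 * (p - t)) (c := 2 * (q - 2 * t)) (d := 2 * (q + 2 * t))
      (by
        rintro u ⟨hu1, hu2, hu3⟩
        have := hD1r u hu1
        rw [mem_pr] at this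
        omega)
      (by
        intro u hu
        have := hu.right_mem.2
        rw [mem_pr] at this
        omega)
      hzw.symm (by omega) (by omega) (c_cluster h3) h3a h3b
    exact ⟨v, hv1.1.1, j13.trans (hv2.mono (Set.inter_subset_inter_right S sub3))⟩
  · obtain ⟨z, w, hz, hw, hzw⟩ := c_exit (f := fun u => u.1) hf1 (c := 2 * (p + t))
      (d := 2 * (p + 2 * t)) (by omega) hD1 (by omega) (by omega)
    obtain ⟨v, hv1, hv2⟩ := cross (A := D ∩ {w | f w ≤ 4 * t} ∩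
        {u | 2 * (p + t) ≤ u.1 ∧ u.1 ≤ 2 * (p + 2 * t)})
      (B := {z | Conn (S ∩ pr (p + t) (p + 2 * t) (q - 2 * t) (q + 2 * t)) a4 z})
      (a := 2 * (p + t)) (b := 2 * (p + 2 * t)) (c := 2 * (q - 2 * t)) (d := 2 * (q + 2 * t))
      (by
        rintro u ⟨hu1, hu2, hu3⟩
        have := hD1r u hu1
        rw [mem_pr] at this
        omega)
      (by
        intro u hu
        have := hu.right_mem.2
        rw [mem_pr] at this
        omega)
      hzw (by omega) (by omega) (c_cluster h4) h4a h4b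
    exact ⟨v, hv1.1.1, j14.trans (hv2.mono (Set.inter_subset_inter_right S sub4))⟩
  · obtain ⟨z, w, hz, hw, hzw⟩ := c_exit (f := fun u => -u.2) hf2' (c := -(2 * (q - t)))
      (d := -(2 * (q - 2 * t))) (by omega) hD1 (by omega) (by omega)
    obtain ⟨v, hv1, hv2⟩ := cross
      (A := {z | Conn (S ∩ pr (p - 2 * t) (p + 2 * t) (q - 2 * t) (q - t)) a2 z})
      (B := D ∩ {w | f w ≤ 4 * t} ∩
        {u | -(2 * (q - t)) ≤ -u.2 ∧ -u.2 ≤ -(2 * (q - 2 * t))})
      (a := 2 * (p - 2 * t)) (b := 2 * (p + 2 * t)) (c := 2 * (q - 2 * t)) (d := 2 * (q - t))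
      (by
        intro u hu
        have := hu.right_mem.2
        rw [mem_pr] at this
        omega)
      (by
        rintro u ⟨hu1, hu2, hu3⟩
        have := hD1r u hu1
        rw [mem_pr] at this
        omega)
      (c_cluster h2) h2a h2b hzw.symm (by omega) (by omega)
    exact ⟨v, hv2.1.1, j12.trans (hv1.mono (Set.inter_subset_inter_right S sub2))⟩
  · obtain ⟨z, w, hz, hw, hzw⟩ := c_exit (f := fun u => u.2) hf2 (c := 2 * (q + t))
      (d := 2 * (q + 2 * t)) (by omega) hD1 (by omega) (by omega)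
    obtain ⟨v, hv1, hv2⟩ := cross
      (A := {z | Conn (S ∩ pr (p - 2 * t) (p + 2 * t) (q + t) (q + 2 * t)) a1 z})
      (B := D ∩ {w | f w ≤ 4 * t} ∩ {u | 2 * (q + t) ≤ u.2 ∧ u.2 ≤ 2 * (q + 2 * t)})
      (a := 2 * (p - 2 * t)) (b := 2 * (p + 2 * t)) (c := 2 * (q + t)) (d := 2 * (q + 2 * t))
      (by
        intro u hu
        have := hu.right_mem.2
        rw [mem_pr] at this
        omega)
      (by
        rintro u ⟨hu1, hu2, hu3⟩
        have := hD1r u hu1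
        rw [mem_pr] at this
        omega)
      (c_cluster h1) h1a h1b hzw (by omega) (by omega)
    exact ⟨v, hv2.1.1, hv1.mono (Set.inter_subset_inter_right S sub1)⟩

/-- The cluster of the event `XX` reaches the left and right parts of the top and of the bottom side
and the upper left and lower right sides of the hexagon. -/
theorem XX.cluster {p q n h : ℤ} {S : Set (ℤ × ℤ)} (hX : XX p q n h S) :
    ∃ o t1 t2 b1 b2 r : ℤ × ℤ, let B := S ∩ hex p q n
      Conn B o t1 ∧ Conn B o t2 ∧ Conn B o b1 ∧ Conn B o b2 ∧ Conn B o r ∧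
      t1.2 = 4 * (p + n) ∧ 4 * (q + h) ≤ 2 * t1.1 + t1.2 ∧
      t2.2 = 4 * (p + n) ∧ 2 * t2.1 + t2.2 ≤ 4 * (q - h) ∧
      b1.2 = 4 * (p - n) ∧ 4 * (q + h) ≤ 2 * b1.1 + b1.2 ∧
      b2.2 = 4 * (p - n) ∧ 2 * b2.1 + b2.2 ≤ 4 * (q - h) ∧
      o.1 = 2 * (q - p - 2 * n) ∧ r.1 = 2 * (q - p + 2 * n) := by
  obtain ⟨⟨x1, y1, h1, h1a, h1b, h1c, _⟩, ⟨x2, y2, h2, h2a, h2b, _, h2d⟩,
    ⟨x3, y3, h3, h3a, h3b, h3c, _⟩, ⟨x4, y4, h4, h4a, h4b, _, h4d⟩, ⟨o, r, ho, hoc, hod⟩⟩ := hX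
  have hsub : S ∩ hex p q n ⊆
      Rect (2 * (q - p - 2 * n)) (2 * (q - p + 2 * n)) (4 * (p - n)) (4 * (p + n)) := by
    intro z hz
    have := hz.2
    rw [mem_hex] at this
    rw [mem_rect]
    omega
  obtain ⟨z1, hz1, hz1'⟩ := ccross hsub hsub ho hoc hod h1 h1a h1b
  obtain ⟨z2, hz2, hz2'⟩ := ccross hsub hsub ho hoc hod h2 h2a h2b
  obtain ⟨z3, hz3, hz3'⟩ := ccross hsub hsub ho hoc hod h3.symm h3b h3a
  obtain ⟨z4, hz4, hz4'⟩ := ccross hsub hsub ho hoc hod h4.symm h4b h4a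
  exact ⟨o, y1, y2, y3, y4, r, (hz1.trans hz1'.symm).trans h1, (hz2.trans hz2'.symm).trans h2,
    hz3.trans hz3'.symm, hz4.trans hz4'.symm, ho, h1b, h1c, h2b, h2d, h3b, h3c, h4b, h4d, hoc, hod⟩

theorem Geo.f1' (n m v al : ℤ) (S : Set (ℤ × ℤ)) (_h0 : 0 ≤ al) (_hm : 0 < m) (hmn : m ≤ n)
    (hv : 0 ≤ v) (hv' : v ≤ 3 * (n - m)) (hl : HT (m - n) (-v) n (-al) al S)
    (hr : HM (n - m) (-v) n (-al) al S) (hX : XX 0 0 m al S) :
    BTp (-v - (3 * n - m)) (-v + (3 * n - m)) (-(4 * n - 2 * m)) (4 * n - 2 * m) S := by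
  obtain ⟨o, t1, t2, b1, b2, r, g1, g2, g3, g4, _, e1, e2, e3, e4, e5, e6, e7, e8, _, _⟩ :=
    hX.cluster
  simp only [zero_sub, zero_add] at g1 g2 g3 g4 e1 e2 e3 e4 e5 e6 e7 e8
  obtain ⟨x, x', hx, hxa, hxb, hxc, hxd⟩ := hl
  obtain ⟨y, y', hy, hya, hyb, hyc, hyd⟩ := hr
  have s0 : hex 0 0 m ⊆ pr (-v - (3 * n - m)) (-v + (3 * n - m)) (-(4 * n - 2 * m))
      (4 * n - 2 * m) := by
    intro z hz
    rw [mem_hex] at hz
    rw [mem_pr]
    omega
  have s1 : hex (m - n) (-v) n ⊆ pr (-v - (3 * n - m)) (-v + (3 * n - m)) (-(4 * n - 2 * m))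
      (4 * n - 2 * m) := by
    intro z hz
    rw [mem_hex] at hz
    rw [mem_pr]
    omega
  have s2 : hex (n - m) (-v) n ⊆ pr (-v - (3 * n - m)) (-v + (3 * n - m)) (-(4 * n - 2 * m))
      (4 * n - 2 * m) := by
    intro z hz
    rw [mem_hex] at hz
    rw [mem_pr]
    omega
  obtain ⟨z, hz1, hz2⟩ := landT (S := S ∩ hex (m - n) (-v) n) (T := S ∩ hex 0 0 m)
    (a := 2 * (-v - (3 * n - m))) (b := 2 * (-v + (3 * n - m))) (c := 4 * (m - 2 * n))
    (d := 4 * m)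
    (by
      intro z hz
      have := hz.2
      rw [mem_hex] at this
      rw [mem_rect]
      omega)
    (by
      intro z hz
      have := hz.2
      rw [mem_hex] at this
      rw [mem_rect]
      omega)
    hx (by omega) (by omega) (g2.symm.trans g1) (by omega) (by omega) (by omega) (by omega)
  obtain ⟨w, hw1, hw2⟩ := landB (S := S ∩ hex (n - m) (-v) n) (T := S ∩ hex 0 0 m)
    (a := 2 * (-v - (3 * n - m))) (b := 2 * (-v + (3 * n - m))) (c := -(4 * m))
    (d := 4 * (2 * n - m))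
    (by
      intro z hz
      have := hz.2
      rw [mem_hex] at this
      rw [mem_rect]
      omega)
    (by
      intro z hz
      have := hz.2
      rw [mem_hex] at this
      rw [mem_rect]
      omega)
    hy (by omega) (by omega) (g4.symm.trans g3) (by omega) (by omega) (by omega) (by omega)
  have k1 := c_join s1 s0 hz1 hz2
  have k2 := c_join s2 s0 hw1 hw2
  have k3 := (g2.symm.trans g4).mono (Set.inter_subset_inter_right S s0)
  exact ⟨x, y, (k1.trans k3).trans k2.symm, by omega, by omega⟩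

theorem Geo.zig' (n h : ℤ) (S : Set (ℤ × ℤ)) (_hn : 0 < n) (hh : 0 ≤ h) (_hhn : h ≤ n)
    (hX : XX 0 0 n h S) (hY : XX 0 (-(2 * h)) n h S) :
    LRp (-(2 * h) - 2 * n) (2 * n) (-(2 * n)) (2 * n) S := by
  obtain ⟨o, t1, t2, b1, b2, r, g1, g2, g3, g4, g5, e1, e2, e3, e4, e5, e6, e7, e8, e9, e10⟩ :=
    hX.cluster
  obtain ⟨o', t1', t2', b1', b2', r', g1', g2', g3', g4', g5', e1', e2', e3', e4', e5', e6', e7',
    e8', e9', e10'⟩ := hY.cluster
  simp only [zero_sub, zero_add, sub_zero, add_zero] at g1 g2 g3 g4 g5 e1 e2 e3 e4 e5 e6 e7 e8 e9 e10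
  simp only [zero_sub, zero_add, sub_zero, add_zero] at g1' g2' g3' g4' g5' e1' e2' e3' e4' e5' e6' e7' e8' e9' e10'
  have s1 : hex 0 0 n ⊆ pr (-(2 * h) - 2 * n) (2 * n) (-(2 * n)) (2 * n) := by
    intro z hz
    rw [mem_hex] at hz
    rw [mem_pr]
    omega
  have s2 : hex 0 (-(2 * h)) n ⊆ pr (-(2 * h) - 2 * n) (2 * n) (-(2 * n)) (2 * n) := by
    intro z hz
    rw [mem_hex] at hz
    rw [mem_pr]
    omega
  obtain ⟨z, hz1, hz2⟩ := interV (S := S ∩ hex 0 0 n)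
    (T := S ∩ hex 0 (-(2 * h)) n) (a := 2 * (-(2 * h) - 2 * n)) (b := 2 * (2 * n))
    (c := 2 * (-(2 * n))) (d := 2 * (2 * n)) (Set.inter_subset_right.trans s1)
    (Set.inter_subset_right.trans s2) (g3.symm.trans g2) (by omega) (by omega)
    (g4'.symm.trans g1') (by omega) (by omega) (by omega) (by omega)
  have k1 := c_join s1 s2 hz1 hz2
  have k2 : Conn (S ∩ pr (-(2 * h) - 2 * n) (2 * n) (-(2 * n)) (2 * n)) b1 r :=
    (g3.symm.trans g5).mono (Set.inter_subset_inter_right S s1)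
  have k3 : Conn (S ∩ pr (-(2 * h) - 2 * n) (2 * n) (-(2 * n)) (2 * n)) o' b2' :=
    g4'.mono (Set.inter_subset_inter_right S s2)
  exact ⟨o', r, (k3.trans k1.symm).trans k2, by omega, by omega⟩

theorem Geo.f2a (s t : ℤ) (S : Set (ℤ × ℤ)) (hs : 0 < s) (hst : 2 * s ≤ t)
    (hl : HT (-t) 0 t 0 s S) (hr : HM t 0 t 0 s S) (hA : Ann 0 0 s S) :
    BTp (-(3 * t)) (3 * t) (-(4 * t)) (4 * t) S := by
  obtain ⟨o, _, hsep⟩ := hA.cluster hs
  obtain ⟨x, x', hx, hxa, hxb, hxc, hxd⟩ := hl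
  obtain ⟨y, y', hy, hya, hyb, hyc, hyd⟩ := hr
  obtain ⟨w, hw1, hw2⟩ := hsep _ x' x (c_cluster hx.symm)
    (by rw [mem_pr]; omega) (by right; right; left; omega)
  obtain ⟨v, hv1, hv2⟩ := hsep _ y' y (c_cluster hy.symm)
    (by rw [mem_pr]; omega) (by right; right; right; omega)
  have s1 : hex (-t) 0 t ⊆ pr (-(3 * t)) (3 * t) (-(4 * t)) (4 * t) := by
    intro z hz
    rw [mem_hex] at hz
    rw [mem_pr]
    omega
  have s2 : hex t 0 t ⊆ pr (-(3 * t)) (3 * t) (-(4 * t)) (4 * t) := by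
    intro z hz
    rw [mem_hex] at hz
    rw [mem_pr]
    omega
  have s3 : annR 0 0 s ⊆ pr (-(3 * t)) (3 * t) (-(4 * t)) (4 * t) :=
    (annR_sub 0 0 s).trans (pr_mono (by omega) (by omega) (by omega) (by omega))
  have k1 := c_join s1 s3 (hx.trans hw1) hw2
  have k2 := c_join s2 s3 (hy.trans hv1) hv2
  exact ⟨x, y, k1.trans k2.symm, by omega, by omega⟩

theorem Geo.f2b (t : ℤ) (S : Set (ℤ × ℤ)) (hS : S ⊆ Mid) (ht : 1 ≤ t) (hl : HT (-t) 0 t 0 1 S)
    (hr : HM t 0 t 0 1 S) : BTp (-(3 * t)) (3 * t) (-(4 * t)) (4 * t) S := by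
  obtain ⟨x, x', hx, hxa, hxb, hxc, hxd⟩ := hl
  obtain ⟨y, y', hy, hya, hyb, hyc, hyd⟩ := hr
  have key : ∀ u : ℤ × ℤ, u ∈ S → u.2 = 0 → 0 ≤ u.1 → u.1 ≤ 2 → u = (1, 0) := by
    intro u hu h1 h2 h3
    have h4 : Odd u.1 ∨ Odd u.2 := hS hu
    rw [Int.odd_iff, Int.odd_iff] at h4
    exact Prod.ext (by simp only; omega) (by simp only; omega)
  have h1 := key x' hx.right_mem.1 (by omega) (by omega) (by omega)
  have h2 := key y' hy.right_mem.1 (by omega) (by omega) (by omega)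
  have s1 : hex (-t) 0 t ⊆ pr (-(3 * t)) (3 * t) (-(4 * t)) (4 * t) := by
    intro z hz
    rw [mem_hex] at hz
    rw [mem_pr]
    omega
  have s2 : hex t 0 t ⊆ pr (-(3 * t)) (3 * t) (-(4 * t)) (4 * t) := by
    intro z hz
    rw [mem_hex] at hz
    rw [mem_pr]
    omega
  rw [h1] at hx
  rw [h2] at hy
  exact ⟨x, y, c_join s1 s2 hx hy, by omega, by omega⟩

/-- The deterministic facts about crossings. -/
theorem geo : Geo where
  chain := LRp.chain'
  mono := LRp.mono'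
  f1 := Geo.f1'
  zig := Geo.zig'
  f2 := Geo.f2a
  f2' := Geo.f2b

end Vale.Agent.P153.F.RSW
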