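import Vale.Agent.P153.F.RSW.Tassion2

/-!
# P153, block F-B: Tassion's argument on the triangular lattice, conclusion

`rsw`: for a positively associated and symmetric percolation of the midpoints whose rhombi and
hexagons are crossed with probability at least `c0` and for which the event `Arm` has small
probability, long parallelograms are crossed (and annuli contain circuits) with probability bounded
below at all large scales.
-/

namespace Vale.Agent.P153.F.RSW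

open Relation

namespace PT

variable {P : PT} {c0 : ℝ} {N : ℕ}

theorem next1 (G : Geo) (h0 : 0 < c0) (hsq : P.Sq c0 N)
    (harm : ∀ c : ℝ, 0 < c → ∀ M0 : ℤ, ∃ M : ℤ, M0 ≤ M ∧ ∃ s0 : ℤ, ∀ s : ℤ, s0 ≤ s →
      P.p (Arm s (2 * M * s)) < c) :
    ∃ M : ℕ, 12 ≤ M ∧ ∃ n0 : ℕ, ∀ n : ℕ, n0 ≤ n → P.Good c0 n →
      ∃ t : ℕ, 10 * n ≤ t ∧ t ≤ 4 * M * (5 * n) ∧ 5 * n ≤ P.al c0 t := by
  have hc1 : 0 < c1 c0 := c1_pos h0
  set c2 : ℝ := (c1 c0 * (c0 * c1 c0) ^ 79) ^ 4 with hc2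
  have hc2p : 0 < c2 := by positivity
  set a : ℝ := (c0 / 4) * (c0 / 4) * c2 with ha
  have hap : 0 < a := by positivity
  set A4 : ℝ := a * (c0 * a) ^ 20 with hA4
  have hA4p : 0 < A4 := by positivity
  obtain ⟨M', hM', s0, hs0⟩ := harm (c2 * (A4 ^ 4) * (A4 ^ 4 * (c0 / 4))) (by positivity) 12
  obtain ⟨M, rfl⟩ : ∃ M : ℕ, M' = M := ⟨M'.toNat, by omega⟩
  refine ⟨M, by omega, max (max N 36) s0.toNat, fun n hn hg => ?_⟩
  have hnN : N ≤ n := le_trans (le_trans (le_max_left _ _) (le_max_left _ _)) hn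
  have hn8 : 36 ≤ n := le_trans (le_trans (le_max_right _ _) (le_max_left _ _)) hn
  have hns : s0.toNat ≤ n := le_trans (le_max_right _ _) hn
  by_contra hcon
  push Not at hcon
  obtain ⟨s, hs⟩ : ∃ s : ℕ, s = 5 * n := ⟨_, rfl⟩
  obtain ⟨R, hR⟩ : ∃ R : ℕ, R = 2 * M * s := ⟨_, rfl⟩
  have hRs : 24 * s ≤ R := by
    rw [hR]
    exact Nat.mul_le_mul_right _ (by omega)
  have hal : ∀ t : ℕ, 2 * s ≤ t → t ≤ 2 * R → P.al c0 t < s := fun t h1 h2 => by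
    rw [hs]
    refine hcon t (by omega) ?_
    calc t ≤ 2 * R := h2
      _ = 4 * M * (5 * n) := by rw [hR, hs]; ring
  -- the small circuit
  have e1 : c2 ≤ P.p (Ann 0 0 s) := by
    have h1 := long_of_good G h0 hsq hnN hn8 hg 79 (4 * s) (by omega) (by push_cast; omega)
    have h2 : (5 * n : ℤ) = s := by omega
    rw [h2] at h1
    exact P.Ann_ge 0 0 (by positivity) h1
  have key1 : ∀ r : ℕ, 12 * s + 12 ≤ r → r ≤ 2 * R → A4 ≤ P.L (4 * r) r := by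
    intro r h1 h2
    obtain ⟨t, ht⟩ : ∃ t : ℕ, t = r / 6 := ⟨_, rfl⟩
    have f1 := long_of_ann G h0 (s := s) (t := t) (by omega) (by omega)
      (hal t (by omega) (by omega)) hc2p.le e1
    exact ratio4 G h0 hsq (t := t) (by omega) hap.le f1 (by omega) (by omega)
  have f3 : A4 ^ 4 ≤ P.p (Ann (3 * (2 * M * s)) 0 (2 * M * s)) := by
    refine P.Ann_ge _ _ hA4p.le ?_
    have h1 : (2 * M * s : ℤ) = R := by rw [hR]; push_cast; ring
    rw [h1]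
    exact key1 R (by omega) (by omega)
  have g3 : A4 ^ 4 ≤ P.p (Ann 0 0 (2 * (2 * M * s))) := by
    refine P.Ann_ge _ _ hA4p.le ?_
    have h1 : 2 * (2 * M * s : ℤ) = (2 * R : ℕ) := by rw [hR]; push_cast; ring
    rw [h1]
    exact key1 (2 * R) (by omega) le_rfl
  -- the arm
  have k1 : c0 / 4 ≤ P.p (HT (-(2 * (2 * M * s))) 0 (2 * (2 * M * s)) 0 s) := by
    have h1 := P.H_gt (c0 := c0) (n := 2 * R) (a := (s : ℤ))
      (by have := hal (2 * R) (by omega) le_rfl; omega)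
      (by have := hal (2 * R) (by omega) le_rfl; omega)
    have h2 := P.H_nonneg (2 * R : ℕ) (s : ℤ) (2 * R : ℕ)
    have h4 : c0 / 4 ≤ P.H (2 * R : ℕ) 0 s := by linarith
    have h5 : 2 * (2 * M * s : ℤ) = (2 * R : ℕ) := by rw [hR]; push_cast; ring
    rw [h5, P.HT_eq]
    simpa using h4
  have key := P.fkg3 (T := Arm s (2 * M * s)) (IL_Ann 0 0 s) (IL_Ann 0 0 (2 * (2 * M * s)))
    ((IL_Ann (3 * (2 * M * s)) 0 (2 * M * s)).and
      (IL_HT (-(2 * (2 * M * s))) 0 (2 * (2 * M * s)) 0 s))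
    (fun S _ h1 h2 h3 => ⟨h1, h2, h3.1, h3.2⟩) hc2p.le (by positivity)
    (by positivity) e1 g3
    (P.fkg2 (T := fun S => Ann (3 * (2 * M * s)) 0 (2 * M * s) S ∧
      HT (-(2 * (2 * M * s))) 0 (2 * (2 * M * s)) 0 s S)
      (IL_Ann _ _ _) (IL_HT _ _ _ _ _) (fun S _ x y => ⟨x, y⟩) (by positivity) (by positivity)
      f3 k1)
  have := hs0 s (by omega)
  linarith

/-- The sequence of scales with ratio `3/2`. -/
def useq (t : ℕ) : ℕ → ℕ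
  | 0 => t
  | j + 1 => useq t j + useq t j / 2

theorem useq_ge (t : ℕ) : ∀ j, t ≤ useq t j
  | 0 => le_rfl
  | j + 1 => le_trans (useq_ge t j) (Nat.le_add_right _ _)

theorem useq_le (t : ℕ) : ∀ j, 2 ^ j * useq t j ≤ 3 ^ j * t
  | 0 => by simp [useq]
  | j + 1 => by
    have := useq_le t j
    have h2 : 2 * useq t (j + 1) ≤ 3 * useq t j := by simp only [useq]; omega
    calc 2 ^ (j + 1) * useq t (j + 1) = 2 ^ j * (2 * useq t (j + 1)) := by ring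
      _ ≤ 2 ^ j * (3 * useq t j) := Nat.mul_le_mul_left _ h2
      _ = 3 * (2 ^ j * useq t j) := by ring
      _ ≤ 3 * (3 ^ j * t) := Nat.mul_le_mul_left _ this
      _ = 3 ^ (j + 1) * t := by ring

theorem useq_le' (t : ℕ) : ∀ j, useq t j ≤ 2 ^ j * t
  | 0 => by simp [useq]
  | j + 1 => by
    have := useq_le' t j
    have h2 : useq t (j + 1) ≤ 2 * useq t j := by simp only [useq]; omega
    calc useq t (j + 1) ≤ 2 * useq t j := h2
      _ ≤ 2 * (2 ^ j * t) := Nat.mul_le_mul_left _ this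
      _ = 2 ^ (j + 1) * t := by ring

theorem grow (G : Geo) (h0 : 0 < c0) (hc : c0 ≤ 1) (hhx : P.Hx c0 N) {t : ℕ} (ht : 2 * N ≤ t)
    (ht1 : 1 ≤ t) {J : ℕ} (hb : ∀ j < J, ¬ P.Good c0 (useq t (j + 1))) :
    ∀ j ≤ J, 2 ^ j * P.al c0 t ≤ P.al c0 (useq t j) := by
  intro j
  induction j with
  | zero => intro _; simp [useq]
  | succ j ih =>
    intro hj
    have h1 := ih (by omega)
    have h2 := useq_ge t (j + 1)
    have h3 := (not_good G h0 hc hhx (n := useq t (j + 1)) (by omega) (by omega)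
      (hb j (by omega))).2
    have h4 : useq t (j + 1) - useq t (j + 1) / 3 = useq t j := by
      simp only [useq]; omega
    rw [h4] at h3
    calc 2 ^ (j + 1) * P.al c0 t = 2 * (2 ^ j * P.al c0 t) := by ring
      _ ≤ 2 * P.al c0 (useq t j) := Nat.mul_le_mul_left _ h1
      _ ≤ _ := h3

theorem exists_J (K : ℕ) : ∃ J : ℕ, 3 ^ J * K < 4 ^ J := by
  obtain ⟨J, hJ⟩ := pow_unbounded_of_one_lt (K : ℝ) (by norm_num : (1 : ℝ) < 4 / 3)
  refine ⟨J, ?_⟩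
  have h1 : (3 : ℝ) ^ J * K < 4 ^ J := by
    have h3 : (0 : ℝ) < 3 ^ J := by positivity
    calc (3 : ℝ) ^ J * K < 3 ^ J * (4 / 3) ^ J := by
          exact mul_lt_mul_of_pos_left hJ h3
      _ = 4 ^ J := by rw [← mul_pow]; norm_num
  exact_mod_cast h1

theorem next2 (G : Geo) (h0 : 0 < c0) (hc : c0 ≤ 1) (hhx : P.Hx c0 N) (K : ℕ) :
    ∃ J : ℕ, ∀ t : ℕ, 2 * N ≤ t → 2 ≤ t → 1 ≤ P.al c0 t → t ≤ K * P.al c0 t →
      ∃ n : ℕ, t < n ∧ n ≤ 2 ^ J * t ∧ P.Good c0 n := by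
  obtain ⟨J, hJ⟩ := exists_J K
  refine ⟨J, fun t ht ht2 ha hK => ?_⟩
  by_contra hcon
  push Not at hcon
  have hlt : ∀ j, t < useq t (j + 1) := fun j => by
    have := useq_ge t j
    simp only [useq]; omega
  have h1 := grow G h0 hc hhx ht (by omega) (J := J) (fun j hj hg => by
    refine hcon (useq t (j + 1)) (hlt j) ((useq_le' t (j + 1)).trans ?_) hg
    exact Nat.mul_le_mul_right _ (Nat.pow_le_pow_right (by norm_num) (by omega))) J le_rfl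
  have h2 := P.al_le c0 (useq t J)
  have h3 := useq_le t J
  have h4 : 2 ^ J * P.al c0 t ≤ useq t J := by omega
  have h5 : 2 ^ J * (2 ^ J * P.al c0 t) ≤ 3 ^ J * (K * P.al c0 t) :=
    calc 2 ^ J * (2 ^ J * P.al c0 t) ≤ 2 ^ J * useq t J := Nat.mul_le_mul_left _ h4
      _ ≤ 3 ^ J * t := h3
      _ ≤ 3 ^ J * (K * P.al c0 t) := Nat.mul_le_mul_left _ hK
  have h6 : 4 ^ J * P.al c0 t ≤ 3 ^ J * K * P.al c0 t := by
    have e : (4 : ℕ) ^ J = 2 ^ J * 2 ^ J := by rw [← mul_pow]; norm_num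
    rw [e]
    calc 2 ^ J * 2 ^ J * P.al c0 t = 2 ^ J * (2 ^ J * P.al c0 t) := by ring
      _ ≤ _ := h5
      _ = 3 ^ J * K * P.al c0 t := by ring
  have h7 : 3 ^ J * K * P.al c0 t < 4 ^ J * P.al c0 t :=
    Nat.mul_lt_mul_of_pos_right hJ ha
  omega

/-- Good scales have bounded ratios. -/
theorem next (G : Geo) (h0 : 0 < c0) (hc : c0 ≤ 1) (hsq : P.Sq c0 N) (hhx : P.Hx c0 N)
    (harm : ∀ c : ℝ, 0 < c → ∀ M0 : ℤ, ∃ M : ℤ, M0 ≤ M ∧ ∃ s0 : ℤ, ∀ s : ℤ, s0 ≤ s →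
      P.p (Arm s (2 * M * s)) < c) :
    ∃ K n0 : ℕ, ∀ n : ℕ, n0 ≤ n → P.Good c0 n → ∃ n', n < n' ∧ n' ≤ K * n ∧ P.Good c0 n' := by
  obtain ⟨M, hM, n0, hn0⟩ := next1 G h0 hsq harm
  obtain ⟨J, hJ⟩ := next2 (P := P) G h0 hc hhx (4 * M)
  refine ⟨2 ^ J * (20 * M), max (max n0 N) 1, fun n hn hg => ?_⟩
  have a1 : n0 ≤ n := le_trans (le_trans (le_max_left _ _) (le_max_left _ _)) hn
  have a2 : N ≤ n := le_trans (le_trans (le_max_right _ _) (le_max_left _ _)) hn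
  have a3 : 1 ≤ n := le_trans (le_max_right _ _) hn
  obtain ⟨t, h1, h2, h3⟩ := hn0 n a1 hg
  obtain ⟨n', g1, g2, g3⟩ := hJ t (by omega) (by omega) (by omega)
    (h2.trans (Nat.mul_le_mul_left _ h3))
  refine ⟨n', by omega, ?_, g3⟩
  calc n' ≤ 2 ^ J * t := g2
    _ ≤ 2 ^ J * (4 * M * (5 * n)) := Nat.mul_le_mul_left _ h2
    _ = 2 ^ J * (20 * M) * n := by ring

/-- **Box crossings at all scales.** -/
theorem rsw (P : PT) (G : Geo) {c0 : ℝ} (h0 : 0 < c0) (N : ℕ)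
    (hsq : ∀ n : ℤ, (N : ℤ) ≤ n → c0 ≤ P.p (LRp 0 n 0 n))
    (hhx : ∀ n : ℤ, (N : ℤ) ≤ n → c0 ≤ P.p (HT 0 0 n (-n) n))
    (harm : ∀ c : ℝ, 0 < c → ∀ M0 : ℤ, ∃ M : ℤ, M0 ≤ M ∧ ∃ s0 : ℤ, ∀ s : ℤ, s0 ≤ s →
      P.p (Arm s (2 * M * s)) < c) :
    ∃ c : ℝ, 0 < c ∧ ∃ r0 : ℤ, ∀ r : ℤ, r0 ≤ r → c ≤ P.p (LRp 0 (4 * r) 0 r) := by
  have hsq' : P.Sq c0 N := hsq
  have hhx' : P.Hx c0 N := hhx
  have hc : c0 ≤ 1 := (hsq N le_rfl).trans (P.le_one _)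
  have hc1 := c1_pos h0
  obtain ⟨K, n0, hK⟩ := next G h0 hc hsq' hhx' harm
  obtain ⟨n1, hn1⟩ : ∃ n1 : ℕ, n1 = max (max n0 (2 * N)) 36 := ⟨_, rfl⟩
  have a1 : n0 ≤ n1 := by rw [hn1]; exact le_trans (le_max_left _ _) (le_max_left _ _)
  have a2 : 2 * N ≤ n1 := by rw [hn1]; exact le_trans (le_max_right _ _) (le_max_left _ _)
  have a3 : 36 ≤ n1 := by rw [hn1]; exact le_max_right _ _
  by_cases hex : ∃ n, n1 ≤ n ∧ P.Good c0 n
  · obtain ⟨n2, hn2, hg2⟩ := hex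
    refine ⟨c1 c0 * (c0 * c1 c0) ^ (80 * K + 79), by positivity, 5 * n2, fun r hr => ?_⟩
    obtain ⟨r', rfl⟩ : ∃ r' : ℕ, r = r' := ⟨r.toNat, by omega⟩
    classical
    set n := Nat.findGreatest (fun n => n2 ≤ n ∧ P.Good c0 n) (r' / 5) with hn
    have hspec : n2 ≤ n ∧ P.Good c0 n :=
      Nat.findGreatest_spec (P := fun n => n2 ≤ n ∧ P.Good c0 n) (m := n2) (by omega)
        ⟨le_rfl, hg2⟩
    have hnr : n ≤ r' / 5 := Nat.findGreatest_le _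
    obtain ⟨n', g1, g2, g3⟩ := hK n (by omega) hspec.2
    have hn' : ¬ n' ≤ r' / 5 := fun h =>
      Nat.findGreatest_is_greatest (P := fun n => n2 ≤ n ∧ P.Good c0 n) g1 h
        ⟨by omega, g3⟩
    have h1 : (r' : ℤ) ≤ 5 * (K * n) + 5 := by
      have : r' ≤ 5 * (K * n) + 5 := by omega
      exact_mod_cast this
    have h2 := long_of_good G h0 hsq' (n := n) (by omega) (by omega) hspec.2 (80 * K + 79)
      (4 * r') (by omega) (by push_cast; nlinarith)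
    exact h2.trans (P.L_mono G (by omega) le_rfl (by omega))
  · push Not at hex
    have hal : ∀ t, n1 ≤ t → P.al c0 t = 0 := by
      intro t ht
      by_contra hne
      obtain ⟨J, hJ⟩ := next2 (P := P) G h0 hc hhx' t
      obtain ⟨n, g1, _, g3⟩ := hJ t (by omega) (by omega) (by omega)
        (Nat.le_mul_of_pos_right _ (by omega))
      exact hex n (by omega) g3
    set a : ℝ := (c0 / 4) * (c0 / 4) with ha
    have hap : 0 < a := by positivity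
    refine ⟨a * (c0 * a) ^ 20, by positivity, 6 * n1 + 6, fun r hr => ?_⟩
    obtain ⟨r', rfl⟩ : ∃ r' : ℕ, r = r' := ⟨r.toNat, by omega⟩
    obtain ⟨t, ht⟩ : ∃ t : ℕ, t = r' / 6 := ⟨_, rfl⟩
    have h1 := long_of_edge (c0 := c0) G h0 (t := t) (by omega) (hal t (by omega))
    exact ratio4 G h0 hsq' (t := t) (by omega) hap.le h1 (by omega) (by omega)

/-- The annulus event at all large scales. -/
theorem rsw_ann (P : PT) (G : Geo) {c0 : ℝ} (h0 : 0 < c0) (N : ℕ)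
    (hsq : ∀ n : ℤ, (N : ℤ) ≤ n → c0 ≤ P.p (LRp 0 n 0 n))
    (hhx : ∀ n : ℤ, (N : ℤ) ≤ n → c0 ≤ P.p (HT 0 0 n (-n) n))
    (harm : ∀ c : ℝ, 0 < c → ∀ M0 : ℤ, ∃ M : ℤ, M0 ≤ M ∧ ∃ s0 : ℤ, ∀ s : ℤ, s0 ≤ s →
      P.p (Arm s (2 * M * s)) < c) :
    ∃ c : ℝ, 0 < c ∧ ∃ r0 : ℤ, ∀ r : ℤ, r0 ≤ r → ∀ p q : ℤ, c ≤ P.p (Ann p q r) := by
  obtain ⟨c, hc, r0, hr0⟩ := rsw P G h0 N hsq hhx harm
  exact ⟨c ^ 4, by positivity, r0, fun r hr p q => P.Ann_ge p q hc.le (hr0 r hr)⟩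

/-- Crossings of parallelograms of every ratio at all large scales. -/
theorem rsw_par (P : PT) (G : Geo) {c0 : ℝ} (h0 : 0 < c0) (N : ℕ)
    (hsq : ∀ n : ℤ, (N : ℤ) ≤ n → c0 ≤ P.p (LRp 0 n 0 n))
    (hhx : ∀ n : ℤ, (N : ℤ) ≤ n → c0 ≤ P.p (HT 0 0 n (-n) n))
    (harm : ∀ c : ℝ, 0 < c → ∀ M0 : ℤ, ∃ M : ℤ, M0 ≤ M ∧ ∃ s0 : ℤ, ∀ s : ℤ, s0 ≤ s →
      P.p (Arm s (2 * M * s)) < c) (k : ℕ) :
    ∃ c : ℝ, 0 < c ∧ ∃ r0 : ℤ, ∀ r : ℤ, r0 ≤ r → c ≤ P.p (LRp 0 (k * r) 0 r) := by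
  obtain ⟨c, hc, r0, hr0⟩ := rsw P G h0 N hsq hhx harm
  refine ⟨c * (c0 * c) ^ k, by positivity, max (max r0 N) 0, fun r hr => ?_⟩
  have a1 : r0 ≤ r := le_trans (le_trans (le_max_left _ _) (le_max_left _ _)) hr
  have a2 : (N : ℤ) ≤ r := le_trans (le_trans (le_max_right _ _) (le_max_left _ _)) hr
  have a3 : 0 ≤ r := le_trans (le_max_right _ _) hr
  have h1 : c ≤ P.L (4 * r) r := hr0 r a1
  have h2 : (4 : ℤ) * r = r + 3 * r := by ring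
  rw [h2] at h1
  have h3 := P.L_iter G h0.le a3 (by omega : (0 : ℤ) ≤ 3 * r) (hsq r a2) hc.le h1 k
  refine h3.trans (P.L_mono G (mul_nonneg (by omega) a3) ?_ le_rfl)
  push_cast
  nlinarith

end PT

end Vale.Agent.P153.F.RSW
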