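import Vale.Agent.P153.F.RSW.Wp
import Vale.Agent.P153.F.RSW.Tassion3
import Vale.Agent.P153.A.Sym
import Vale.Agent.P153.A.Fkg
import Vale.Agent.P153.A.Super
import Vale.Agent.P153.A.E1
import Vale.Agent.P153.A.QLim

/-!
# P153, block F-B: the closed edges of the limit law satisfy the hypotheses of the RSW theorem
-/

namespace Vale.Agent.P153.F.RSW

open MeasureTheory Filter Topology
open Vale.Agent.P153.A
open Vale.Agent.P153.A.QLim (loc_meas tau_meas)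

/-- The event as a function of the spins. -/
noncomputable def ind (E : Set (ℤ × ℤ) → Prop) : Sp → ℝ :=
  {s : Sp | E (Wp s)}.indicator fun _ => (1 : ℝ)

theorem ind_one {E : Set (ℤ × ℤ) → Prop} {s : Sp} (h : E (Wp s)) : ind E s = 1 :=
  Set.indicator_of_mem (s := {s : Sp | E (Wp s)}) h _

theorem ind_zero {E : Set (ℤ × ℤ) → Prop} {s : Sp} (h : ¬ E (Wp s)) : ind E s = 0 :=
  Set.indicator_of_notMem (s := {s : Sp | E (Wp s)}) h _

theorem ind_mono {E : Set (ℤ × ℤ) → Prop} (h : Inc E) : Monotone (ind E) := by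
  intro s t hst
  by_cases h1 : E (Wp s)
  · rw [ind_one h1, ind_one (h _ _ (Wp_mono hst) h1)]
  · rw [ind_zero h1]
    exact Set.indicator_nonneg (fun _ _ => zero_le_one) _

theorem ind_loc {E : Set (ℤ × ℤ) → Prop} (h : Loc E) : ∃ B : Finset Pt, A.Loc B (ind E) := by
  obtain ⟨N, hN⟩ := h
  refine ⟨bx (N.toNat + 1), fun s t hst => ?_⟩
  have hv : ∀ z : ℤ × ℤ, |z.1| ≤ N → |z.2| ≤ N → v1 z ∈ bx (N.toNat + 1) ∧
      v2 z ∈ bx (N.toNat + 1) := by
    intro z h1 h2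
    rw [abs_le] at h1 h2
    unfold bx v1 v2
    simp only [Finset.mem_product, Finset.mem_Icc, Nat.cast_add, Nat.cast_one]
    omega
  have key : ∀ z : ℤ × ℤ, |z.1| ≤ N → |z.2| ≤ N → (z ∈ Wp s ↔ z ∈ Wp t) := by
    intro z h1 h2
    obtain ⟨h3, h4⟩ := hv z h1 h2
    show (z ∈ Mid ∧ s (v1 z) = true ∧ s (v2 z) = true) ↔
      (z ∈ Mid ∧ t (v1 z) = true ∧ t (v2 z) = true)
    rw [hst _ h3, hst _ h4]
  by_cases h1 : E (Wp s)
  · rw [ind_one h1, ind_one (hN _ _ key h1)]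
  · rw [ind_zero h1, ind_zero fun h2 => h1 (hN _ _ (fun z a b => (key z a b).symm) h2)]

theorem Wp_comp {T : ℤ × ℤ → ℤ × ℤ} {θ : Pt → Pt} (hM : ∀ z, T z ∈ Mid ↔ z ∈ Mid)
    (h : ∀ z, (v1 (T z) = θ (v1 z) ∧ v2 (T z) = θ (v2 z)) ∨
      (v1 (T z) = θ (v2 z) ∧ v2 (T z) = θ (v1 z))) (s : Sp) :
    {z | T z ∈ Wp s} = Wp fun x => s (θ x) := by
  ext z
  show (T z ∈ Mid ∧ s (v1 (T z)) = true ∧ s (v2 (T z)) = true) ↔
    (z ∈ Mid ∧ s (θ (v1 z)) = true ∧ s (θ (v2 z)) = true)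
  rw [hM]
  rcases h z with ⟨h1, h2⟩ | ⟨h1, h2⟩
  · rw [h1, h2]
  · rw [h1, h2, and_comm (a := s (θ (v2 z)) = true)]

variable {Q : Measure Om}

theorem meas_ev {E : Set (ℤ × ℤ) → Prop} (h : Loc E) :
    MeasurableSet {ω : Om | E (Wp (tau ω))} := by
  obtain ⟨B, hB⟩ := ind_loc h
  have h1 : Measurable fun ω : Om => ind E (tau ω) := (loc_meas hB).comp tau_meas
  have h2 : {ω : Om | E (Wp (tau ω))} = (fun ω : Om => ind E (tau ω)) ⁻¹' {1} := by
    ext ω
    show E (Wp (tau ω)) ↔ ind E (tau ω) = 1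
    by_cases h3 : E (Wp (tau ω))
    · rw [ind_one h3]; exact ⟨fun _ => rfl, fun _ => h3⟩
    · rw [ind_zero h3]
      exact ⟨fun h4 => absurd h4 h3, fun h4 => absurd h4 (by norm_num)⟩
  rw [h2]
  exact h1 (measurableSet_singleton _)

theorem int_ind {E : Set (ℤ × ℤ) → Prop} (h : Loc E) :
    ∫ ω, ind E (tau ω) ∂Q = pW Q E := by
  have h1 : (fun ω : Om => ind E (tau ω)) = {ω : Om | E (Wp (tau ω))}.indicator 1 := by
    funext ω
    by_cases h3 : E (Wp (tau ω))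
    · rw [ind_one h3, Set.indicator_of_mem (s := {ω : Om | E (Wp (tau ω))}) h3]; rfl
    · rw [ind_zero h3, Set.indicator_of_notMem (s := {ω : Om | E (Wp (tau ω))}) h3]
  rw [h1, integral_indicator_one (meas_ev h)]
  rfl

theorem lim_ind (hQ : IsQ Q) {E : Set (ℤ × ℤ) → Prop} (h : Loc E) :
    Tendsto (fun D => E1 D (ind E)) atTop (𝓝 (pW Q E)) := by
  obtain ⟨B, hB⟩ := ind_loc h
  rw [← int_ind h]
  exact hQ.lim B (fun ω => ind E (tau ω)) fun ω ω' h => hB _ _ fun x hx =>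
    congrArg Prod.fst (h x hx)

theorem pW_fkg (hQ : IsQ Q) {E F : Set (ℤ × ℤ) → Prop} (hE : IL E) (hF : IL F) :
    pW Q E * pW Q F ≤ pW Q fun S => E S ∧ F S := by
  have h1 : (fun s => ind E s * ind F s) = ind fun S => E S ∧ F S := by
    funext s
    by_cases h2 : E (Wp s)
    · by_cases h3 : F (Wp s)
      · rw [ind_one h2, ind_one h3, ind_one (E := fun S => E S ∧ F S) ⟨h2, h3⟩, one_mul]
      · rw [ind_zero h3, mul_zero, ind_zero (E := fun S => E S ∧ F S) fun h => h3 h.2]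
    · rw [ind_zero h2, zero_mul, ind_zero (E := fun S => E S ∧ F S) fun h => h2 h.1]
  refine le_of_tendsto_of_tendsto ((lim_ind hQ hE.2).mul (lim_ind hQ hF.2))
    (lim_ind hQ (hE.and hF).2) (Eventually.of_forall fun D => ?_)
  have h2 := s_fkg s_super s_e1 D (ind E) (ind F) (ind_mono hE.1) (ind_mono hF.1)
  rw [h1] at h2
  exact h2

theorem pW_sym (hQ : IsQ Q) (θ : Pt ≃ Pt) (hθ : ∀ v u, GFF.Adj v u ↔ GFF.Adj (θ v) (θ u))
    {T : ℤ × ℤ → ℤ × ℤ} (hM : ∀ z, T z ∈ Mid ↔ z ∈ Mid)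
    (h : ∀ z, (v1 (T z) = θ (v1 z) ∧ v2 (T z) = θ (v2 z)) ∨
      (v1 (T z) = θ (v2 z) ∧ v2 (T z) = θ (v1 z))) {E : Set (ℤ × ℤ) → Prop} (hE : IL E) :
    pW Q (fun S => E {z | T z ∈ S}) = pW Q E := by
  have hm : Measurable fun (ω : Om) x => ω (θ x) :=
    measurable_pi_lambda _ fun x => measurable_pi_apply _
  unfold pW
  have h1 : {ω : Om | E {z | T z ∈ Wp (tau ω)}} =
      (fun (ω : Om) x => ω (θ x)) ⁻¹' {ω : Om | E (Wp (tau ω))} := by
    ext ω
    show E {z | T z ∈ Wp (tau ω)} ↔ E (Wp (tau fun x => ω (θ x)))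
    rw [Wp_comp hM h (tau ω)]
    rfl
  rw [h1, ← map_measureReal_apply hm (meas_ev hE.2), (s_sym Q hQ).1 θ hθ]

theorem adj_iff {x y : ℤ × ℤ} : GFF.Adj x y ↔
    (y.1 - x.1 = 1 ∧ y.2 - x.2 = 0) ∨ (y.1 - x.1 = -1 ∧ y.2 - x.2 = 0) ∨
    (y.1 - x.1 = 0 ∧ y.2 - x.2 = 1) ∨ (y.1 - x.1 = 0 ∧ y.2 - x.2 = -1) ∨
    (y.1 - x.1 = 1 ∧ y.2 - x.2 = -1) ∨ (y.1 - x.1 = -1 ∧ y.2 - x.2 = 1) := by
  unfold GFF.Adj
  simp only [Set.mem_insert_iff, Set.mem_singleton_iff, Prod.mk.injEq]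

/-- Translation. -/
def tSh (a b : ℤ) : Pt ≃ Pt where
  toFun x := (x.1 + a, x.2 + b)
  invFun x := (x.1 - a, x.2 - b)
  left_inv x := by simp
  right_inv x := by simp

/-- Reflection `(i, j) ↦ (-i - j, j)`. -/
def tX : Pt ≃ Pt where
  toFun x := (-x.1 - x.2, x.2)
  invFun x := (-x.1 - x.2, x.2)
  left_inv x := by ext <;> simp
  right_inv x := by ext <;> simp

/-- Reflection `(i, j) ↦ (i + j, -j)`. -/
def tY : Pt ≃ Pt where
  toFun x := (x.1 + x.2, -x.2)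
  invFun x := (x.1 + x.2, -x.2)
  left_inv x := by ext <;> simp
  right_inv x := by ext <;> simp

/-- Reflection `(i, j) ↦ (j, i)`. -/
def tS : Pt ≃ Pt where
  toFun x := (x.2, x.1)
  invFun x := (x.2, x.1)
  left_inv _ := rfl
  right_inv _ := rfl

theorem tSh_ap (a b : ℤ) (x : Pt) : tSh a b x = (x.1 + a, x.2 + b) := rfl
theorem tX_ap (x : Pt) : tX x = (-x.1 - x.2, x.2) := rfl
theorem tY_ap (x : Pt) : tY x = (x.1 + x.2, -x.2) := rfl
theorem tS_ap (x : Pt) : tS x = (x.2, x.1) := rfl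

theorem mid_iff {z : ℤ × ℤ} : z ∈ Mid ↔ z.1 % 2 = 1 ∨ z.2 % 2 = 1 := by
  show (Odd z.1 ∨ Odd z.2) ↔ _
  rw [Int.odd_iff, Int.odd_iff]

/-- The closed edges of the limit law. -/
noncomputable def ptQ (hQ : IsQ Q) : PT where
  p := pW Q
  nonneg _ := measureReal_nonneg
  le_one _ := by
    have := hQ.prob
    exact measureReal_le_one
  mono E F h := by
    have := hQ.prob
    exact measureReal_mono (fun ω hω => h _ (Wp_sub _) hω)
  or_le E F := by
    have := hQ.prob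
    exact measureReal_union_le {ω : Om | E (Wp (tau ω))} {ω : Om | F (Wp (tau ω))}
  fkg E F hE hF := pW_fkg hQ hE hF
  shift a b E hE := by
    refine pW_sym hQ (tSh a b) (fun v u => ?_) (T := fun z => (z.1 + 2 * a, z.2 + 2 * b))
      (fun z => ?_) (fun z => ?_) hE
    · rw [adj_iff, adj_iff, tSh_ap, tSh_ap]
      dsimp only
      omega
    · rw [mid_iff, mid_iff]
      dsimp only
      omega
    · left
      unfold v1 v2
      rw [tSh_ap, tSh_ap]
      dsimp only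
      refine ⟨Prod.ext ?_ ?_, Prod.ext ?_ ?_⟩ <;> dsimp only <;> omega
  reflx E hE := by
    refine pW_sym hQ tX (fun v u => ?_) (T := fun z => (-z.1 - z.2, z.2))
      (fun z => ?_) (fun z => ?_) hE
    · rw [adj_iff, adj_iff, tX_ap, tX_ap]
      dsimp only
      omega
    · rw [mid_iff, mid_iff]
      dsimp only
      omega
    · unfold v1 v2
      rw [tX_ap, tX_ap]
      simp only [Prod.mk.injEq]
      rcases Int.emod_two_eq_zero_or_one z.2 with h2 | h2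
      · rcases Int.emod_two_eq_zero_or_one z.1 with h1 | h1
        · left; refine ⟨⟨?_, ?_⟩, ?_, ?_⟩ <;> first | trivial | omega
        · right; refine ⟨⟨?_, ?_⟩, ?_, ?_⟩ <;> first | trivial | omega
      · left; refine ⟨⟨?_, ?_⟩, ?_, ?_⟩ <;> first | trivial | omega
  refly E hE := by
    refine pW_sym hQ tY (fun v u => ?_) (T := fun z => (z.1 + z.2, -z.2))
      (fun z => ?_) (fun z => ?_) hE
    · rw [adj_iff, adj_iff, tY_ap, tY_ap]
      dsimp only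
      omega
    · rw [mid_iff, mid_iff]
      dsimp only
      omega
    · unfold v1 v2
      rw [tY_ap, tY_ap]
      simp only [Prod.mk.injEq]
      rcases Int.emod_two_eq_zero_or_one z.1 with h1 | h1 <;>
        rcases Int.emod_two_eq_zero_or_one z.2 with h2 | h2 <;> omega
  swap E hE := by
    refine pW_sym hQ tS (fun v u => ?_) (T := fun z => (z.2, z.1))
      (fun z => ?_) (fun z => ?_) hE
    · rw [adj_iff, adj_iff, tS_ap, tS_ap]
      dsimp only
      omega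
    · rw [mid_iff, mid_iff]
      dsimp only
      omega
    · exact Or.inr ⟨rfl, rfl⟩

end Vale.Agent.P153.F.RSW
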