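import Vale.Agent.P153.F.RSW.Ev

/-!
# P153, block F-B: crossings of a positively associated symmetric percolation

Tassion's argument on the triangular lattice, with hexagons for the landing events and parallelograms
for the crossings; the independence used there is replaced by the hypothesis that the event `Arm` has
small probability.
-/

namespace Vale.Agent.P153.F.RSW

open Relation Vale.Agent.P153.Topo

namespace PT

variable (P : PT)

/-! ### Elementary consequences of the FKG inequality -/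

theorem fkg2 {Q R T : Set (ℤ × ℤ) → Prop} (hQ : IL Q) (hR : IL R)
    (h : ∀ S, S ⊆ Mid → Q S → R S → T S) {a b : ℝ} (ha : 0 ≤ a) (hb : 0 ≤ b) (hQa : a ≤ P.p Q)
    (hRb : b ≤ P.p R) : a * b ≤ P.p T :=
  calc a * b ≤ P.p Q * P.p R := mul_le_mul hQa hRb hb (ha.trans hQa)
    _ ≤ P.p (fun S => Q S ∧ R S) := P.fkg Q R hQ hR
    _ ≤ P.p T := P.mono _ _ (fun _ hM hS => h _ hM hS.1 hS.2)

theorem fkg3 {Q R U T : Set (ℤ × ℤ) → Prop} (hQ : IL Q) (hR : IL R) (hU : IL U)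
    (h : ∀ S, S ⊆ Mid → Q S → R S → U S → T S) {a b c : ℝ} (ha : 0 ≤ a) (hb : 0 ≤ b) (hc : 0 ≤ c)
    (hQa : a ≤ P.p Q) (hRb : b ≤ P.p R) (hUc : c ≤ P.p U) : a * b * c ≤ P.p T :=
  P.fkg2 (hQ.and hR) hU (fun S hM h1 h2 => h S hM h1.1 h1.2 h2) (mul_nonneg ha hb) hc
    (P.fkg2 hQ hR (fun S _ h1 h2 => ⟨h1, h2⟩) ha hb hQa hRb) hUc

/-- The probability of a crossing of a parallelogram with sides `w`, `h`. -/
noncomputable def L (w h : ℤ) : ℝ := P.p (LRp 0 w 0 h)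

theorem L_eq (a c w h : ℤ) : P.p (LRp a (a + w) c (c + h)) = P.L w h := by
  have := P.p_LRp_shift 0 w 0 h a c
  rw [L, ← this]
  congr 2 <;> ring

theorem L_eq' (a b c d : ℤ) : P.p (LRp a b c d) = P.L (b - a) (d - c) := by
  rw [← P.L_eq a c]; congr 2 <;> ring

theorem B_eq' (a b c d : ℤ) : P.p (BTp a b c d) = P.L (d - c) (b - a) := by
  rw [P.p_BTp c d a b, P.L_eq']

theorem L_nonneg (w h : ℤ) : 0 ≤ P.L w h := P.nonneg _

theorem L_mono (G : Geo) {w w' h h' : ℤ} (hw : 0 ≤ w') (hww : w' ≤ w) (hhh : h ≤ h') :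
    P.L w h ≤ P.L w' h' :=
  P.mono _ _ (fun S _ hS => G.mono 0 0 w w' 0 0 h h' S le_rfl hw hww le_rfl hhh hS)

/-- Two crossings of parallelograms joined by the crossing of a rhombus. -/
theorem L_chain (G : Geo) {c0 : ℝ} (h0 : 0 ≤ c0) {w w' h : ℤ} (hh : 0 ≤ h) (hsq : c0 ≤ P.L h h)
    (hw : h ≤ w) (hw' : h ≤ w') {a b : ℝ} (ha : 0 ≤ a) (hb : 0 ≤ b) (hwa : a ≤ P.L w h)
    (hwb : b ≤ P.L w' h) : a * c0 * b ≤ P.L (w + w' - h) h := by
  refine P.fkg3 (IL_LRp 0 w 0 h) (IL_BTp (w - h) w 0 h) (IL_LRp (w - h) (w + w' - h) 0 h)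
    (fun S _ h1 h2 h3 => G.chain 0 (w - h) w (w + w' - h) 0 h S (by omega) (by omega) (by omega)
      hh h1 h2 h3) ha h0 hb ?_ ?_ ?_
  · rw [P.L_eq']; simpa using hwa
  · rw [P.B_eq']; simpa using hsq
  · rw [P.L_eq']
    have e : w + w' - h - (w - h) = w' := by ring
    rw [e]; simpa using hwb

/-- Iterated chain: parallelograms of height `h` and width `h + j * k`. -/
theorem L_iter (G : Geo) {c0 : ℝ} (h0 : 0 ≤ c0) {h k : ℤ} (hh : 0 ≤ h) (hk : 0 ≤ k)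
    (hsq : c0 ≤ P.L h h) {a : ℝ} (ha : 0 ≤ a) (hka : a ≤ P.L (h + k) h) (j : ℕ) :
    a * (c0 * a) ^ j ≤ P.L (h + (j + 1 : ℕ) * k) h := by
  induction j with
  | zero => simpa using hka
  | succ j ih =>
    have h1 : 0 ≤ a * (c0 * a) ^ j := mul_nonneg ha (pow_nonneg (mul_nonneg h0 ha) _)
    have h2 : 0 ≤ ((j + 1 : ℕ) : ℤ) * k := mul_nonneg (Int.natCast_nonneg _) hk
    have := P.L_chain G h0 hh hsq (w := h + (j + 1 : ℕ) * k) (w' := h + k) (by linarith)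
      (by linarith) h1 ha ih hka
    have e : h + ((j + 1 : ℕ) : ℤ) * k + (h + k) - h = h + ((j + 1 + 1 : ℕ) : ℤ) * k := by
      push_cast; ring
    rw [e] at this
    calc a * (c0 * a) ^ (j + 1) = a * (c0 * a) ^ j * c0 * a := by ring
      _ ≤ _ := this

/-- The annulus event from long crossings. -/
theorem Ann_ge {t : ℤ} (p q : ℤ) {a : ℝ} (ha : 0 ≤ a) (h : a ≤ P.L (4 * t) t) :
    a ^ 4 ≤ P.p (Ann p q t) := by
  have e1 : a ≤ P.p (LRp (p - 2 * t) (p + 2 * t) (q + t) (q + 2 * t)) := by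
    rw [P.L_eq']
    have e : p + 2 * t - (p - 2 * t) = 4 * t := by ring
    have e' : q + 2 * t - (q + t) = t := by ring
    rw [e, e']; exact h
  have e2 : a ≤ P.p (LRp (p - 2 * t) (p + 2 * t) (q - 2 * t) (q - t)) := by
    rw [P.L_eq']
    have e : p + 2 * t - (p - 2 * t) = 4 * t := by ring
    have e' : q - t - (q - 2 * t) = t := by ring
    rw [e, e']; exact h
  have e3 : a ≤ P.p (BTp (p - 2 * t) (p - t) (q - 2 * t) (q + 2 * t)) := by
    rw [P.B_eq']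
    have e : q + 2 * t - (q - 2 * t) = 4 * t := by ring
    have e' : p - t - (p - 2 * t) = t := by ring
    rw [e, e']; exact h
  have e4 : a ≤ P.p (BTp (p + t) (p + 2 * t) (q - 2 * t) (q + 2 * t)) := by
    rw [P.B_eq']
    have e : q + 2 * t - (q - 2 * t) = 4 * t := by ring
    have e' : p + 2 * t - (p + t) = t := by ring
    rw [e, e']; exact h
  have h34 := P.fkg2 (T := fun S => BTp (p - 2 * t) (p - t) (q - 2 * t) (q + 2 * t) S ∧
      BTp (p + t) (p + 2 * t) (q - 2 * t) (q + 2 * t) S) (IL_BTp _ _ _ _) (IL_BTp _ _ _ _)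
      (fun S _ x y => ⟨x, y⟩) ha ha e3 e4
  have := P.fkg3 (T := Ann p q t) (IL_LRp _ _ _ _) (IL_LRp _ _ _ _)
    ((IL_BTp _ _ _ _).and (IL_BTp _ _ _ _)) (fun S _ x y z => ⟨x, y, z.1, z.2⟩) ha ha
    (mul_nonneg ha ha) e1 e2 h34
  calc a ^ 4 = a * a * (a * a) := by ring
    _ ≤ _ := this

/-! ### Landing probabilities -/

/-- The probability that the hexagon of side `2 n` contains a path from its bottom side to the part
`[a, b]` of its top side. -/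
noncomputable def H (n a b : ℤ) : ℝ := P.p (HT 0 0 n a b)

theorem H_nonneg (n a b : ℤ) : 0 ≤ P.H n a b := P.nonneg _

theorem H_mono {n a a' b b' : ℤ} (ha : a' ≤ a) (hb : b ≤ b') : P.H n a b ≤ P.H n a' b' :=
  P.mono _ _ (fun S _ ⟨x, y, h, h1, h2, h3, h4⟩ => ⟨x, y, h, h1, h2, by omega, by omega⟩)

theorem H_refl (n a b : ℤ) : P.H n (-b) (-a) = P.H n a b := by
  have := P.p_HT_reflx 0 0 n a b
  rw [neg_zero] at this
  exact this

theorem H_union (n a b c : ℤ) : P.H n a c ≤ P.H n a b + P.H n b c := by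
  refine le_trans (P.mono _ _ ?_) (P.or_le _ _)
  rintro S _ ⟨x, y, h, h1, h2, h3, h4⟩
  rcases le_total (2 * y.1 + y.2) (4 * b) with h5 | h5
  · exact Or.inl ⟨x, y, h, h1, h2, h3, h5⟩
  · exact Or.inr ⟨x, y, h, h1, h2, h5, h4⟩

/-- Half of the crossings land in the right half of the top side. -/
theorem H_half {c0 : ℝ} (n : ℤ) (hx : c0 ≤ P.H n (-n) n) : c0 / 2 ≤ P.H n 0 n := by
  have h1 := P.H_union n (-n) 0 n
  have h2 := P.H_refl n 0 n
  rw [neg_zero] at h2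
  linarith

open Classical in
/-- The threshold `α_n`. -/
noncomputable def al (c0 : ℝ) (n : ℕ) : ℕ :=
  Nat.findGreatest (fun a : ℕ => P.H n 0 a - P.H n a n ≤ c0 / 4) (n / 2)

theorem al_le (c0 : ℝ) (n : ℕ) : P.al c0 n ≤ n / 2 := Nat.findGreatest_le _

/-- (P1) -/
theorem H_ge {c0 : ℝ} (h0 : 0 ≤ c0) {n : ℕ} (hx : c0 ≤ P.H n (-n) n) {a : ℤ}
    (ha : a ≤ P.al c0 n) : c0 / 8 ≤ P.H n a n := by
  classical
  have h1 : P.H n 0 (P.al c0 n) - P.H n (P.al c0 n) n ≤ c0 / 4 := by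
    have := Nat.findGreatest_spec (P := fun a : ℕ => P.H n 0 a - P.H n a n ≤ c0 / 4) (m := 0)
      (n := n / 2) (Nat.zero_le _) (by
        have : P.H n 0 ((0 : ℕ) : ℤ) ≤ P.H n ((0 : ℕ) : ℤ) n := P.H_mono (by simp) (by simp)
        show P.H n 0 ((0 : ℕ) : ℤ) - P.H n ((0 : ℕ) : ℤ) n ≤ c0 / 4
        exact (sub_nonpos.2 this).trans (by linarith))
    exact this
  have h2 := P.H_half n hx
  have h3 := P.H_union n 0 (P.al c0 n) n
  have h4 : P.H n (P.al c0 n) n ≤ P.H n a n := P.H_mono ha le_rfl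
  linarith

/-- (P2) -/
theorem H_gt {c0 : ℝ} {n : ℕ} (hn : P.al c0 n < n / 2) {a : ℤ} (ha : (P.al c0 n : ℤ) < a) :
    c0 / 4 + P.H n a n ≤ P.H n 0 a := by
  classical
  have h1 : ¬ (P.H n 0 (P.al c0 n + 1 : ℕ) - P.H n (P.al c0 n + 1 : ℕ) n ≤ c0 / 4) :=
    Nat.findGreatest_is_greatest (P := fun a : ℕ => P.H n 0 a - P.H n a n ≤ c0 / 4)
      (n := n / 2) (Nat.lt_succ_self (P.al c0 n)) hn
  have h2 : P.H n 0 (P.al c0 n + 1 : ℕ) ≤ P.H n 0 a := P.H_mono le_rfl (by push_cast; omega)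
  have h3 : P.H n a n ≤ P.H n (P.al c0 n + 1 : ℕ) n := P.H_mono (by push_cast; omega) le_rfl
  linarith

theorem HT_eq (p q n u v : ℤ) : P.p (HT p q n u v) = P.H n (u - q) (v - q) := by
  have := P.p_HT_shift 0 0 n (u - q) (v - q) p q
  rw [H, ← this]
  congr 2 <;> ring

theorem HM_eq (p q n u v : ℤ) : P.p (HM p q n u v) = P.H n (u - q) (v - q) := by
  have := P.p_HM (-p) q n u v
  rw [neg_neg] at this
  rw [this, P.HT_eq]

/-- The probability of the cross event. -/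
theorem XX_ge {c0 : ℝ} (h0 : 0 ≤ c0) {n : ℕ} (hx : c0 ≤ P.H n (-n) n) (p q : ℤ) {a : ℤ}
    (ha : a ≤ P.al c0 n) : (c0 / 8) ^ 4 * c0 ≤ P.p (XX p q n a) := by
  have key := P.H_ge h0 hx ha
  have h8 : 0 ≤ c0 / 8 := by linarith
  have e1 : c0 / 8 ≤ P.p (HT p q n (q + a) (q + n)) := by
    rw [P.HT_eq]; simpa using key
  have e2 : c0 / 8 ≤ P.p (HT p q n (q - n) (q - a)) := by
    rw [P.HT_eq]
    have e5 : q - (n : ℤ) - q = -n := by ring
    have e6 : q - a - q = -a := by ring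
    rw [e5, e6, P.H_refl]; exact key
  have e3 : c0 / 8 ≤ P.p (HM p q n (q + a) (q + n)) := by
    rw [P.HM_eq]; simpa using key
  have e4 : c0 / 8 ≤ P.p (HM p q n (q - n) (q - a)) := by
    rw [P.HM_eq]
    have e5 : q - (n : ℤ) - q = -n := by ring
    have e6 : q - a - q = -a := by ring
    rw [e5, e6, P.H_refl]; exact key
  have e5 : c0 ≤ P.p (CT p q n) := by
    rw [P.p_CT]; exact hx
  have h12 := P.fkg2 (T := fun S => HT p q n (q + a) (q + n) S ∧ HT p q n (q - n) (q - a) S)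
      (IL_HT _ _ _ _ _) (IL_HT _ _ _ _ _) (fun S _ x y => ⟨x, y⟩) h8 h8 e1 e2
  have h34 := P.fkg2 (T := fun S => HM p q n (q + a) (q + n) S ∧ HM p q n (q - n) (q - a) S)
      (IL_HM _ _ _ _ _) (IL_HM _ _ _ _ _) (fun S _ x y => ⟨x, y⟩) h8 h8 e3 e4
  have := P.fkg3 (T := XX p q n a) ((IL_HT _ _ _ _ _).and (IL_HT _ _ _ _ _))
    ((IL_HM _ _ _ _ _).and (IL_HM _ _ _ _ _)) (IL_CT _ _ _)
    (fun S _ x y z => ⟨x.1, x.2, y.1, y.2, z⟩) (mul_nonneg h8 h8) (mul_nonneg h8 h8) h0 h12 h34 e5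
  calc (c0 / 8) ^ 4 * c0 = c0 / 8 * (c0 / 8) * (c0 / 8 * (c0 / 8)) * c0 := by ring
    _ ≤ _ := this

end PT

end Vale.Agent.P153.F.RSW
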