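import Vale.Agent.P153.F.RSW.Tassion

/-!
# P153, block F-B: Tassion's argument on the triangular lattice, the scale induction
-/

namespace Vale.Agent.P153.F.RSW

open Relation

namespace PT

variable (P : PT)

/-- The bound for the cross event. -/
noncomputable def cX (c0 : ℝ) : ℝ := (c0 / 8) ^ 4 * c0

/-- The bound for the crossings at a good scale. -/
noncomputable def c1 (c0 : ℝ) : ℝ := (c0 / 4) ^ 2 * cX c0 * cX c0

theorem cX_nonneg {c0 : ℝ} (h0 : 0 ≤ c0) : 0 ≤ cX c0 := by unfold cX; positivity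

theorem cX_pos {c0 : ℝ} (h0 : 0 < c0) : 0 < cX c0 := by unfold cX; positivity

theorem c1_pos {c0 : ℝ} (h0 : 0 < c0) : 0 < c1 c0 := by
  have := cX_pos h0
  unfold c1; positivity

theorem cX_le {c0 : ℝ} (h0 : 0 ≤ c0) (h1 : c0 ≤ 1) : cX c0 ≤ 1 := by
  unfold cX
  have h2 : (c0 / 8) ^ 4 ≤ 1 := pow_le_one₀ (by positivity) (by linarith)
  calc (c0 / 8) ^ 4 * c0 ≤ 1 * 1 := mul_le_mul h2 h1 h0 zero_le_one
    _ = 1 := one_mul 1

/-- Good scales. -/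
def Good (c0 : ℝ) (n : ℕ) : Prop := c1 c0 ≤ P.L (5 * n - 3) (4 * n + 2 * (n / 3 : ℕ))

/-- Rhombi of side at least `N` are crossed with probability at least `c0`. -/
def Sq (c0 : ℝ) (N : ℕ) : Prop := ∀ n : ℤ, (N : ℤ) ≤ n → c0 ≤ P.L n n

/-- Hexagons of index at least `N` are crossed with probability at least `c0`. -/
def Hx (c0 : ℝ) (N : ℕ) : Prop := ∀ n : ℤ, (N : ℤ) ≤ n → c0 ≤ P.H n (-n) n

variable {P} {c0 : ℝ} {N : ℕ}

/-- First case of a good scale. -/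
theorem good1 (G : Geo) (h0 : 0 < c0) (hc : c0 ≤ 1) (hhx : P.Hx c0 N) {n : ℕ} (hn : 2 * N ≤ n)
    (hn1 : 1 ≤ n) (ha : P.al c0 n < n / 2) (hb : P.al c0 n + 1 ≤ 2 * P.al c0 (n - n / 3)) :
    P.Good c0 n := by
  obtain ⟨m, hm⟩ : ∃ m : ℕ, m = n - n / 3 := ⟨_, rfl⟩
  rw [← hm] at hb
  obtain ⟨v, hv⟩ : ∃ v : ℕ, v = (P.al c0 n + 1) / 2 := ⟨_, rfl⟩
  have hsm : c0 ≤ P.H m (-m) m := hhx _ (by omega)
  have e0 : c0 / 4 ≤ P.H n (-(P.al c0 m : ℤ) - (-(v : ℤ))) (P.al c0 m - (-(v : ℤ))) := by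
    have h1 := P.H_gt ha (a := (P.al c0 n : ℤ) + 1) (by omega)
    have h2 := P.H_nonneg n ((P.al c0 n : ℤ) + 1) n
    have h4 : P.H n 0 ((P.al c0 n : ℤ) + 1) ≤
        P.H n (-(P.al c0 m : ℤ) - (-(v : ℤ))) (P.al c0 m - (-(v : ℤ))) :=
      P.H_mono (by omega) (by omega)
    linarith
  have e1 : c0 / 4 ≤ P.p (HT ((m : ℤ) - n) (-(v : ℤ)) n (-(P.al c0 m : ℤ)) (P.al c0 m)) := by
    rw [P.HT_eq]; exact e0
  have e2 : c0 / 4 ≤ P.p (HM ((n : ℤ) - m) (-(v : ℤ)) n (-(P.al c0 m : ℤ)) (P.al c0 m)) := by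
    rw [P.HM_eq]; exact e0
  have e3 : cX c0 ≤ P.p (XX 0 0 m (P.al c0 m)) := P.XX_ge h0.le hsm 0 0 le_rfl
  have key := P.fkg3 (T := BTp (-(v : ℤ) - (3 * n - m)) (-(v : ℤ) + (3 * n - m))
      (-(4 * n - 2 * m)) (4 * n - 2 * m))
    (IL_HT _ _ _ _ _) (IL_HM _ _ _ _ _) (IL_XX _ _ _ _)
    (fun S _ h1 h2 h3 => G.f1 n m v (P.al c0 m) S (by omega) (by omega) (by omega) (by omega)
      (by omega) h1 h2 h3) (by positivity) (by positivity) (cX_nonneg h0.le) e1 e2 e3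
  rw [P.B_eq'] at key
  have key2 := key.trans (P.L_mono G (w' := 5 * n - 3) (h' := 4 * n + 2 * (n / 3 : ℕ)) (by
    by_contra hcon
    omega) (by omega) (by omega))
  refine le_trans ?_ key2
  unfold c1
  have := cX_le h0.le hc
  have h7 : 0 ≤ (c0 / 4) ^ 2 * cX c0 := mul_nonneg (by positivity) (cX_nonneg h0.le)
  calc (c0 / 4) ^ 2 * cX c0 * cX c0 ≤ (c0 / 4) ^ 2 * cX c0 * 1 :=
        mul_le_mul_of_nonneg_left this h7
    _ = c0 / 4 * (c0 / 4) * cX c0 := by ring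

/-- Second case of a good scale. -/
theorem good2 (G : Geo) (h0 : 0 < c0) (hc : c0 ≤ 1) (hhx : P.Hx c0 N) {n : ℕ} (hn : 2 * N ≤ n)
    (hn1 : 1 ≤ n) (ha : P.al c0 n = n / 2) : P.Good c0 n := by
  obtain ⟨h, hh⟩ : ∃ h : ℕ, h = n / 2 := ⟨_, rfl⟩
  have hsn : c0 ≤ P.H n (-n) n := hhx _ (by omega)
  have e1 : cX c0 ≤ P.p (XX 0 0 n h) := P.XX_ge h0.le hsn 0 0 (by omega)
  have e2 : cX c0 ≤ P.p (XX 0 (-(2 * h)) n h) := P.XX_ge h0.le hsn 0 _ (by omega)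
  have key := P.fkg2 (T := LRp (-(2 * (h : ℤ)) - 2 * n) (2 * n) (-(2 * n)) (2 * n))
    (IL_XX _ _ _ _) (IL_XX _ _ _ _)
    (fun S _ h1 h2 => G.zig n h S (by omega) (by omega) (by omega) h1 h2) (cX_nonneg h0.le)
    (cX_nonneg h0.le) e1 e2
  rw [P.L_eq'] at key
  have key2 := key.trans (P.L_mono G (w' := 5 * n - 3) (h' := 4 * n + 2 * (n / 3 : ℕ)) (by
    by_contra hcon
    omega) (by omega) (by omega))
  refine le_trans ?_ key2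
  unfold c1
  have h7 : (c0 / 4) ^ 2 ≤ 1 := pow_le_one₀ (by positivity) (by linarith)
  have h8 := cX_nonneg h0.le
  calc (c0 / 4) ^ 2 * cX c0 * cX c0 = (c0 / 4) ^ 2 * (cX c0 * cX c0) := by ring
    _ ≤ 1 * (cX c0 * cX c0) := mul_le_mul_of_nonneg_right h7 (mul_nonneg h8 h8)
    _ = cX c0 * cX c0 := one_mul _

/-- At a bad scale the threshold has doubled. -/
theorem not_good (G : Geo) (h0 : 0 < c0) (hc : c0 ≤ 1) (hhx : P.Hx c0 N) {n : ℕ} (hn : 2 * N ≤ n)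
    (hn1 : 1 ≤ n) (hg : ¬ P.Good c0 n) :
    P.al c0 n < n / 2 ∧ 2 * P.al c0 (n - n / 3) ≤ P.al c0 n := by
  have h1 : P.al c0 n < n / 2 := by
    rcases (P.al_le c0 n).lt_or_eq with h | h
    · exact h
    · exact absurd (good2 G h0 hc hhx hn hn1 h) hg
  refine ⟨h1, ?_⟩
  by_contra h2
  exact hg (good1 G h0 hc hhx hn hn1 h1 (by omega))

/-- Landing paths joined by an annulus. -/
theorem long_of_ann (G : Geo) (h0 : 0 < c0) {s t : ℕ} (hs : 0 < s) (hst : 2 * s ≤ t)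
    (ha : P.al c0 t < s) {b : ℝ} (hb : 0 ≤ b) (hA : b ≤ P.p (Ann 0 0 s)) :
    (c0 / 4) * (c0 / 4) * b ≤ P.L (8 * t) (6 * t) := by
  have h1 := P.H_gt (c0 := c0) (n := t) (by omega) (a := (s : ℤ)) (by omega)
  have h2 := P.H_nonneg t (s : ℤ) t
  have h3 : c0 / 4 ≤ P.H t 0 s := by linarith
  have h4 : c0 / 4 ≤ P.p (HT (-(t : ℤ)) 0 t 0 s) := by
    rw [P.HT_eq]; simpa using h3
  have h5 : c0 / 4 ≤ P.p (HM (t : ℤ) 0 t 0 s) := by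
    rw [P.HM_eq]; simpa using h3
  have key := P.fkg3 (T := BTp (-(3 * (t : ℤ))) (3 * t) (-(4 * t)) (4 * t)) (IL_HT _ _ _ _ _)
    (IL_HM _ _ _ _ _) (IL_Ann _ _ _)
    (fun S _ h1 h2 h3 => G.f2 s t S (by omega) (by omega) h1 h2 h3) (by positivity)
    (by positivity) hb h4 h5 hA
  rw [P.B_eq'] at key
  have e1 : 4 * (t : ℤ) - (-(4 * (t : ℤ))) = 8 * t := by ring
  have e2 : 3 * (t : ℤ) - (-(3 * (t : ℤ))) = 6 * t := by ring
  rwa [e1, e2] at key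

/-- Landing paths joined at the point `(1, 0)`. -/
theorem long_of_edge (G : Geo) (h0 : 0 < c0) {t : ℕ} (ht : 2 ≤ t) (ha : P.al c0 t = 0) :
    (c0 / 4) * (c0 / 4) ≤ P.L (8 * t) (6 * t) := by
  have h1 := P.H_gt (c0 := c0) (n := t) (by omega) (a := 1) (by omega)
  have h2 := P.H_nonneg t 1 t
  have h3 : c0 / 4 ≤ P.H t 0 1 := by linarith
  have h4 : c0 / 4 ≤ P.p (HT (-(t : ℤ)) 0 t 0 1) := by
    rw [P.HT_eq]; simpa using h3
  have h5 : c0 / 4 ≤ P.p (HM (t : ℤ) 0 t 0 1) := by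
    rw [P.HM_eq]; simpa using h3
  have key := P.fkg2 (T := BTp (-(3 * (t : ℤ))) (3 * t) (-(4 * t)) (4 * t)) (IL_HT _ _ _ _ _)
    (IL_HM _ _ _ _ _) (fun S hM h1 h2 => G.f2' t S hM (by omega) h1 h2) (by positivity)
    (by positivity) h4 h5
  rw [P.B_eq'] at key
  have e1 : 4 * (t : ℤ) - (-(4 * (t : ℤ))) = 8 * t := by ring
  have e2 : 3 * (t : ℤ) - (-(3 * (t : ℤ))) = 6 * t := by ring
  rwa [e1, e2] at key

/-- From ratio `4 / 3` to parallelograms `4 r × r`. -/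
theorem ratio4 (G : Geo) (h0 : 0 < c0) (hsq : P.Sq c0 N) {t : ℕ} (ht : N ≤ t) {a : ℝ}
    (ha : 0 ≤ a) (h : a ≤ P.L (8 * t) (6 * t)) {r : ℤ} (hr : 6 * (t : ℤ) ≤ r)
    (hr2 : r ≤ 12 * (t : ℤ)) : a * (c0 * a) ^ 20 ≤ P.L (4 * r) r := by
  have hs : c0 ≤ P.L (6 * t) (6 * t) := hsq _ (by omega)
  have e : (8 : ℤ) * t = 6 * t + 2 * t := by ring
  rw [e] at h
  have h1 := P.L_iter G h0.le (h := 6 * t) (k := 2 * t) (by omega) (by omega) hs ha h 20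
  refine h1.trans (P.L_mono G (by omega) ?_ hr)
  push_cast
  omega

/-- A good scale gives long crossings. -/
theorem long_of_good (G : Geo) (h0 : 0 < c0) (hsq : P.Sq c0 N) {n : ℕ} (hn : N ≤ n)
    (hn8 : 36 ≤ n) (hg : P.Good c0 n) (j : ℕ) (w : ℤ) (hw : 0 ≤ w) (hwj : 4 * w ≤ (j + 1) * n) :
    c1 c0 * (c0 * c1 c0) ^ j ≤ P.L w (5 * n) := by
  have hs : c0 ≤ P.L (4 * n + 2 * (n / 3 : ℕ)) (4 * n + 2 * (n / 3 : ℕ)) := hsq _ (by omega)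
  have e : (5 * (n : ℤ) - 3) = 4 * n + 2 * (n / 3 : ℕ) + (n - 3 - 2 * (n / 3 : ℕ)) := by ring
  have hg' : c1 c0 ≤ P.L (4 * n + 2 * (n / 3 : ℕ) + (n - 3 - 2 * (n / 3 : ℕ)))
      (4 * n + 2 * (n / 3 : ℕ)) := by rw [← e]; exact hg
  have h1 := P.L_iter G h0.le (h := 4 * n + 2 * (n / 3 : ℕ)) (k := n - 3 - 2 * (n / 3 : ℕ))
    (by omega) (by omega) hs (c1_pos h0).le hg' j
  refine h1.trans (P.L_mono G hw ?_ (by omega))
  have h2 : (n : ℤ) ≤ 4 * (n - 3 - 2 * (n / 3 : ℕ)) := by omega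
  have h3 : (n : ℤ) * (j + 1 : ℕ) ≤ 4 * (n - 3 - 2 * (n / 3 : ℕ)) * (j + 1 : ℕ) :=
    mul_le_mul_of_nonneg_right h2 (by positivity)
  push_cast at h3 ⊢
  nlinarith

end PT

end Vale.Agent.P153.F.RSW
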